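import Vale.Agent.P354XR.Mod

/-!
The rotation fields on the chart (t, r, xi1, xi2), the Casimir operator, and the operators P(s, k).
-/

set_option linter.unusedSimpArgs false

namespace Vale.Agent.P354XR

open Vale.Agent.P354XG Vale.Agent.P354XG.Geo Vale.Agent.P354XD

variable {A : Type*} [CommRing A] [Algebra ℂ A]

/-- The generators of the rotations: the linear fields -(i / 2) sigma_j xi. -/
noncomputable def Om (K : Hp A) : Fin 3 → Der A :=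
  ![(hf A * ii A) • (K.z 5 • K.d 4 + K.z 4 • K.d 5 - K.z 3 • K.d 2 - K.z 2 • K.d 3),
    hf A • (K.z 2 • K.d 3 - K.z 3 • K.d 2 + K.z 4 • K.d 5 - K.z 5 • K.d 4),
    (hf A * ii A) • (K.z 3 • K.d 3 - K.z 2 • K.d 2 + K.z 4 • K.d 4 - K.z 5 • K.d 5)]

/-- The coordinates on the sphere and their derivatives. -/
noncomputable def ww (K : Hp A) (j : Fin 3) : A := K.om j.succ
noncomputable def wm (K : Hp A) (j : Fin 3) : A := K.mu j.succ
noncomputable def wb (K : Hp A) (j : Fin 3) : A := K.mub j.succ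

/-- The spin operator and the Casimir operator. -/
noncomputable def Sp (K : Hp A) (f : A) : A := hf A * (K.H f - K.B f)
noncomputable def Cas (K : Hp A) (f : A) : A := -∑ j, Om K j (Om K j f)

variable {K : Hp A}

theorem ww_two : ww K 2 = K.kc.x := rfl
theorem wm_two : wm K 2 = -K.kc.s := rfl
theorem wb_two : wb K 2 = -K.kc.sb := rfl

theorem Om_eq (h : K.Is) (j : Fin 3) (f : A) : Om K j f =
    hf A * ii A * (wb K j * K.Q f - wm K j * K.P f - ww K j * (K.H f - K.B f)) := by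
  have n := h.hN
  have i := ii_sq (A := A)
  simp only [Hp.N] at n
  fin_cases j <;>
    simp [Om, ww, wm, wb, Hp.om, Hp.mu, Hp.mub, Hp.P_ap, Hp.Q_ap, Hp.H_ap, Hp.B_ap]
  · linear_combination -(hf A * ii A * (K.z 5 * K.d 4 f + K.z 4 * K.d 5 f - K.z 3 * K.d 2 f -
      K.z 2 * K.d 3 f)) * n
  · linear_combination -(hf A * (K.z 2 * K.d 3 f - K.z 3 * K.d 2 f + K.z 4 * K.d 5 f -
      K.z 5 * K.d 4 f)) * n + hf A * K.Ni * (K.z 2 * K.z 4 + K.z 3 * K.z 5) *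
      (K.z 2 * K.d 3 f - K.z 3 * K.d 2 f + K.z 4 * K.d 5 f - K.z 5 * K.d 4 f) * i
  · linear_combination -(hf A * ii A * (K.z 3 * K.d 3 f - K.z 2 * K.d 2 f + K.z 4 * K.d 4 f -
      K.z 5 * K.d 5 f)) * n

theorem Om_V (h : K.Is) (j : Fin 3) : Om K j = K.kc.V 0 0 (-(hf A * ii A * wm K j))
    (hf A * ii A * wb K j) (-(hf A * ii A * ww K j)) (hf A * ii A * ww K j) := by
  ext f
  rw [Om_eq h, KC.V_ap]
  simp only [Hp.kc]
  ring

theorem F2_Om (h : K.Is) (f : A) : K.kc.F2 f = 2 * Om K 2 f := by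
  rw [Om_eq h, ww_two, wm_two, wb_two, KC.F2, KC.V_ap]
  simp only [Hp.kc]
  linear_combination -(ii A * (2 * K.z 2 * K.z 3 * K.Ni * K.P f - 2 * K.z 4 * K.z 5 * K.Ni * K.Q f -
    (K.z 2 * K.z 4 - K.z 3 * K.z 5) * K.Ni * (K.H f - K.B f))) * two_hf (A := A)

theorem tw (h : K.Is) (j : Fin 3) : K.d 0 (ww K j) = 0 ∧ K.d 1 (ww K j) = 0 ∧
    K.P (ww K j) = wb K j ∧ K.Q (ww K j) = wm K j ∧ K.H (ww K j) = 0 ∧ K.B (ww K j) = 0 ∧
    K.d 0 (wm K j) = 0 ∧ K.d 1 (wm K j) = 0 ∧ K.P (wm K j) = -(2 * ww K j) ∧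
    K.Q (wm K j) = 0 ∧ K.H (wm K j) = wm K j ∧ K.B (wm K j) = -wm K j ∧
    K.d 0 (wb K j) = 0 ∧ K.d 1 (wb K j) = 0 ∧ K.P (wb K j) = 0 ∧
    K.Q (wb K j) = -(2 * ww K j) ∧ K.H (wb K j) = -wb K j ∧ K.B (wb K j) = wb K j :=
  h.tom j.succ

theorem pw (h : K.Is) : ∑ j, ww K j * ww K j = 1 ∧ ∑ j, ww K j * wm K j = 0 ∧
    ∑ j, ww K j * wb K j = 0 ∧ ∑ j, wm K j * wm K j = 0 ∧ ∑ j, wb K j * wb K j = 0 ∧
    ∑ j, wm K j * wb K j = 2 := by
  have := h.prods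
  simp only [Fin.sum_univ_succ (n := 3)] at this
  simpa [ww, wm, wb, Hp.om, Hp.mu, Hp.mub] using this

theorem c_Om (h : K.Is) (j : Fin 3) (f : A) : K.c (Om K j f) = Om K j (K.c f) := by
  simp only [Om_eq h, map_mul, map_sub, h.c_hf, h.c_ii, ww, wm, wb, h.c_om, h.c_mu, h.c_mub, h.c_P,
    h.c_Q, h.c_H, h.c_Bf]
  ring

/-- The rotations commute with the six fields of the chart. -/
theorem Om_comm (h : K.Is) (j : Fin 3) (f : A) : K.d 0 (Om K j f) = Om K j (K.d 0 f) ∧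
    K.d 1 (Om K j f) = Om K j (K.d 1 f) ∧ K.P (Om K j f) = Om K j (K.P f) ∧
    K.Q (Om K j f) = Om K j (K.Q f) ∧ K.H (Om K j f) = Om K j (K.H f) ∧
    K.B (Om K j f) = Om K j (K.B f) := by
  have k := h.kc
  have e1 : ∀ f, K.P (K.d 0 f) = K.d 0 (K.P f) := k.P_T
  have e2 : ∀ f, K.Q (K.d 0 f) = K.d 0 (K.Q f) := k.Q_T
  have e3 : ∀ f, K.H (K.d 0 f) = K.d 0 (K.H f) := k.H_T
  have e4 : ∀ f, K.B (K.d 0 f) = K.d 0 (K.B f) := k.B_T
  have e5 : ∀ f, K.P (K.d 1 f) = K.d 1 (K.P f) := k.P_R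
  have e6 : ∀ f, K.Q (K.d 1 f) = K.d 1 (K.Q f) := k.Q_R
  have e7 : ∀ f, K.H (K.d 1 f) = K.d 1 (K.H f) := k.H_R
  have e8 : ∀ f, K.B (K.d 1 f) = K.d 1 (K.B f) := k.B_R
  have f1 : ∀ f, K.P (K.Q f) = K.Q (K.P f) + K.H f - K.B f := k.P_Q
  have f2 : ∀ f, K.H (K.P f) = K.P (K.H f) - K.P f := k.H_P
  have f3 : ∀ f, K.H (K.Q f) = K.Q (K.H f) + K.Q f := k.H_Q
  have f4 : ∀ f, K.B (K.P f) = K.P (K.B f) + K.P f := k.B_P
  have f5 : ∀ f, K.B (K.Q f) = K.Q (K.B f) - K.Q f := k.B_Q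
  have f6 : ∀ f, K.B (K.H f) = K.H (K.B f) := k.B_H
  simp only [Om_eq h, D_mul, D_sub, D_add, D_ii, Hp.D_hf, tw h j, e1, e2, e3, e4, e5, e6, e7, e8,
    f1, f2, f3, f4, f5, f6]
  refine ⟨?_, ?_, ?_, ?_, ?_, ?_⟩ <;> ring

theorem Om_z (h : K.Is) (j : Fin 3) : Om K j (K.z 0) = 0 ∧ Om K j (K.z 1) = 0 ∧
    Om K j K.N = 0 ∧ Om K j K.Ni = 0 ∧ Om K j K.ri = 0 := by
  have n : Om K j K.N = 0 := by
    fin_cases j <;> simp [Om, Hp.N, D_add, D_mul, h.dz] <;> ring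
  have r : Om K j (K.z 1) = 0 := by fin_cases j <;> simp [Om, h.dz]
  refine ⟨by fin_cases j <;> simp [Om, h.dz], r, n, ?_, ?_⟩
  · rw [KC.D_inv _ (show K.Ni * K.N = 1 by rw [mul_comm, h.hN]), n]; ring
  · rw [KC.D_inv _ (show K.ri * K.z 1 = 1 by rw [mul_comm, h.hr]), r]; ring

theorem Om_Om (h : K.Is) (j : Fin 3) (f : A) :
    Om K j (Om K (j + 1) f) - Om K (j + 1) (Om K j f) = -Om K (j + 2) f := by
  have t := two_hf (A := A)
  have i := ii_sq (A := A)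
  fin_cases j <;>
    simp [Om, D_mul, D_sub, D_add, D_ii, Hp.D_hf, h.dz, h.comm 3 2, h.comm 4 2, h.comm 5 2,
      h.comm 4 3, h.comm 5 3, h.comm 5 4]
  · linear_combination -(hf A * ii A * (K.z 3 * K.d 3 f - K.z 2 * K.d 2 f + K.z 4 * K.d 4 f -
      K.z 5 * K.d 5 f)) * t
  · linear_combination -(hf A * ii A * (K.z 5 * K.d 4 f + K.z 4 * K.d 5 f - K.z 3 * K.d 2 f -
      K.z 2 * K.d 3 f)) * t
  · linear_combination -(hf A * (K.z 2 * K.d 3 f - K.z 3 * K.d 2 f + K.z 4 * K.d 5 f -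
      K.z 5 * K.d 4 f)) * t + 2 * hf A * hf A * (K.z 2 * K.d 3 f - K.z 3 * K.d 2 f +
      K.z 4 * K.d 5 f - K.z 5 * K.d 4 f) * i

theorem Om_ww (h : K.Is) (j : Fin 3) : Om K j (ww K j) = 0 ∧
    Om K j (ww K (j + 1)) = -ww K (j + 2) ∧ Om K j (ww K (j + 2)) = ww K (j + 1) := by
  have t := two_hf (A := A)
  have i := ii_sq (A := A)
  have n := (Om_z h j).2.2.2.1
  fin_cases j <;>
    simp only [Fin.reduceFinMk, Fin.reduceAdd, Fin.isValue, ww, Hp.om, Fin.succ_zero_eq_one,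
      Fin.succ_one_eq_two, Fin.reduceSucc, Matrix.cons_val, D_mul, D_neg, D_sub, D_add, D_ii] at n ⊢ <;>
    simp only [n] <;> simp [Om, h.dz] <;> refine ⟨?_, ?_, ?_⟩
  · ring
  · linear_combination (K.z 2 * K.z 4 - K.z 3 * K.z 5) * K.Ni * (t - 2 * hf A * i)
  · linear_combination -(ii A * (K.z 4 * K.z 3 - K.z 2 * K.z 5) * K.Ni) * t
  · ring
  · linear_combination -((K.z 4 * K.z 3 + K.z 2 * K.z 5) * K.Ni) * t
  · linear_combination (K.z 2 * K.z 4 - K.z 3 * K.z 5) * K.Ni * t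
  · ring
  · linear_combination ii A * (K.z 4 * K.z 3 - K.z 2 * K.z 5) * K.Ni * t
  · linear_combination (K.z 4 * K.z 3 + K.z 2 * K.z 5) * K.Ni * (t - 2 * hf A * i)

theorem spin (h : K.Is) (f : A) : ∑ j, ww K j * Om K j f = -(ii A * Sp K f) := by
  obtain ⟨p1, p2, p3, -⟩ := pw h
  simp only [Om_eq h, Sp, Fin.sum_univ_three] at p1 p2 p3 ⊢
  linear_combination hf A * ii A * (K.Q f * p3 - K.P f * p2 - (K.H f - K.B f) * p1)

theorem P_Om (h : K.Is) (f : A) : K.P f = ii A * ∑ j, wb K j * Om K j f := by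
  obtain ⟨-, -, p3, -, p5, p6⟩ := pw h
  simp only [Om_eq h, Fin.sum_univ_three] at p3 p5 p6 ⊢
  linear_combination -(hf A * ii A * ii A) * (K.Q f * p5 - K.P f * p6 - (K.H f - K.B f) * p3) -
    K.P f * two_hf (A := A) + 2 * hf A * K.P f * ii_sq (A := A)

theorem Q_Om (h : K.Is) (f : A) : K.Q f = -(ii A * ∑ j, wm K j * Om K j f) := by
  obtain ⟨-, p2, -, p4, -, p6⟩ := pw h
  simp only [Om_eq h, Fin.sum_univ_three] at p2 p4 p6 ⊢
  linear_combination (hf A * ii A * ii A) * (K.Q f * p6 - K.P f * p4 - (K.H f - K.B f) * p2) -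
    K.Q f * two_hf (A := A) + 2 * hf A * K.Q f * ii_sq (A := A)

/-- The Casimir operator in the fields of the chart. -/
theorem Cas_eq (h : K.Is) (f : A) : Cas K f = -K.Q (K.P f) + Sp K (Sp K f) - Sp K f := by
  have e : ∀ j, Om K j (Om K j f) = hf A * ii A * (wb K j * Om K j (K.Q f) -
      wm K j * Om K j (K.P f) - ww K j * Om K j (K.H f - K.B f)) := fun j => by
    rw [Om_eq h j (Om K j f)]
    simp only [Om_comm h j f, D_sub]
  have e1 := P_Om h (K.Q f)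
  have e2 := Q_Om h (K.P f)
  have e3 := spin h (K.H f - K.B f)
  have e4 : K.P (K.Q f) = K.Q (K.P f) + K.H f - K.B f := h.kc.P_Q f
  have t := two_hf (A := A)
  simp only [Cas, Sp, e, Fin.sum_univ_three, D_mul, Hp.D_hf] at e1 e2 e3 ⊢
  linear_combination hf A * e1 + hf A * e2 + hf A * ii A * e3 - hf A * e4 - K.Q (K.P f) * t -
    hf A * hf A * (K.H (K.H f - K.B f) - K.B (K.H f - K.B f)) * ii_sq (A := A)

namespace KC

/-- The operator with the radial spin s and the angular spin k. -/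
noncomputable def Pk (K : KC A) (s k f : A) : A :=
  K.De * K.R (K.R f) + (1 - s) * (2 * K.r - 2 * K.M) * K.R f + 2 * K.W * K.T (K.R f) +
    K.a * K.F2 (K.R f) + 2 * K.r * (1 - 2 * s) * K.T f + ((s * s - s) - (k * k - k)) * f +
    K.Q (K.P f) + K.a * K.a * K.s * K.sb * K.T (K.T f) + K.a * K.T (K.F2 f) -
    2 * k * ii A * K.a * K.x * K.T f

theorem Pk_self (K : KC A) (s f : A) : K.Pk s s f = K.Ps s f := by rw [Pk, Ps]; ring

theorem Is.R_Pk {K : KC A} (h : K.Is) {s k : A} (hs : K.R s = 0) (hk : K.R k = 0) (f : A) :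
    K.R (K.Pk s k f) = K.Pk (s - 1) k (K.R f) + 2 * (1 - 2 * s) * K.T f := by
  simp only [Pk, De, W, D_add, D_sub, D_mul, D_num, D_one, D_ii, h.tab, hs, hk, h.R_T, h.P_R, h.Q_R,
    h.F2_R, ← h.T_F2]
  ring

theorem Is.T_Pk {K : KC A} (h : K.Is) {s k : A} (hs : K.T s = 0) (hk : K.T k = 0) (f : A) :
    K.T (K.Pk s k f) = K.Pk s k (K.T f) := by
  simp only [Pk, De, W, D_add, D_sub, D_mul, D_num, D_one, D_ii, h.tab, hs, hk, h.R_T, h.P_T, h.Q_T,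
    ← h.T_F2]
  ring

theorem Is.F2_Pk {K : KC A} (h : K.Is) {s k : A} (hs : K.F2 s = 0) (hk : K.F2 k = 0) (f : A) :
    K.F2 (K.Pk s k f) = K.Pk s k (K.F2 f) := by
  simp only [Pk, De, W, D_add, D_sub, D_mul, D_num, D_one, D_ii, h.F2_tab, hs, hk, h.F2_R, h.F2_P,
    h.F2_Q, ← h.T_F2]
  ring

end KC
end Vale.Agent.P354XR
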