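import Vale.Agent.P354XR.Kerr

/-!
Constant rescaling of a GHP structure; the Killing fields of Kerr in the GHP frame.
-/

namespace Vale.Agent.P354XR

set_option linter.unusedSimpArgs false

open Vale.Agent.P354XG

variable {A : Type*} [CommRing A] [Algebra ℂ A]

/-- The structure of the metric g / k^2. -/
def scale (G : GHP A) (k : A) : GHP A where
  c := G.c
  th := k • G.th
  tp := k • G.tp
  et := k • G.et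
  ep := k • G.ep
  H := G.H
  Hb := G.Hb
  ka := k * G.ka
  si := k * G.si
  rh := k * G.rh
  ta := k * G.ta
  ka' := k * G.ka'
  si' := k * G.si'
  rh' := k * G.rh'
  ta' := k * G.ta'
  P0 := k * k * G.P0
  P1 := k * k * G.P1
  P2 := k * k * G.P2
  P3 := k * k * G.P3
  P4 := k * k * G.P4

/-- A real constant. -/
structure Cst (G : GHP A) (k : A) : Prop where
  c : G.c k = k
  th : G.th k = 0
  tp : G.tp k = 0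
  et : G.et k = 0
  ep : G.ep k = 0
  H : G.H k = 0
  Hb : G.Hb k = 0

theorem scale_half {G : GHP A} {k : A} (hk : Cst G k) (h : G.Half) : (scale G k).Half := by
  constructor <;> (try intro f) <;>
    simp only [scale, Derivation.smul_apply, smul_eq_mul, D_mul, map_mul, hk.c, hk.th, hk.tp,
      hk.et, hk.ep, hk.H, hk.Hb, mul_zero, add_zero]
  case cc => exact h.cc f
  case calg => exact h.calg f
  case c_th => rw [h.c_th]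
  case c_et => rw [h.c_et]
  case c_H => exact h.c_H f
  case H_Hb => exact h.H_Hb f
  case H_th => linear_combination k * h.H_th f
  case H_et => linear_combination k * h.H_et f
  case H_ka => linear_combination k * h.H_ka
  case Hb_ka => linear_combination k * h.Hb_ka
  case H_si => linear_combination k * h.H_si
  case Hb_si => linear_combination k * h.Hb_si
  case H_rh => linear_combination k * h.H_rh
  case Hb_rh => linear_combination k * h.Hb_rh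
  case H_ta => linear_combination k * h.H_ta
  case Hb_ta => linear_combination k * h.Hb_ta
  case H_P0 => linear_combination k * k * h.H_P0
  case Hb_P0 => linear_combination k * k * h.Hb_P0
  case H_P1 => linear_combination k * k * h.H_P1
  case Hb_P1 => linear_combination k * k * h.Hb_P1
  case H_P2 => linear_combination k * k * h.H_P2
  case Hb_P2 => linear_combination k * k * h.Hb_P2
  case th_tp => linear_combination k * k * h.th_tp f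
  case th_et => linear_combination k * k * h.th_et f
  case et_ep => linear_combination k * k * h.et_ep f
  case r1 => linear_combination k * k * h.r1
  case r2 => linear_combination k * k * h.r2
  case r3 => linear_combination k * k * h.r3
  case r4 => linear_combination k * k * h.r4
  case r5 => linear_combination k * k * h.r5
  case r6 => linear_combination k * k * h.r6
  case b1 => linear_combination k * k * k * h.b1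
  case b2 => linear_combination k * k * k * h.b2
  case b3 => linear_combination k * k * k * h.b3
  case b4 => linear_combination k * k * k * h.b4

theorem scale_is {G : GHP A} {k : A} (hk : Cst G k) (h : G.Is) : (scale G k).Is :=
  ⟨scale_half hk h.h, scale_half (G := G.pr) ⟨hk.c, hk.tp, hk.th, hk.ep, hk.et,
    by simp [GHP.pr, hk.H], by simp [GHP.pr, hk.Hb]⟩ h.p⟩

theorem cst_real {G : GHP A} (h : G.Is) (t : ℝ) : Cst G (algebraMap ℂ A t) :=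
  ⟨by rw [h.calg, Complex.conj_ofReal], D_alg _ _, D_alg _ _, D_alg _ _, D_alg _ _, D_alg _ _,
    D_alg _ _⟩

namespace KC

/-- The six fields of the chart are independent. -/
def Free (K : KC A) : Prop := ∀ e1 e2 e3 e4 e5 e6 : A, (∀ f, K.V e1 e2 e3 e4 e5 e6 f = 0) →
  e1 = 0 ∧ e2 = 0 ∧ e3 = 0 ∧ e4 = 0 ∧ e5 = 0 ∧ e6 = 0

/-- Stationary and axisymmetric elements. -/
def St (K : KC A) (f : A) : Prop := K.T f = 0 ∧ K.F2 f = 0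

variable {K : KC A}

theorem St.add {f g : A} (hf : K.St f) (hg : K.St g) : K.St (f + g) := by
  simp only [St, D_add, hf.1, hf.2, hg.1, hg.2, add_zero, and_self]
theorem St.sub {f g : A} (hf : K.St f) (hg : K.St g) : K.St (f - g) := by
  simp only [St, D_sub, hf.1, hf.2, hg.1, hg.2, sub_zero, and_self]
theorem St.neg {f : A} (hf : K.St f) : K.St (-f) := by
  simp only [St, D_neg, hf.1, hf.2, neg_zero, and_self]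
theorem St.mul {f g : A} (hf : K.St f) (hg : K.St g) : K.St (f * g) := by
  simp only [St, D_mul, hf.1, hf.2, hg.1, hg.2, mul_zero, add_zero, and_self]
theorem St.alg (z : ℂ) : K.St (algebraMap ℂ A z) := ⟨D_alg _ _, D_alg _ _⟩
theorem St.zero : K.St 0 := ⟨D_zero _, D_zero _⟩
theorem St.one : K.St 1 := ⟨D_one _, D_one _⟩
theorem St.num (n : ℕ) [n.AtLeastTwo] : K.St (ofNat(n) : A) := ⟨D_num _ n, D_num _ n⟩
theorem St.inv {f g : A} (hf : K.St f) (e : g * f = 1) : K.St g := by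
  simp only [St, D_inv _ e, hf.1, hf.2, mul_zero, neg_zero, and_self]

namespace Is
variable (h : K.Is)
include h

/-- The stationary Killing field in the GHP frame. -/
theorem T_eq (f : A) : 2 * K.T f = K.Ni * K.th f + K.De * K.sg * K.N * K.tp f +
    ii A * K.a * K.z * K.sb * K.et f - ii A * K.a * K.zb * K.s * K.ep f +
    K.M * K.z * K.z * K.H f + K.M * K.zb * K.zb * K.B f := by
  simp only [F2, th, tp, et, ep, rh, rh2, ta, ta2, P2, z, zb, ee, De, W, V_ap, D_add, D_sub,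
    D_mul, D_neg, D_num, D_zero, D_ii, map_mul, map_add, map_sub, map_neg, map_zero, map_ofNat,
    h.tab]
  linear_combination (-K.r^3*K.a^2*K.s*K.sb*K.sg^3*K.H f - K.r^3*K.a^2*K.s*K.sb*K.sg^3*K.B f -
    2*K.r^2*K.a^2*K.s*K.sb*K.sg^2*K.T f + K.r*K.x^4*K.a^4*K.sg^3*K.H f + K.r*K.x^4*K.a^4*K.sg^3*K.B
    f + K.r*K.x^2*K.a^4*ii A^2*K.s*K.sb*K.sg^3*K.H f + K.r*K.x^2*K.a^4*ii A^2*K.s*K.sb*K.sg^3*K.B f
    - K.r*K.x^2*K.a^4*K.sg^3*K.H f - K.r*K.x^2*K.a^4*K.sg^3*K.B f + 2*K.x^4*K.a^4*K.sg^2*K.T f -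
    K.x^3*K.a^5*ii A*K.s*K.sb*K.sg^3*K.H f + K.x^3*K.a^5*ii A*K.s*K.sb*K.sg^3*K.B f +
    2*K.x^2*K.a^4*ii A^2*K.s*K.sb*K.sg^2*K.T f - 2*K.x^2*K.a^4*K.sg^2*K.T f - K.x^2*K.a^3*ii
    A*K.s*K.sg^2*K.P f + K.x^2*K.a^3*ii A*K.sb*K.sg^2*K.Q f - K.x^2*K.a^2*K.M*K.sg^2*K.H f -
    K.x^2*K.a^2*K.M*K.sg^2*K.B f) * ii_sq (A := A) + (K.r^3*K.a^2*K.sg^3*K.H f +
    K.r^3*K.a^2*K.sg^3*K.B f + K.r^2*K.x*K.a^3*ii A*K.sg^3*K.H f - K.r^2*K.x*K.a^3*ii A*K.sg^3*K.B f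
    + 2*K.r^2*K.a^2*K.sg^2*K.T f - K.r*K.x^2*K.a^4*ii A^2*K.sg^3*K.H f - K.r*K.x^2*K.a^4*ii
    A^2*K.sg^3*K.B f + K.x^3*K.a^5*ii A*K.sg^3*K.H f - K.x^3*K.a^5*ii A*K.sg^3*K.B f -
    2*K.x^2*K.a^4*ii A^2*K.sg^2*K.T f) * h.hs + (-K.r^3*K.sg^2*K.H f - K.r^3*K.sg^2*K.B f -
    K.r^2*K.x*K.a*ii A*K.sg^2*K.H f + K.r^2*K.x*K.a*ii A*K.sg^2*K.B f + 2*K.r^2*K.M*K.sg^2*K.H f +
    2*K.r^2*K.M*K.sg^2*K.B f - 2*K.r^2*K.sg*K.T f + 2*K.r*K.x*K.a*K.M*ii A*K.sg^2*K.H f -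
    2*K.r*K.x*K.a*K.M*ii A*K.sg^2*K.B f - K.r*K.a^2*K.sg^2*K.H f - K.r*K.a^2*K.sg^2*K.B f +
    K.r*K.sg*K.H f + K.r*K.sg*K.B f - K.x*K.a^3*ii A*K.sg^2*K.H f + K.x*K.a^3*ii A*K.sg^2*K.B f +
    K.x*K.a*ii A*K.sg*K.H f - K.x*K.a*ii A*K.sg*K.B f - 2*K.a^2*K.sg*K.T f - K.a*ii A*K.s*K.sg*K.P f
    + K.a*ii A*K.sb*K.sg*K.Q f - K.M*K.sg*K.H f - K.M*K.sg*K.B f) * h.hN +
    (-K.r*K.x^2*K.a^2*K.sg^2*K.H f - K.r*K.x^2*K.a^2*K.sg^2*K.B f + K.r*K.a^2*K.sg^2*K.H f +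
    K.r*K.a^2*K.sg^2*K.B f - K.r*K.sg*K.H f - K.r*K.sg*K.B f - K.x^3*K.a^3*ii A*K.sg^2*K.H f +
    K.x^3*K.a^3*ii A*K.sg^2*K.B f - 2*K.x^2*K.a^2*K.sg*K.T f + K.x*K.a^3*ii A*K.sg^2*K.H f -
    K.x*K.a^3*ii A*K.sg^2*K.B f - K.x*K.a*ii A*K.sg*K.H f + K.x*K.a*ii A*K.sg*K.B f +
    2*K.a^2*K.sg*K.T f + K.a*ii A*K.s*K.sg*K.P f - K.a*ii A*K.sb*K.sg*K.Q f + K.M*K.sg*K.H f +
    K.M*K.sg*K.B f - 2*K.T f) * h.hg

/-- Twice the axial Killing field in the GHP frame. -/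
theorem F2_eq (f : A) : K.F2 f = -(K.a * K.s * K.sb * K.Ni) * K.th f -
    K.a * K.s * K.sb * K.De * K.sg * K.N * K.tp f - ii A * K.W * K.z * K.sb * K.et f +
    ii A * K.W * K.zb * K.s * K.ep f -
    (K.a * K.s * K.sb * (K.M * K.z * K.z + K.z) + ii A * K.x) * K.H f -
    (K.a * K.s * K.sb * (K.M * K.zb * K.zb + K.zb) - ii A * K.x) * K.B f := by
  simp only [F2, th, tp, et, ep, rh, rh2, ta, ta2, P2, z, zb, ee, De, W, V_ap, D_add, D_sub,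
    D_mul, D_neg, D_num, D_zero, D_ii, map_mul, map_add, map_sub, map_neg, map_zero, map_ofNat,
    h.tab]
  linear_combination (K.r^5*K.a*K.s*K.sb*K.sg^3*K.H f + K.r^5*K.a*K.s*K.sb*K.sg^3*K.B f +
    2*K.r^4*K.a*K.s*K.sb*K.sg^2*K.T f - K.r^3*K.x^2*K.a^3*ii A^2*K.s*K.sb*K.sg^3*K.H f -
    K.r^3*K.x^2*K.a^3*ii A^2*K.s*K.sb*K.sg^3*K.B f + K.r^3*K.a^3*K.s*K.sb*K.sg^3*K.H f +
    K.r^3*K.a^3*K.s*K.sb*K.sg^3*K.B f + K.r^2*K.x^3*K.a^4*ii A*K.s*K.sb*K.sg^3*K.H f -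
    K.r^2*K.x^3*K.a^4*ii A*K.s*K.sb*K.sg^3*K.B f - 2*K.r^2*K.x^2*K.a^3*ii A^2*K.s*K.sb*K.sg^2*K.T f
    + K.r^2*K.x^2*K.a^2*ii A*K.s*K.sg^2*K.P f - K.r^2*K.x^2*K.a^2*ii A*K.sb*K.sg^2*K.Q f +
    2*K.r^2*K.a^3*K.s*K.sb*K.sg^2*K.T f + K.r*K.x^6*K.a^5*K.sg^3*K.H f + K.r*K.x^6*K.a^5*K.sg^3*K.B
    f - 2*K.r*K.x^4*K.a^5*K.sg^3*K.H f - 2*K.r*K.x^4*K.a^5*K.sg^3*K.B f - K.r*K.x^4*K.a^3*K.sg^2*K.H
    f - K.r*K.x^4*K.a^3*K.sg^2*K.B f - K.r*K.x^2*K.a^5*ii A^2*K.s*K.sb*K.sg^3*K.H f -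
    K.r*K.x^2*K.a^5*ii A^2*K.s*K.sb*K.sg^3*K.B f + K.r*K.x^2*K.a^5*K.sg^3*K.H f +
    K.r*K.x^2*K.a^5*K.sg^3*K.B f + K.r*K.x^2*K.a^3*K.sg^2*K.H f + K.r*K.x^2*K.a^3*K.sg^2*K.B f +
    2*K.x^6*K.a^5*K.sg^2*K.T f - 4*K.x^4*K.a^5*K.sg^2*K.T f - 2*K.x^4*K.a^3*K.sg*K.T f +
    K.x^3*K.a^6*ii A*K.s*K.sb*K.sg^3*K.H f - K.x^3*K.a^6*ii A*K.s*K.sb*K.sg^3*K.B f -
    2*K.x^2*K.a^5*ii A^2*K.s*K.sb*K.sg^2*K.T f + 2*K.x^2*K.a^5*K.sg^2*K.T f + K.x^2*K.a^4*ii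
    A*K.s*K.sg^2*K.P f - K.x^2*K.a^4*ii A*K.sb*K.sg^2*K.Q f + K.x^2*K.a^3*K.M*K.s*K.sb*K.sg^2*K.H f
    + K.x^2*K.a^3*K.M*K.s*K.sb*K.sg^2*K.B f + 2*K.x^2*K.a^3*K.sg*K.T f) * ii_sq (A := A) +
    (-K.r^5*K.a*K.sg^3*K.H f - K.r^5*K.a*K.sg^3*K.B f - K.r^4*K.x*K.a^2*ii A*K.sg^3*K.H f +
    K.r^4*K.x*K.a^2*ii A*K.sg^3*K.B f - 2*K.r^4*K.a*K.sg^2*K.T f + K.r^3*K.x^2*K.a^3*ii
    A^2*K.sg^3*K.H f + K.r^3*K.x^2*K.a^3*ii A^2*K.sg^3*K.B f - K.r^3*K.a^3*K.sg^3*K.H f -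
    K.r^3*K.a^3*K.sg^3*K.B f + K.r^3*K.a*K.N*K.Ni*K.sg^2*K.H f + K.r^3*K.a*K.N*K.Ni*K.sg^2*K.B f -
    K.r^2*K.x^3*K.a^4*ii A*K.sg^3*K.H f + K.r^2*K.x^3*K.a^4*ii A*K.sg^3*K.B f +
    2*K.r^2*K.x^2*K.a^3*ii A^2*K.sg^2*K.T f - K.r^2*K.x*K.a^4*ii A*K.sg^3*K.H f + K.r^2*K.x*K.a^4*ii
    A*K.sg^3*K.B f + K.r^2*K.x*K.a^2*ii A*K.N*K.Ni*K.sg^2*K.H f - K.r^2*K.x*K.a^2*ii
    A*K.N*K.Ni*K.sg^2*K.B f - 2*K.r^2*K.a^3*K.sg^2*K.T f - 2*K.r^2*K.a*K.M*K.N*K.Ni*K.sg^2*K.H f -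
    2*K.r^2*K.a*K.M*K.N*K.Ni*K.sg^2*K.B f + K.r^2*K.a*K.M*K.sg^2*K.H f + K.r^2*K.a*K.M*K.sg^2*K.B f
    + 2*K.r^2*K.a*K.N*K.Ni*K.sg*K.T f + K.r*K.x^2*K.a^5*ii A^2*K.sg^3*K.H f + K.r*K.x^2*K.a^5*ii
    A^2*K.sg^3*K.B f - 2*K.r*K.x*K.a^2*K.M*ii A*K.N*K.Ni*K.sg^2*K.H f + 2*K.r*K.x*K.a^2*K.M*ii
    A*K.N*K.Ni*K.sg^2*K.B f + 2*K.r*K.x*K.a^2*K.M*ii A*K.sg^2*K.H f - 2*K.r*K.x*K.a^2*K.M*ii
    A*K.sg^2*K.B f + K.r*K.a^3*K.N*K.Ni*K.sg^2*K.H f + K.r*K.a^3*K.N*K.Ni*K.sg^2*K.B f -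
    K.r*K.a*K.N*K.Ni*K.sg*K.H f - K.r*K.a*K.N*K.Ni*K.sg*K.B f + K.r*K.a*K.sg*K.H f +
    K.r*K.a*K.sg*K.B f - K.x^3*K.a^6*ii A*K.sg^3*K.H f + K.x^3*K.a^6*ii A*K.sg^3*K.B f +
    2*K.x^2*K.a^5*ii A^2*K.sg^2*K.T f - K.x^2*K.a^3*K.M*K.sg^2*K.H f - K.x^2*K.a^3*K.M*K.sg^2*K.B f
    + K.x*K.a^4*ii A*K.N*K.Ni*K.sg^2*K.H f - K.x*K.a^4*ii A*K.N*K.Ni*K.sg^2*K.B f - K.x*K.a^2*ii
    A*K.N*K.Ni*K.sg*K.H f + K.x*K.a^2*ii A*K.N*K.Ni*K.sg*K.B f + K.x*K.a^2*ii A*K.sg*K.H f -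
    K.x*K.a^2*ii A*K.sg*K.B f + 2*K.a^3*K.N*K.Ni*K.sg*K.T f + K.a^2*ii A*K.s*K.N*K.Ni*K.sg*K.P f -
    K.a^2*ii A*K.sb*K.N*K.Ni*K.sg*K.Q f + K.a*K.M*K.N*K.Ni*K.sg*K.H f + K.a*K.M*K.N*K.Ni*K.sg*K.B f)
    * h.hs + (-K.r^3*K.x^2*K.a*K.sg^2*K.H f - K.r^3*K.x^2*K.a*K.sg^2*K.B f + K.r^3*K.a*K.sg^2*K.H f
    + K.r^3*K.a*K.sg^2*K.B f - K.r^2*K.x^3*K.a^2*ii A*K.sg^2*K.H f + K.r^2*K.x^3*K.a^2*ii
    A*K.sg^2*K.B f + 2*K.r^2*K.x^2*K.a*K.M*K.sg^2*K.H f + 2*K.r^2*K.x^2*K.a*K.M*K.sg^2*K.B f -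
    2*K.r^2*K.x^2*K.a*K.sg*K.T f + K.r^2*K.x*K.a^2*ii A*K.sg^2*K.H f - K.r^2*K.x*K.a^2*ii
    A*K.sg^2*K.B f - 2*K.r^2*K.a*K.M*K.sg^2*K.H f - 2*K.r^2*K.a*K.M*K.sg^2*K.B f +
    2*K.r^2*K.a*K.sg*K.T f + 2*K.r*K.x^3*K.a^2*K.M*ii A*K.sg^2*K.H f - 2*K.r*K.x^3*K.a^2*K.M*ii
    A*K.sg^2*K.B f - K.r*K.x^2*K.a^3*K.sg^2*K.H f - K.r*K.x^2*K.a^3*K.sg^2*K.B f +
    K.r*K.x^2*K.a*K.sg*K.H f + K.r*K.x^2*K.a*K.sg*K.B f - 2*K.r*K.x*K.a^2*K.M*ii A*K.sg^2*K.H f +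
    2*K.r*K.x*K.a^2*K.M*ii A*K.sg^2*K.B f + K.r*K.a^3*K.sg^2*K.H f + K.r*K.a^3*K.sg^2*K.B f -
    K.r*K.a*K.sg*K.H f - K.r*K.a*K.sg*K.B f - K.x^3*K.a^4*ii A*K.sg^2*K.H f + K.x^3*K.a^4*ii
    A*K.sg^2*K.B f + K.x^3*K.a^2*ii A*K.sg*K.H f - K.x^3*K.a^2*ii A*K.sg*K.B f -
    2*K.x^2*K.a^3*K.sg*K.T f - K.x^2*K.a^2*ii A*K.s*K.sg*K.P f + K.x^2*K.a^2*ii A*K.sb*K.sg*K.Q f -
    K.x^2*K.a*K.M*K.sg*K.H f - K.x^2*K.a*K.M*K.sg*K.B f + K.x*K.a^4*ii A*K.sg^2*K.H f - K.x*K.a^4*ii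
    A*K.sg^2*K.B f - K.x*K.a^2*ii A*K.sg*K.H f + K.x*K.a^2*ii A*K.sg*K.B f + 2*K.a^3*K.sg*K.T f +
    K.a^2*ii A*K.s*K.sg*K.P f - K.a^2*ii A*K.sb*K.sg*K.Q f + K.a*K.M*K.sg*K.H f + K.a*K.M*K.sg*K.B
    f) * h.hN + (K.r^3*K.x^2*K.a*K.sg^2*K.H f + K.r^3*K.x^2*K.a*K.sg^2*K.B f - K.r^3*K.a*K.sg^2*K.H
    f - K.r^3*K.a*K.sg^2*K.B f + K.r^2*K.x^3*K.a^2*ii A*K.sg^2*K.H f - K.r^2*K.x^3*K.a^2*ii
    A*K.sg^2*K.B f + 2*K.r^2*K.x^2*K.a*K.sg*K.T f - K.r^2*K.x*K.a^2*ii A*K.sg^2*K.H f +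
    K.r^2*K.x*K.a^2*ii A*K.sg^2*K.B f - 2*K.r^2*K.a*K.sg*K.T f - K.r^2*ii A*K.s*K.sg*K.P f +
    K.r^2*ii A*K.sb*K.sg*K.Q f - K.r*K.x^4*K.a^3*ii A^2*K.sg^2*K.H f - K.r*K.x^4*K.a^3*ii
    A^2*K.sg^2*K.B f - K.r*K.x^4*K.a^3*K.sg^2*K.H f - K.r*K.x^4*K.a^3*K.sg^2*K.B f +
    K.r*K.x^2*K.a^3*ii A^2*K.sg^2*K.H f + K.r*K.x^2*K.a^3*ii A^2*K.sg^2*K.B f +
    2*K.r*K.x^2*K.a^3*K.sg^2*K.H f + 2*K.r*K.x^2*K.a^3*K.sg^2*K.B f - K.r*K.a^3*K.sg^2*K.H f -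
    K.r*K.a^3*K.sg^2*K.B f - 2*K.x^4*K.a^3*ii A^2*K.sg*K.T f - 2*K.x^4*K.a^3*K.sg*K.T f +
    K.x^3*K.a^4*ii A*K.sg^2*K.H f - K.x^3*K.a^4*ii A*K.sg^2*K.B f + 2*K.x^2*K.a^3*ii A^2*K.sg*K.T f
    + 4*K.x^2*K.a^3*K.sg*K.T f + K.x^2*K.a*K.M*K.sg*K.H f + K.x^2*K.a*K.M*K.sg*K.B f - K.x*K.a^4*ii
    A*K.sg^2*K.H f + K.x*K.a^4*ii A*K.sg^2*K.B f - 2*K.a^3*K.sg*K.T f - K.a^2*ii A*K.s*K.sg*K.P f +
    K.a^2*ii A*K.sb*K.sg*K.Q f - K.a*K.M*K.sg*K.H f - K.a*K.M*K.sg*K.B f - ii A*K.s*K.P f + ii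
    A*K.sb*K.Q f) * h.hg

theorem T_V (e1 e2 e3 e4 e5 e6 f : A) : K.T (K.V e1 e2 e3 e4 e5 e6 f) =
    K.V e1 e2 e3 e4 e5 e6 (K.T f) +
      K.V (K.T e1) (K.T e2) (K.T e3) (K.T e4) (K.T e5) (K.T e6) f := by
  simp only [V_ap, D_add, D_mul, h.R_T, h.P_T, h.Q_T, h.H_T, h.B_T]
  ring

theorem F2_th (f : A) : K.F2 (K.th f) = K.th (K.F2 f) := by
  rw [h.V_comm (E := K.F2) (F := K.th) rfl rfl]
  generalize K.th (K.F2 f) = u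
  simp only [F2, th, tp, et, ep, rh, rh2, ta, ta2, P2, z, zb, ee, De, W, V_ap, D_add, D_sub,
    D_mul, D_neg, D_num, D_zero, D_ii, map_mul, map_add, map_sub, map_neg, map_zero, map_ofNat,
    h.tab]
  ring
theorem F2_tp (f : A) : K.F2 (K.tp f) = K.tp (K.F2 f) := by
  rw [h.V_comm (E := K.F2) (F := K.tp) rfl rfl]
  generalize K.tp (K.F2 f) = u
  simp only [F2, th, tp, et, ep, rh, rh2, ta, ta2, P2, z, zb, ee, De, W, V_ap, D_add, D_sub,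
    D_mul, D_neg, D_num, D_zero, D_ii, map_mul, map_add, map_sub, map_neg, map_zero, map_ofNat,
    h.tab]
  ring
theorem F2_et (f : A) : K.F2 (K.et f) = K.et (K.F2 f) := by
  rw [h.V_comm (E := K.F2) (F := K.et) rfl rfl]
  generalize K.et (K.F2 f) = u
  simp only [F2, th, tp, et, ep, rh, rh2, ta, ta2, P2, z, zb, ee, De, W, V_ap, D_add, D_sub,
    D_mul, D_neg, D_num, D_zero, D_ii, map_mul, map_add, map_sub, map_neg, map_zero, map_ofNat,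
    h.tab]
  ring
theorem F2_ep (f : A) : K.F2 (K.ep f) = K.ep (K.F2 f) := by
  rw [h.V_comm (E := K.F2) (F := K.ep) rfl rfl]
  generalize K.ep (K.F2 f) = u
  simp only [F2, th, tp, et, ep, rh, rh2, ta, ta2, P2, z, zb, ee, De, W, V_ap, D_add, D_sub,
    D_mul, D_neg, D_num, D_zero, D_ii, map_mul, map_add, map_sub, map_neg, map_zero, map_ofNat,
    h.tab]
  ring
theorem T_th (f : A) : K.T (K.th f) = K.th (K.T f) := by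
  rw [th, h.T_V]
  simp only [F2, th, tp, et, ep, rh, rh2, ta, ta2, P2, z, zb, ee, De, W, V_ap, D_add, D_sub,
    D_mul, D_neg, D_num, D_zero, D_ii, map_mul, map_add, map_sub, map_neg, map_zero, map_ofNat,
    h.tab]
  ring
theorem T_tp (f : A) : K.T (K.tp f) = K.tp (K.T f) := by
  rw [tp, h.T_V]
  simp only [F2, th, tp, et, ep, rh, rh2, ta, ta2, P2, z, zb, ee, De, W, V_ap, D_add, D_sub,
    D_mul, D_neg, D_num, D_zero, D_ii, map_mul, map_add, map_sub, map_neg, map_zero, map_ofNat,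
    h.tab]
  ring
theorem T_et (f : A) : K.T (K.et f) = K.et (K.T f) := by
  rw [et, h.T_V]
  simp only [F2, th, tp, et, ep, rh, rh2, ta, ta2, P2, z, zb, ee, De, W, V_ap, D_add, D_sub,
    D_mul, D_neg, D_num, D_zero, D_ii, map_mul, map_add, map_sub, map_neg, map_zero, map_ofNat,
    h.tab]
  ring
theorem T_ep (f : A) : K.T (K.ep f) = K.ep (K.T f) := by
  rw [ep, h.T_V]
  simp only [F2, th, tp, et, ep, rh, rh2, ta, ta2, P2, z, zb, ee, De, W, V_ap, D_add, D_sub,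
    D_mul, D_neg, D_num, D_zero, D_ii, map_mul, map_add, map_sub, map_neg, map_zero, map_ofNat,
    h.tab]
  ring
theorem T_F2 (f : A) : K.T (K.F2 f) = K.F2 (K.T f) := by
  rw [F2, h.T_V]
  simp only [F2, th, tp, et, ep, rh, rh2, ta, ta2, P2, z, zb, ee, De, W, V_ap, D_add, D_sub,
    D_mul, D_neg, D_num, D_zero, D_ii, map_mul, map_add, map_sub, map_neg, map_zero, map_ofNat,
    h.tab]
  ring

theorem F2_H (f : A) : K.F2 (K.H f) = K.H (K.F2 f) := by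
  rw [F2, h.H_V]
  simp only [F2, th, tp, et, ep, rh, rh2, ta, ta2, P2, z, zb, ee, De, W, V_ap, D_add, D_sub,
    D_mul, D_neg, D_num, D_zero, D_ii, map_mul, map_add, map_sub, map_neg, map_zero, map_ofNat,
    h.tab]
  ring
theorem c_F2 (f : A) : K.c (K.F2 f) = K.F2 (K.c f) := by
  rw [F2, h.c_V]
  simp only [F2, th, tp, et, ep, rh, rh2, ta, ta2, P2, z, zb, ee, De, W, V_ap, D_add, D_sub,
    D_mul, D_neg, D_num, D_zero, D_ii, map_mul, map_add, map_sub, map_neg, map_zero, map_ofNat,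
    h.tab]
  ring
theorem F2_B (f : A) : K.F2 (K.B f) = K.B (K.F2 f) := by
  apply h.cinj; simp only [h.c_F2, h.c_B, h.F2_H]
theorem F2_R (f : A) : K.F2 (K.R f) = K.R (K.F2 f) := by
  simp only [F2, V_ap, D_add, D_mul, D_neg, D_zero, D_ii, h.tab, h.R_T, h.P_R, h.Q_R, h.H_R, h.B_R]
  ring
theorem F2_P (f : A) : K.F2 (K.P f) = K.P (K.F2 f) := by
  simp only [F2, V_ap, D_add, D_mul, D_neg, D_zero, D_ii, h.tab, h.P_T, h.P_R, h.P_Q, h.H_P, h.B_P]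
  ring
theorem F2_Q (f : A) : K.F2 (K.Q f) = K.Q (K.F2 f) := by
  apply h.cinj; simp only [h.c_F2, h.c_Q, h.F2_P]

theorem F2_tab : K.F2 K.r = 0 ∧ K.F2 K.x = 0 ∧ K.F2 K.s = 0 ∧ K.F2 K.sb = 0 ∧ K.F2 K.N = 0 ∧ K.F2 K.Ni = 0 ∧ K.F2
    K.sg = 0 ∧ K.F2 K.a = 0 ∧ K.F2 K.M = 0 := by
  simp only [F2, th, tp, et, ep, rh, rh2, ta, ta2, P2, z, zb, ee, De, W, V_ap, D_add, D_sub,
    D_mul, D_neg, D_num, D_zero, D_ii, map_mul, map_add, map_sub, map_neg, map_zero, map_ofNat,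
    h.tab]
  refine ⟨?_, ?_, ?_, ?_, ?_, ?_, ?_, ?_, ?_⟩ <;> ring

theorem st_r : K.St K.r := ⟨h.T_r, h.F2_tab.1⟩
theorem st_x : K.St K.x := ⟨h.T_x, h.F2_tab.2.1⟩
theorem st_s : K.St K.s := ⟨h.T_s, h.F2_tab.2.2.1⟩
theorem st_sb : K.St K.sb := ⟨h.T_sb, h.F2_tab.2.2.2.1⟩
theorem st_N : K.St K.N := ⟨h.T_N, h.F2_tab.2.2.2.2.1⟩
theorem st_Ni : K.St K.Ni := ⟨h.T_Ni, h.F2_tab.2.2.2.2.2.1⟩
theorem st_sg : K.St K.sg := ⟨h.T_sg, h.F2_tab.2.2.2.2.2.2.1⟩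
theorem st_a : K.St K.a := ⟨h.T_a, h.F2_tab.2.2.2.2.2.2.2.1⟩
theorem st_M : K.St K.M := ⟨h.T_M, h.F2_tab.2.2.2.2.2.2.2.2⟩

variable {f : A}

theorem st_c (hf : K.St f) : K.St (K.c f) :=
  ⟨by rw [← h.c_T, hf.1, map_zero], by rw [← h.c_F2, hf.2, map_zero]⟩
theorem st_th (hf : K.St f) : K.St (K.th f) :=
  ⟨by rw [h.T_th, hf.1, D_zero], by rw [h.F2_th, hf.2, D_zero]⟩
theorem st_tp (hf : K.St f) : K.St (K.tp f) :=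
  ⟨by rw [h.T_tp, hf.1, D_zero], by rw [h.F2_tp, hf.2, D_zero]⟩
theorem st_et (hf : K.St f) : K.St (K.et f) :=
  ⟨by rw [h.T_et, hf.1, D_zero], by rw [h.F2_et, hf.2, D_zero]⟩
theorem st_ep (hf : K.St f) : K.St (K.ep f) :=
  ⟨by rw [h.T_ep, hf.1, D_zero], by rw [h.F2_ep, hf.2, D_zero]⟩
theorem st_H (hf : K.St f) : K.St (K.H f) :=
  ⟨by rw [← h.H_T, hf.1, D_zero], by rw [h.F2_H, hf.2, D_zero]⟩
theorem st_B (hf : K.St f) : K.St (K.B f) :=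
  ⟨by rw [← h.B_T, hf.1, D_zero], by rw [h.F2_B, hf.2, D_zero]⟩
theorem st_z : K.St K.z := h.st_sg.mul (h.st_r.add (((St.alg _).mul h.st_a).mul h.st_x))
theorem st_zb : K.St K.zb := h.st_sg.mul (h.st_r.sub (((St.alg _).mul h.st_a).mul h.st_x))
theorem st_De : K.St K.De :=
  ((h.st_r.mul h.st_r).sub (((St.num 2).mul h.st_M).mul h.st_r)).add (h.st_a.mul h.st_a)
theorem st_W : K.St K.W := (h.st_r.mul h.st_r).add (h.st_a.mul h.st_a)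
theorem st_rh : K.St K.rh := (((h.st_N.mul h.st_sg).mul h.st_De).mul h.st_z).neg
theorem st_rh2 : K.St K.rh2 := h.st_Ni.mul h.st_z
theorem st_ta : K.St K.ta := ((((St.alg _).mul h.st_a).mul h.st_sg).mul h.st_s).neg
theorem st_ta2 : K.St K.ta2 :=
  (((((St.alg _).mul h.st_a).mul h.st_z).mul h.st_z).mul h.st_sb).neg
theorem st_P2 : K.St K.P2 := (((((St.num 2).mul h.st_M).mul h.st_z).mul h.st_z).mul h.st_z).neg

/-- The six fields of the GHP frame are independent. -/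
theorem indep (hF : K.Free) {u1 u2 u3 u4 u5 u6 : A} (e : ∀ f, u1 * K.th f + u2 * K.tp f +
    u3 * K.et f + u4 * K.ep f + u5 * K.H f + u6 * K.B f = 0) :
    u1 = 0 ∧ u2 = 0 ∧ u3 = 0 ∧ u4 = 0 ∧ u5 = 0 ∧ u6 = 0 := by
  obtain ⟨e1, e2, e3, e4, e5, e6⟩ := hF
    (u1 * (2 * K.N * K.sg * K.W) + u3 * (ii A * K.a * K.s * K.zb) -
      u4 * (ii A * K.a * K.sb * K.z)) (u1 * (K.N * K.sg * K.De) - u2 * K.Ni)
    (u1 * (ii A * K.a * K.N * K.sg * K.s) + u4 * K.z)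
    (u3 * K.zb - u1 * (ii A * K.a * K.N * K.sg * K.sb))
    (u5 - u1 * (K.N * (K.ee + ii A * K.a * K.x * K.sg)) + u2 * (ii A * K.a * K.x * K.sg * K.Ni) -
      u3 * (K.a * K.a * K.x * K.sg * K.s * K.zb) - u4 * (ii A * K.a * K.r * K.sg * K.sb * K.z))
    (u6 - u1 * (K.N * (K.ee - ii A * K.a * K.x * K.sg)) - u2 * (ii A * K.a * K.x * K.sg * K.Ni) +
      u3 * (ii A * K.a * K.r * K.sg * K.s * K.zb) - u4 * (K.a * K.a * K.x * K.sg * K.sb * K.z))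
    fun f => by
      have := e f
      simp only [th, tp, et, ep, V_ap] at this ⊢
      linear_combination this
  have two : (2 : A) * algebraMap ℂ A (1 / 2) = 1 := by
    rw [← map_ofNat (algebraMap ℂ A) 2, ← map_mul]; norm_num
  have k1 : 2 * K.N * u1 = 0 := by
    rw [W] at e1
    linear_combination e1 - ii A * K.a * K.s * e4 + ii A * K.a * K.sb * e3 -
      2 * K.N * u1 * h.hg - 2 * u1 * K.a * K.a * K.N * K.sg * K.s * K.sb * ii_sq (A := A) +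
      2 * u1 * K.a * K.a * K.N * K.sg * h.hs
  have f1 : u1 = 0 := by
    linear_combination K.Ni * algebraMap ℂ A (1 / 2) * k1 - u1 * two -
      2 * algebraMap ℂ A (1 / 2) * u1 * h.hN
  subst f1
  have f2 : u2 = 0 := by linear_combination -K.N * e2 - u2 * h.hN
  have f4 : u4 = 0 := by linear_combination (K.r - ii A * K.a * K.x) * e3 - u4 * h.z_ze
  have zz : K.zb * (K.r + ii A * K.a * K.x) = 1 := by
    have := h.z_ze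
    simp only [z, zb] at this ⊢
    linear_combination this
  have f3 : u3 = 0 := by linear_combination (K.r + ii A * K.a * K.x) * e4 - u3 * zz
  subst f2 f3 f4
  exact ⟨rfl, rfl, rfl, rfl, by linear_combination e5, by linear_combination e6⟩

end Is
end KC
end Vale.Agent.P354XR
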