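import Vale.Agent.P354XR.Kerr

/-!
The Teukolsky operators of the GHP calculus on Kerr in ingoing coordinates.
-/

namespace Vale.Agent.P354XR
namespace KC

set_option linter.unusedSimpArgs false

open Vale.Agent.P354XG

variable {A : Type*} [CommRing A] [Algebra ℂ A]

/-- The left sides of the exact Teukolsky equations. -/
def teu (G : GHP A) (f : A) : A :=
  (G.th (G.tp f - G.rh' * f) - (4 * G.rh + G.c G.rh) * (G.tp f - G.rh' * f)) -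
    (G.et (G.ep f - G.ta' * f) - (4 * G.ta + G.c G.ta') * (G.ep f - G.ta' * f)) - 3 * G.P2 * f

theorem teu_conj (G : GHP A) {w l1 l2 l3 l4 : A} (f : A) (h1 : G.th w = l1 * w)
    (h2 : G.tp w = l2 * w) (h3 : G.et w = l3 * w) (h4 : G.ep w = l4 * w) :
    teu G (w * f) = w * ((G.th (G.tp f + (l2 - G.rh') * f) +
      (l1 - 4 * G.rh - G.c G.rh) * (G.tp f + (l2 - G.rh') * f)) -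
      (G.et (G.ep f + (l4 - G.ta') * f) + (l3 - 4 * G.ta - G.c G.ta') *
        (G.ep f + (l4 - G.ta') * f)) - 3 * G.P2 * f) := by
  have e1 : G.tp (w * f) - G.rh' * (w * f) = w * (G.tp f + (l2 - G.rh') * f) := by
    rw [D_mul, h2]; ring
  have e2 : G.ep (w * f) - G.ta' * (w * f) = w * (G.ep f + (l4 - G.ta') * f) := by
    rw [D_mul, h4]; ring
  rw [teu, e1, e2, D_mul, D_mul, h1, h3]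
  ring

/-- The operator P_s of spin s on the variable which is regular at the future horizon. -/
noncomputable def Ps (K : KC A) (s f : A) : A :=
  K.De * K.R (K.R f) + (1 - s) * (2 * K.r - 2 * K.M) * K.R f + 2 * K.W * K.T (K.R f) +
    K.a * K.F2 (K.R f) + 2 * K.r * (1 - 2 * s) * K.T f + K.Q (K.P f) +
    K.a * K.a * K.s * K.sb * K.T (K.T f) + K.a * K.T (K.F2 f) - 2 * s * ii A * K.a * K.x * K.T f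

/-- The factors between the curvature components and the variables of P_s. -/
def w0 (K : KC A) : A := K.N * K.N * K.sg * K.sg
noncomputable def w4 (K : KC A) : A :=
  K.Ni * K.Ni * K.z * K.z * (K.r + ii A * K.a * K.x) * (K.r + ii A * K.a * K.x)

variable {K : KC A}

namespace Is
variable (h : K.Is)
include h

theorem th_N : K.th K.N = -(2 * K.N * K.ee) * K.N := by
  simp only [th, tp, et, ep, rh, rh2, ta, ta2, P2, z, zb, ee, De, W, V_ap, D_add, D_sub, D_mul,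
    D_neg, D_num, D_zero, D_ii, map_mul, map_add, map_sub, map_neg, map_zero, map_ofNat, h.tab]
  ring
theorem tp_N : K.tp K.N = 0 := by
  simp only [th, tp, et, ep, rh, rh2, ta, ta2, P2, z, zb, ee, De, W, V_ap, D_add, D_sub, D_mul,
    D_neg, D_num, D_zero, D_ii, map_mul, map_add, map_sub, map_neg, map_zero, map_ofNat, h.tab]
  ring
theorem et_N : K.et K.N = -K.ta * K.N := by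
  simp only [th, tp, et, ep, rh, rh2, ta, ta2, P2, z, zb, ee, De, W, V_ap, D_add, D_sub, D_mul,
    D_neg, D_num, D_zero, D_ii, map_mul, map_add, map_sub, map_neg, map_zero, map_ofNat, h.tab]
  linear_combination (-K.r*K.x*K.a^2*K.s*K.N*K.sg^2) * ii_sq (A := A) + (K.a*ii A*K.s*K.N*K.sg) *
    h.hg
theorem ep_N : K.ep K.N = -K.c K.ta * K.N := by
  simp only [th, tp, et, ep, rh, rh2, ta, ta2, P2, z, zb, ee, De, W, V_ap, D_add, D_sub, D_mul,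
    D_neg, D_num, D_zero, D_ii, map_mul, map_add, map_sub, map_neg, map_zero, map_ofNat, h.tab]
  linear_combination (-K.r*K.x*K.a^2*K.sb*K.N*K.sg^2) * ii_sq (A := A) + (-K.a*ii A*K.sb*K.N*K.sg)
    * h.hg
theorem th_Ni : K.th K.Ni = 2 * K.N * K.ee * K.Ni := by
  simp only [th, tp, et, ep, rh, rh2, ta, ta2, P2, z, zb, ee, De, W, V_ap, D_add, D_sub, D_mul,
    D_neg, D_num, D_zero, D_ii, map_mul, map_add, map_sub, map_neg, map_zero, map_ofNat, h.tab]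
  ring
theorem tp_Ni : K.tp K.Ni = 0 := by
  simp only [th, tp, et, ep, rh, rh2, ta, ta2, P2, z, zb, ee, De, W, V_ap, D_add, D_sub, D_mul,
    D_neg, D_num, D_zero, D_ii, map_mul, map_add, map_sub, map_neg, map_zero, map_ofNat, h.tab]
  ring
theorem et_Ni : K.et K.Ni = K.ta * K.Ni := by
  simp only [th, tp, et, ep, rh, rh2, ta, ta2, P2, z, zb, ee, De, W, V_ap, D_add, D_sub, D_mul,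
    D_neg, D_num, D_zero, D_ii, map_mul, map_add, map_sub, map_neg, map_zero, map_ofNat, h.tab]
  linear_combination (K.r*K.x*K.a^2*K.s*K.Ni*K.sg^2) * ii_sq (A := A) + (-K.a*ii A*K.s*K.Ni*K.sg)
    * h.hg
theorem ep_Ni : K.ep K.Ni = K.c K.ta * K.Ni := by
  simp only [th, tp, et, ep, rh, rh2, ta, ta2, P2, z, zb, ee, De, W, V_ap, D_add, D_sub, D_mul,
    D_neg, D_num, D_zero, D_ii, map_mul, map_add, map_sub, map_neg, map_zero, map_ofNat, h.tab]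
  linear_combination (K.r*K.x*K.a^2*K.sb*K.Ni*K.sg^2) * ii_sq (A := A) + (K.a*ii A*K.sb*K.Ni*K.sg)
    * h.hg
theorem th_zeb : K.th (K.r + ii A * K.a * K.x) = -K.c K.rh * (K.r + ii A * K.a * K.x) := by
  simp only [th, tp, et, ep, rh, rh2, ta, ta2, P2, z, zb, ee, De, W, V_ap, D_add, D_sub, D_mul,
    D_neg, D_num, D_zero, D_ii, map_mul, map_add, map_sub, map_neg, map_zero, map_ofNat, h.tab]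
  linear_combination (K.r^2*K.x^2*K.a^2*K.N*K.sg^2 - 2*K.r*K.x^2*K.a^2*K.M*K.N*K.sg^2 +
    K.x^2*K.a^4*K.N*K.sg^2) * ii_sq (A := A) + (-K.r^2*K.N*K.sg + 2*K.r*K.M*K.N*K.sg -
    K.a^2*K.N*K.sg) * h.hg
theorem tp_zeb : K.tp (K.r + ii A * K.a * K.x) = -K.c K.rh2 * (K.r + ii A * K.a * K.x) := by
  simp only [th, tp, et, ep, rh, rh2, ta, ta2, P2, z, zb, ee, De, W, V_ap, D_add, D_sub, D_mul,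
    D_neg, D_num, D_zero, D_ii, map_mul, map_add, map_sub, map_neg, map_zero, map_ofNat, h.tab]
  linear_combination (-K.x^2*K.a^2*K.Ni*K.sg) * ii_sq (A := A) + (K.Ni) * h.hg
theorem et_zeb : K.et (K.r + ii A * K.a * K.x) = -K.c K.ta2 * (K.r + ii A * K.a * K.x) := by
  simp only [th, tp, et, ep, rh, rh2, ta, ta2, P2, z, zb, ee, De, W, V_ap, D_add, D_sub, D_mul,
    D_neg, D_num, D_zero, D_ii, map_mul, map_add, map_sub, map_neg, map_zero, map_ofNat, h.tab]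
  linear_combination (-K.r^2*K.x*K.a^2*K.s*K.sg^2 - K.r*K.x^2*K.a^3*ii A*K.s*K.sg^2 +
    K.x^3*K.a^4*ii A^2*K.s*K.sg^2 - K.x^3*K.a^4*K.s*K.sg^2 + K.x*K.a^2*K.s*K.sg) * ii_sq (A := A) +
    (K.r*K.a*ii A*K.s*K.sg + K.x*K.a^2*K.s*K.sg) * h.hg
theorem ep_zeb : K.ep (K.r + ii A * K.a * K.x) = -K.c K.ta * (K.r + ii A * K.a * K.x) := by
  simp only [th, tp, et, ep, rh, rh2, ta, ta2, P2, z, zb, ee, De, W, V_ap, D_add, D_sub, D_mul,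
    D_neg, D_num, D_zero, D_ii, map_mul, map_add, map_sub, map_neg, map_zero, map_ofNat, h.tab]
  ring

theorem teu0 {f : A} (hH : K.H f = 2 * f) (hB : K.B f = -(2 * f)) :
    teu K.kerr (K.w0 * f) = -(K.sg * K.w0 * K.Ps 2 f) := by
  simp only [teu, kerr, w0]
  simp only [Ps, F2, th, tp, et, ep, rh, rh2, ta, ta2, P2, z, zb, ee, De, W, V_ap, D_add, D_sub,
    D_mul, D_neg, D_num, D_zero, D_ii, map_mul, map_add, map_sub, map_neg, map_zero, map_ofNat,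
    h.tab, h.R_T, h.P_T, h.Q_T, h.H_T, h.B_T, h.P_R, h.Q_R, h.H_R, h.B_R, h.P_Q, h.H_P, h.H_Q,
    h.B_P, h.B_Q, hH, hB]
  linear_combination (3*K.r^3*K.x*K.a^3*ii A*K.s*K.sb*K.N^2*K.sg^6*f +
    3*K.r^3*K.a^2*K.s*K.sb*K.N^2*K.sg^5*K.T f - K.r^2*K.x^2*K.a^4*ii A^2*K.s*K.sb*K.N^2*K.sg^6*f -
    9*K.r^2*K.x^2*K.a^4*K.s*K.sb*K.N^2*K.sg^6*f + 9*K.r^2*K.x^2*K.a^2*K.N^3*K.Ni*K.sg^5*f -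
    2*K.r^2*K.x^2*K.a^2*K.N^2*K.sg^5*f - K.r^2*K.x*K.a^2*K.s*K.N^2*K.sg^5*K.P f -
    K.r^2*K.x*K.a^2*K.sb*K.N^2*K.sg^5*K.Q f + 10*K.r^2*K.a^2*K.s*K.sb*K.N^2*K.sg^5*f +
    K.r^2*K.a^2*K.s*K.sb*K.N^2*K.sg^4*K.T (K.T f) - 3*K.r*K.x^5*K.a^5*ii A*K.N^2*K.sg^6*f -
    3*K.r*K.x^4*K.a^4*K.N^2*K.sg^5*K.T f - 3*K.r*K.x^3*K.a^5*ii A^3*K.s*K.sb*K.N^2*K.sg^6*f -
    15*K.r*K.x^3*K.a^5*ii A*K.s*K.sb*K.N^2*K.sg^6*f + 3*K.r*K.x^3*K.a^5*ii A*K.N^2*K.sg^6*f -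
    6*K.r*K.x^3*K.a^3*ii A*K.N^2*K.sg^5*f - 3*K.r*K.x^2*K.a^4*ii A^2*K.s*K.sb*K.N^2*K.sg^5*K.T f +
    3*K.r*K.x^2*K.a^4*K.N^2*K.sg^5*K.T f - 3*K.r*K.x^2*K.a^3*ii A*K.sb*K.N^2*K.sg^5*K.Q f -
    18*K.r*K.x^2*K.a^2*K.M*K.N^3*K.Ni*K.sg^5*f + 18*K.r*K.x^2*K.a^2*K.M*K.N^2*K.sg^5*f +
    12*K.r*K.x*K.a^3*ii A*K.s*K.sb*K.N^2*K.sg^5*f + 3*K.r*K.a^2*K.s*K.sb*K.N^2*K.sg^4*K.T f +
    K.x^6*K.a^6*ii A^2*K.N^2*K.sg^6*f + 9*K.x^6*K.a^6*K.N^2*K.sg^6*f + K.x^4*K.a^6*ii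
    A^4*K.s*K.sb*K.N^2*K.sg^6*f + 9*K.x^4*K.a^6*ii A^2*K.s*K.sb*K.N^2*K.sg^6*f - K.x^4*K.a^6*ii
    A^2*K.N^2*K.sg^6*f + 20*K.x^4*K.a^6*K.s*K.sb*K.N^2*K.sg^6*f - 9*K.x^4*K.a^6*K.N^2*K.sg^6*f +
    2*K.x^4*K.a^4*ii A^2*K.N^2*K.sg^5*f - K.x^4*K.a^4*K.N^2*K.sg^5*f - K.x^4*K.a^4*K.N^2*K.sg^4*K.T
    (K.T f) + K.x^3*K.a^5*ii A*K.s*K.sb*K.N^2*K.sg^5*K.T f + K.x^3*K.a^4*ii A^2*K.s*K.N^2*K.sg^5*K.P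
    f + K.x^3*K.a^4*ii A^2*K.sb*K.N^2*K.sg^5*K.Q f + 2*K.x^3*K.a^4*K.s*K.N^2*K.sg^5*K.P f +
    3*K.x^3*K.a^4*K.sb*K.N^2*K.sg^5*K.Q f + 6*K.x^3*K.a^3*K.M*ii A*K.N^2*K.sg^5*f - 2*K.x^3*K.a^3*ii
    A*K.N^2*K.sg^4*K.T f - 6*K.x^2*K.a^4*ii A^2*K.s*K.sb*K.N^2*K.sg^5*f - K.x^2*K.a^4*ii
    A^2*K.s*K.sb*K.N^2*K.sg^4*K.T (K.T f) - 24*K.x^2*K.a^4*K.s*K.sb*K.N^2*K.sg^5*f +
    9*K.x^2*K.a^4*K.N^3*K.Ni*K.sg^5*f + 7*K.x^2*K.a^4*K.N^2*K.sg^5*f + K.x^2*K.a^4*K.N^2*K.sg^4*K.T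
    (K.T f) + K.x^2*K.a^3*ii A*K.s*K.N^2*K.sg^4*K.T (K.P f) - K.x^2*K.a^3*ii A*K.sb*K.N^2*K.sg^4*K.T
    (K.Q f) - 12*K.x^2*K.a^2*K.N^3*K.Ni*K.sg^4*f + K.x^2*K.a^2*K.N^2*K.sg^4*K.Q (K.P f) +
    5*K.x*K.a^3*ii A*K.s*K.sb*K.N^2*K.sg^4*K.T f + 3*K.x*K.a^2*K.s*K.N^3*K.Ni*K.sg^4*K.P f -
    5*K.x*K.a^2*K.s*K.N^2*K.sg^4*K.P f - 3*K.x*K.a^2*K.sb*K.N^3*K.Ni*K.sg^4*K.Q f) * ii_sq (A := A)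
    + (12*K.r^3*K.x*K.a^3*ii A*K.N^2*K.sg^6*f - 3*K.r^3*K.a^2*K.N^2*K.sg^5*K.T f +
    K.r^2*K.x^2*K.a^4*ii A^2*K.N^2*K.sg^6*f - 11*K.r^2*K.x^2*K.a^4*K.N^2*K.sg^6*f -
    K.r^2*K.x*K.a^3*ii A*K.N^2*K.sg^5*K.T f - 6*K.r^2*K.a^2*K.N^2*K.sg^5*f -
    K.r^2*K.a^2*K.N^2*K.sg^4*K.T (K.T f) + 3*K.r*K.x^3*K.a^5*ii A^3*K.N^2*K.sg^6*f +
    15*K.r*K.x^3*K.a^5*ii A*K.N^2*K.sg^6*f + 3*K.r*K.x^2*K.a^4*ii A^2*K.N^2*K.sg^5*K.T f -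
    24*K.r*K.x*K.a^3*ii A*K.N^2*K.sg^5*f - 3*K.r*K.a^2*K.N^2*K.sg^4*K.T f - K.x^4*K.a^6*ii
    A^4*K.N^2*K.sg^6*f - 9*K.x^4*K.a^6*ii A^2*K.N^2*K.sg^6*f - 20*K.x^4*K.a^6*K.N^2*K.sg^6*f -
    K.x^3*K.a^5*ii A*K.N^2*K.sg^5*K.T f + 6*K.x^2*K.a^4*ii A^2*K.N^2*K.sg^5*f + K.x^2*K.a^4*ii
    A^2*K.N^2*K.sg^4*K.T (K.T f) + 24*K.x^2*K.a^4*K.N^2*K.sg^5*f - 5*K.x*K.a^3*ii A*K.N^2*K.sg^4*K.T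
    f + K.a^2*K.N^2*K.sg^3*K.T (K.T f)) * h.hs + (3*K.r^4*K.N^2*K.sg^5*f + 12*K.r^3*K.x*K.a*ii
    A*K.N^2*K.sg^5*f - 6*K.r^3*K.M*K.N^2*K.sg^5*f + 6*K.r^3*K.N^2*K.sg^4*K.T f -
    9*K.r^2*K.x^2*K.a^2*K.N^2*K.sg^5*f - 24*K.r^2*K.x*K.a*K.M*ii A*K.N^2*K.sg^5*f +
    6*K.r^2*K.x*K.a*ii A*K.N^2*K.sg^4*K.T f + 3*K.r^2*K.a^2*K.N^2*K.sg^5*f - 3*K.r^2*K.N^2*K.sg^4*f
    - 2*K.r^2*K.N^2*K.sg^3*K.T (K.R f) - K.r^2*K.N^2*K.sg^3*K.R (K.R f) +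
    18*K.r*K.x^2*K.a^2*K.M*K.N^2*K.sg^5*f + 12*K.r*K.x*K.a^3*ii A*K.N^2*K.sg^5*f - 18*K.r*K.x*K.a*ii
    A*K.N^2*K.sg^4*f + 6*K.r*K.a^2*K.N^2*K.sg^4*K.T f + 3*K.r*K.a*ii A*K.s*K.N^2*K.sg^4*K.P f -
    3*K.r*K.a*ii A*K.sb*K.N^2*K.sg^4*K.Q f + 2*K.r*K.M*K.N^2*K.sg^3*K.R (K.R f) +
    2*K.r*K.N^2*K.sg^3*K.R f - 9*K.x^2*K.a^4*K.N^2*K.sg^5*f + 12*K.x^2*K.a^2*K.N^2*K.sg^4*f +
    6*K.x*K.a^3*ii A*K.N^2*K.sg^4*K.T f - 3*K.x*K.a^2*K.s*K.N^2*K.sg^4*K.P f +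
    3*K.x*K.a^2*K.sb*K.N^2*K.sg^4*K.Q f + 6*K.x*K.a*K.M*ii A*K.N^2*K.sg^4*f + 4*K.x*K.a*ii
    A*K.N^2*K.sg^3*K.R f + 3*K.a^2*K.N^2*K.sg^4*f - 2*K.a^2*K.N^2*K.sg^3*K.T (K.R f) -
    K.a^2*K.N^2*K.sg^3*K.R (K.R f) - K.a*ii A*K.s*K.N^2*K.sg^3*K.R (K.P f) + K.a*ii
    A*K.sb*K.N^2*K.sg^3*K.R (K.Q f) - 2*K.M*K.N^2*K.sg^3*K.R f) * h.hN + (3*K.r^2*K.N^2*K.sg^4*f -
    12*K.r*K.x^3*K.a^3*ii A*K.N^2*K.sg^5*f + 3*K.r*K.x^2*K.a^2*K.N^2*K.sg^4*K.T f +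
    12*K.r*K.x*K.a^3*ii A*K.N^2*K.sg^5*f + 18*K.r*K.x*K.a*ii A*K.N^2*K.sg^4*f -
    3*K.r*K.a^2*K.N^2*K.sg^4*K.T f + 3*K.r*K.a*ii A*K.sb*K.N^2*K.sg^4*K.Q f + 6*K.r*K.N^2*K.sg^3*K.T
    f - K.x^4*K.a^4*ii A^2*K.N^2*K.sg^5*f + 11*K.x^4*K.a^4*K.N^2*K.sg^5*f + K.x^3*K.a^3*ii
    A*K.N^2*K.sg^4*K.T f + K.x^2*K.a^4*ii A^2*K.N^2*K.sg^5*f - 11*K.x^2*K.a^4*K.N^2*K.sg^5*f -
    12*K.x^2*K.a^2*K.N^2*K.sg^4*f + K.x^2*K.a^2*K.N^2*K.sg^3*K.T (K.T f) - K.x*K.a^3*ii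
    A*K.N^2*K.sg^4*K.T f - 2*K.x*K.a^2*K.s*K.N^2*K.sg^4*K.P f - 3*K.x*K.a^2*K.sb*K.N^2*K.sg^4*K.Q f
    - 6*K.x*K.a*K.M*ii A*K.N^2*K.sg^4*f + 8*K.x*K.a*ii A*K.N^2*K.sg^3*K.T f - 3*K.a^2*K.N^2*K.sg^4*f
    - K.a^2*K.N^2*K.sg^3*K.T (K.T f) - K.a*ii A*K.s*K.N^2*K.sg^3*K.T (K.P f) + K.a*ii
    A*K.sb*K.N^2*K.sg^3*K.T (K.Q f) - K.N^2*K.sg^3*K.Q (K.P f)) * h.hg

theorem teu4_aux {f : A} (hH : K.H f = -(2 * f)) (hB : K.B f = 2 * f) :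
    (K.tp (K.th f + (4 * K.N * K.ee + K.rh - 2 * K.c K.rh) * f) -
      (2 * K.rh2 + 3 * K.c K.rh2) * (K.th f + (4 * K.N * K.ee + K.rh - 2 * K.c K.rh) * f)) -
      (K.ep (K.et f + (3 * K.ta - 2 * K.c K.ta2) * f) - (2 * K.ta2 + K.c K.ta) *
        (K.et f + (3 * K.ta - 2 * K.c K.ta2) * f)) - 3 * K.P2 * f = -(K.sg * K.Ps (-2) f) := by
  simp only [Ps, F2, th, tp, et, ep, rh, rh2, ta, ta2, P2, z, zb, ee, De, W, V_ap, D_add, D_sub,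
    D_mul, D_neg, D_num, D_zero, D_ii, map_mul, map_add, map_sub, map_neg, map_zero, map_ofNat,
    h.tab, h.R_T, h.P_T, h.Q_T, h.H_T, h.B_T, h.P_R, h.Q_R, h.H_R, h.B_R, h.P_Q, h.H_P, h.H_Q,
    h.B_P, h.B_Q, hH, hB]
  linear_combination (-6*K.r^3*K.x*K.a^3*ii A*K.s*K.sb*K.sg^4*f -
    3*K.r^3*K.a^2*K.s*K.sb*K.sg^3*K.T f - 4*K.r^2*K.x^2*K.a^4*ii A^2*K.s*K.sb*K.sg^4*f -
    10*K.r^2*K.x^2*K.a^4*K.s*K.sb*K.sg^4*f + 9*K.r^2*K.x^2*K.a^2*K.N*K.Ni*K.sg^3*f -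
    4*K.r^2*K.x^2*K.a^2*K.sg^3*f - 2*K.r^2*K.x*K.a^2*K.s*K.sg^3*K.P f -
    2*K.r^2*K.x*K.a^2*K.sb*K.sg^3*K.Q f + 11*K.r^2*K.a^2*K.s*K.sb*K.sg^3*f +
    K.r^2*K.a^2*K.s*K.sb*K.sg^2*K.T (K.T f) + 6*K.r*K.x^5*K.a^5*ii A*K.sg^4*f +
    3*K.r*K.x^4*K.a^4*K.sg^3*K.T f + 6*K.r*K.x^3*K.a^5*ii A^3*K.s*K.sb*K.sg^4*f +
    6*K.r*K.x^3*K.a^5*ii A*K.s*K.sb*K.sg^4*f - 6*K.r*K.x^3*K.a^5*ii A*K.sg^4*f +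
    3*K.r*K.x^2*K.a^4*ii A^2*K.s*K.sb*K.sg^3*K.T f - 3*K.r*K.x^2*K.a^4*K.sg^3*K.T f +
    3*K.r*K.x^2*K.a^3*ii A*K.sb*K.sg^3*K.Q f - 18*K.r*K.x^2*K.a^2*K.M*K.N*K.Ni*K.sg^3*f +
    18*K.r*K.x^2*K.a^2*K.M*K.sg^3*f + 15*K.r*K.x*K.a^3*ii A*K.s*K.sb*K.sg^3*f -
    3*K.r*K.a^2*K.s*K.sb*K.sg^2*K.T f + 4*K.x^6*K.a^6*ii A^2*K.sg^4*f + 10*K.x^6*K.a^6*K.sg^4*f +
    4*K.x^4*K.a^6*ii A^4*K.s*K.sb*K.sg^4*f + 10*K.x^4*K.a^6*ii A^2*K.s*K.sb*K.sg^4*f -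
    4*K.x^4*K.a^6*ii A^2*K.sg^4*f + 6*K.x^4*K.a^6*K.s*K.sb*K.sg^4*f - 10*K.x^4*K.a^6*K.sg^4*f +
    4*K.x^4*K.a^4*ii A^2*K.sg^3*f - 4*K.x^4*K.a^4*K.sg^3*f - K.x^4*K.a^4*K.sg^2*K.T (K.T f) -
    K.x^3*K.a^5*ii A*K.s*K.sb*K.sg^3*K.T f + 2*K.x^3*K.a^4*ii A^2*K.s*K.sg^3*K.P f +
    2*K.x^3*K.a^4*ii A^2*K.sb*K.sg^3*K.Q f - K.x^3*K.a^4*K.sb*K.sg^3*K.Q f + 6*K.x^3*K.a^3*K.M*ii
    A*K.sg^3*f + 2*K.x^3*K.a^3*ii A*K.sg^2*K.T f - K.x^2*K.a^4*ii A^2*K.s*K.sb*K.sg^2*K.T (K.T f) -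
    3*K.x^2*K.a^4*K.s*K.sb*K.sg^3*f + 9*K.x^2*K.a^4*K.N*K.Ni*K.sg^3*f + 4*K.x^2*K.a^4*K.sg^3*f +
    K.x^2*K.a^4*K.sg^2*K.T (K.T f) + K.x^2*K.a^3*ii A*K.s*K.sg^2*K.T (K.P f) - K.x^2*K.a^3*ii
    A*K.sb*K.sg^2*K.T (K.Q f) - 12*K.x^2*K.a^2*K.N*K.Ni*K.sg^2*f + 2*K.x^2*K.a^2*K.sg^2*f +
    K.x^2*K.a^2*K.sg^2*K.Q (K.P f) - 5*K.x*K.a^3*ii A*K.s*K.sb*K.sg^2*K.T f -
    3*K.x*K.a^2*K.s*K.N*K.Ni*K.sg^2*K.P f + 3*K.x*K.a^2*K.s*K.sg^2*K.P f +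
    3*K.x*K.a^2*K.sb*K.N*K.Ni*K.sg^2*K.Q f - 2*K.x*K.a^2*K.sb*K.sg^2*K.Q f -
    3*K.a^2*K.s*K.sb*K.sg^2*f) * ii_sq (A := A) + (3*K.r^3*K.a^2*K.sg^3*K.T f +
    4*K.r^2*K.x^2*K.a^4*ii A^2*K.sg^4*f + 4*K.r^2*K.x^2*K.a^4*K.sg^4*f + K.r^2*K.x*K.a^3*ii
    A*K.sg^3*K.T f - 9*K.r^2*K.a^2*K.sg^3*f - K.r^2*K.a^2*K.sg^2*K.T (K.T f) - 6*K.r*K.x^3*K.a^5*ii
    A^3*K.sg^4*f - 6*K.r*K.x^3*K.a^5*ii A*K.sg^4*f - 3*K.r*K.x^2*K.a^4*ii A^2*K.sg^3*K.T f -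
    12*K.r*K.x*K.a^3*ii A*K.sg^3*f + 3*K.r*K.a^2*K.sg^2*K.T f - 4*K.x^4*K.a^6*ii A^4*K.sg^4*f -
    10*K.x^4*K.a^6*ii A^2*K.sg^4*f - 6*K.x^4*K.a^6*K.sg^4*f + K.x^3*K.a^5*ii A*K.sg^3*K.T f +
    K.x^2*K.a^4*ii A^2*K.sg^2*K.T (K.T f) + 3*K.x^2*K.a^4*K.sg^3*f + 5*K.x*K.a^3*ii A*K.sg^2*K.T f +
    3*K.a^2*K.sg^2*f + K.a^2*K.sg*K.T (K.T f)) * h.hs + (3*K.r^4*K.sg^3*f + 12*K.r^3*K.x*K.a*ii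
    A*K.sg^3*f - 6*K.r^3*K.M*K.sg^3*f - 6*K.r^3*K.sg^2*K.T f - 9*K.r^2*K.x^2*K.a^2*K.sg^3*f -
    24*K.r^2*K.x*K.a*K.M*ii A*K.sg^3*f - 6*K.r^2*K.x*K.a*ii A*K.sg^2*K.T f + 3*K.r^2*K.a^2*K.sg^3*f
    - 3*K.r^2*K.sg^2*f - 2*K.r^2*K.sg*K.T (K.R f) - K.r^2*K.sg*K.R (K.R f) +
    18*K.r*K.x^2*K.a^2*K.M*K.sg^3*f + 12*K.r*K.x*K.a^3*ii A*K.sg^3*f - 18*K.r*K.x*K.a*ii A*K.sg^2*f
    - 6*K.r*K.a^2*K.sg^2*K.T f - 3*K.r*K.a*ii A*K.s*K.sg^2*K.P f + 3*K.r*K.a*ii A*K.sb*K.sg^2*K.Q f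
    + 2*K.r*K.M*K.sg*K.R (K.R f) - 4*K.r*K.sg*K.T f - 6*K.r*K.sg*K.R f - 9*K.x^2*K.a^4*K.sg^3*f +
    12*K.x^2*K.a^2*K.sg^2*f - 6*K.x*K.a^3*ii A*K.sg^2*K.T f + 3*K.x*K.a^2*K.s*K.sg^2*K.P f -
    3*K.x*K.a^2*K.sb*K.sg^2*K.Q f + 6*K.x*K.a*K.M*ii A*K.sg^2*f - 4*K.x*K.a*ii A*K.sg*K.R f +
    3*K.a^2*K.sg^2*f - 2*K.a^2*K.sg*K.T (K.R f) - K.a^2*K.sg*K.R (K.R f) - K.a*ii A*K.s*K.sg*K.R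
    (K.P f) + K.a*ii A*K.sb*K.sg*K.R (K.Q f) + 6*K.M*K.sg*K.R f - 4*K.sg*f) * h.hN +
    (3*K.r^2*K.sg^2*f - 3*K.r*K.x^2*K.a^2*K.sg^2*K.T f + 12*K.r*K.x*K.a*ii A*K.sg^2*f +
    3*K.r*K.a^2*K.sg^2*K.T f - 3*K.r*K.a*ii A*K.sb*K.sg^2*K.Q f - 6*K.r*K.sg*K.T f -
    4*K.x^4*K.a^4*ii A^2*K.sg^3*f - 4*K.x^4*K.a^4*K.sg^3*f - K.x^3*K.a^3*ii A*K.sg^2*K.T f +
    4*K.x^2*K.a^4*ii A^2*K.sg^3*f + 4*K.x^2*K.a^4*K.sg^3*f - 3*K.x^2*K.a^2*K.sg^2*f +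
    K.x^2*K.a^2*K.sg*K.T (K.T f) + K.x*K.a^3*ii A*K.sg^2*K.T f + K.x*K.a^2*K.sb*K.sg^2*K.Q f -
    6*K.x*K.a*K.M*ii A*K.sg^2*f - 8*K.x*K.a*ii A*K.sg*K.T f - 6*K.a^2*K.sg^2*f - K.a^2*K.sg*K.T (K.T
    f) - K.a*ii A*K.s*K.sg*K.T (K.P f) + K.a*ii A*K.sb*K.sg*K.T (K.Q f) + 4*K.sg*f - K.sg*K.Q (K.P
    f)) * h.hg

theorem teu4 {f : A} (hH : K.H f = -(2 * f)) (hB : K.B f = 2 * f) :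
    teu K.kerr.pr (K.w4 * f) = -(K.sg * K.w4 * K.Ps (-2) f) := by
  have key : ∀ (D : Der A) (a b c : A), D K.Ni = a * K.Ni → D K.z = b * K.z →
      D (K.r + ii A * K.a * K.x) = -c * (K.r + ii A * K.a * K.x) →
      D K.w4 = (2 * a + 2 * b - 2 * c) * K.w4 := fun D a b c h1 h2 h3 => by
    rw [w4]
    generalize K.r + ii A * K.a * K.x = e at h3 ⊢
    simp only [D_mul, h1, h2, h3]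
    ring
  rw [teu_conj K.kerr.pr f (key K.tp 0 _ _ (by rw [h.tp_Ni, zero_mul]) h.tp_z h.tp_zeb)
    (key K.th _ _ _ h.th_Ni h.th_z h.th_zeb) (key K.ep _ _ _ h.ep_Ni h.ep_z h.ep_zeb)
    (key K.et _ _ _ h.et_Ni h.et_z h.et_zeb)]
  have e1 : 2 * (2 * K.N * K.ee) + 2 * K.rh - 2 * K.c K.rh - K.rh =
    4 * K.N * K.ee + K.rh - 2 * K.c K.rh := by ring
  have e2 : 2 * K.ta + 2 * K.ta - 2 * K.c K.ta2 - K.ta = 3 * K.ta - 2 * K.c K.ta2 := by ring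
  simp only [kerr, GHP.pr, e1, e2]
  linear_combination K.w4 * h.teu4_aux hH hB

end Is
end KC
end Vale.Agent.P354XR
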