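import Vale.Agent.P354XD.Hp
import Vale.Agent.P354XF.Teu
import Vale.Agent.P354XR.Kil
import Vale.Agent.P354XR.Teu

/-!
The chart algebra of Kerr on the chart (t, r, xi1, xi2), the Killing data of Kerr, and products.
-/

set_option linter.unusedSimpArgs false

namespace Vale.Agent.P354XR

open Vale.Agent.P354XG Vale.Agent.P354XG.Geo Vale.Agent.P354XD Vale.Agent.P354XF

variable {A : Type*} [CommRing A] [Algebra ℂ A]

/-- The parameters: v = t + h(r) with h1 = dh / dr, ingoing angle = angle + j(r) with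
2 j1 = dj / dr. -/
structure Pm (A : Type*) where
  a : A
  M : A
  sg : A
  h1 : A
  j1 : A

/-- The chart algebra of Kerr. -/
noncomputable def kk (K : Hp A) (p : Pm A) : KC A :=
  { K.kc with R := K.kc.V (-p.h1) 1 0 0 0 0 - p.j1 • K.kc.F2, sg := p.sg, a := p.a, M := p.M }

/-- The relations of the parameters. -/
structure Pm.Is (p : Pm A) (K : Hp A) : Prop where
  ca : K.c p.a = p.a
  cM : K.c p.M = p.M
  ch : K.c p.h1 = p.h1
  cj : K.c p.j1 = p.j1
  da : ∀ i, K.d i p.a = 0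
  dM : ∀ i, K.d i p.M = 0
  dh : ∀ i, i ≠ 1 → K.d i p.h1 = 0
  dj : ∀ i, i ≠ 1 → K.d i p.j1 = 0
  hg : p.sg * (K.z 1 * K.z 1 + p.a * p.a * K.kc.x * K.kc.x) = 1

theorem kk_R (K : Hp A) (p : Pm A) (f : A) :
    (kk K p).R f = K.kc.R f - p.h1 * K.kc.T f - p.j1 * K.kc.F2 f := by
  simp [kk, KC.V_ap]; ring

theorem kk_F2 (K : Hp A) (p : Pm A) (f : A) : (kk K p).F2 f = K.kc.F2 f := by
  simp only [KC.F2, KC.V_ap, zero_mul]; rfl

theorem kill {K : Hp A} {u : A} (d : ∀ i, i ≠ 1 → K.d i u = 0) :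
    K.kc.T u = 0 ∧ K.kc.P u = 0 ∧ K.kc.Q u = 0 ∧ K.kc.H u = 0 ∧ K.kc.B u = 0 ∧ K.kc.F2 u = 0 := by
  simp [KC.F2, KC.V_ap, Hp.kc, Hp.P_ap, Hp.Q_ap, Hp.H_ap, Hp.B_ap, d]

theorem kk_is {K : Hp A} {p : Pm A} (h : K.Is) (q : p.Is K) : (kk K p).Is := by
  have k := h.kc
  obtain ⟨a1, a2, -, a4, -, a6⟩ := kill (K := K) fun i _ => q.da i
  obtain ⟨m1, m2, -, m4, -, m6⟩ := kill (K := K) fun i _ => q.dM i
  obtain ⟨h1, h2, -, h4, -, -⟩ := kill q.dh
  obtain ⟨j1, j2, -, j4, -, -⟩ := kill q.dj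
  have ch : K.kc.c p.h1 = p.h1 := q.ch
  have cj : K.kc.c p.j1 = p.j1 := q.cj
  have ra : K.kc.R p.a = 0 := q.da 1
  have rM : K.kc.R p.M = 0 := q.dM 1
  refine { k with
    c_R := fun f => ?_, c_a := q.ca, c_M := q.cM, R_T := fun f => ?_, P_R := fun f => ?_
    H_R := fun f => ?_, T_a := a1, T_M := m1, R_r := ?_, R_x := ?_, R_s := ?_, R_N := ?_
    R_a := ?_, R_M := ?_, P_a := a2, P_M := m2, H_a := a4, H_M := m4, hg := q.hg }
  · show K.kc.c ((kk K p).R f) = (kk K p).R (K.kc.c f)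
    simp only [kk_R, map_sub, map_mul, ch, cj, k.c_R, k.c_T, k.c_F2]
  · show (kk K p).R (K.kc.T f) = K.kc.T ((kk K p).R f)
    simp only [kk_R, D_sub, D_mul, h1, j1, k.R_T, k.T_F2]; ring
  · show K.kc.P ((kk K p).R f) = (kk K p).R (K.kc.P f)
    simp only [kk_R, D_sub, D_mul, h2, j2, k.P_R, k.P_T, k.F2_P]; ring
  · show K.kc.H ((kk K p).R f) = (kk K p).R (K.kc.H f)
    simp only [kk_R, D_sub, D_mul, h4, j4, k.H_R, k.H_T, k.F2_H]; ring
  · show (kk K p).R K.kc.r = 1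
    simp only [kk_R, k.tab, k.F2_tab]; ring
  · show (kk K p).R K.kc.x = 0
    simp only [kk_R, k.tab, k.F2_tab]; ring
  · show (kk K p).R K.kc.s = 0
    simp only [kk_R, k.tab, k.F2_tab]; ring
  · show (kk K p).R K.kc.N = 0
    simp only [kk_R, k.tab, k.F2_tab]; ring
  · show (kk K p).R p.a = 0
    simp only [kk_R, ra, a1, a6]; ring
  · show (kk K p).R p.M = 0
    simp only [kk_R, rM, m1, m6]; ring

/-- A field of the chart of Kerr in the flat frame. -/
theorem kk_V (K : Hp A) (p : Pm A) (e1 e2 e3 e4 e5 e6 : A) : (kk K p).V e1 e2 e3 e4 e5 e6 =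
    K.kc.V (e1 - e2 * p.h1) e2 (e3 - e2 * p.j1 * (ii A * K.kc.s))
      (e4 + e2 * p.j1 * (ii A * K.kc.sb)) (e5 + e2 * p.j1 * (ii A * K.kc.x))
      (e6 - e2 * p.j1 * (ii A * K.kc.x)) := by
  ext f
  rw [KC.V_ap, kk_R, KC.F2, KC.V_ap, KC.V_ap]
  simp only [kk]
  ring

theorem kc_free {K : Hp A} (h : K.Is) : K.kc.Free := by
  intro e1 e2 e3 e4 e5 e6 e
  obtain ⟨-, -, -, -, -, -, -, -, -, -, -, -, p, q, u, w⟩ := h.tab
  have n := h.hN
  have f0 := e (K.z 0)
  have f1 := e (K.z 1)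
  have f2 := e (K.z 2)
  have f3 := e (K.z 3)
  have f4 := e (K.z 4)
  have f5 := e (K.z 5)
  simp [KC.V_ap, Hp.kc, h.dz, p, q, u, w] at f0 f1 f2 f3 f4 f5
  simp only [Hp.N] at n
  refine ⟨f0, f1, ?_, ?_, ?_, ?_⟩
  · linear_combination K.Ni * (K.z 2 * f3 - K.z 3 * f2) - e3 * n
  · linear_combination K.Ni * (K.z 4 * f5 - K.z 5 * f4) - e4 * n
  · linear_combination K.Ni * (K.z 4 * f2 + K.z 5 * f3) - e5 * n
  · linear_combination K.Ni * (K.z 2 * f4 + K.z 3 * f5) - e6 * n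

theorem kk_free {K : Hp A} (h : K.Is) (p : Pm A) : (kk K p).Free := by
  intro e1 e2 e3 e4 e5 e6 e
  rw [kk_V] at e
  obtain ⟨f1, rfl, f3, f4, f5, f6⟩ := kc_free h _ _ _ _ _ _ e
  simp only [zero_mul, sub_zero, add_zero] at f1 f3 f4 f5 f6
  exact ⟨f1, rfl, f3, f4, f5, f6⟩

namespace KC
variable {K : KC A}

/-- Kerr as a transverse structure; Mi is the inverse of M. -/
noncomputable def tv (h : K.Is) {Mi : A} (hM : K.M * Mi = 1) : Tv A where
  G := K.kerr
  Pi := -(algebraMap ℂ A (1 / 6) * Mi * (K.r - ii A * K.a * K.x) ^ 3)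
  is := h.kerr_is
  h1 := rfl
  h3 := rfl
  inv := by
    have e : (6 : A) * algebraMap ℂ A (1 / 6) = 1 := by
      rw [← map_ofNat (algebraMap ℂ A) 6, ← map_mul]; norm_num
    have z3 : (K.z * (K.r - ii A * K.a * K.x)) ^ 3 = 1 := by rw [h.z_ze, one_pow]
    simp only [kerr, P2]
    linear_combination e + 6 * algebraMap ℂ A (1 / 6) * hM +
      6 * algebraMap ℂ A (1 / 6) * K.M * Mi * z3

/-- The components of the Killing fields T and Phi = F2 / 2 in the GHP frame. -/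
noncomputable def cK (K : KC A) : Fin 2 → Fin 6 → A :=
  ![![hf A * K.Ni, hf A * (K.De * K.sg * K.N), hf A * (ii A * K.a * K.z * K.sb),
      -(hf A * (ii A * K.a * K.zb * K.s)), hf A * (K.M * K.z * K.z), hf A * (K.M * K.zb * K.zb)],
    ![-(hf A * (K.a * K.s * K.sb * K.Ni)), -(hf A * (K.a * K.s * K.sb * K.De * K.sg * K.N)),
      -(hf A * (ii A * K.W * K.z * K.sb)), hf A * (ii A * K.W * K.zb * K.s),
      -(hf A * (K.a * K.s * K.sb * (K.M * K.z * K.z + K.z) + ii A * K.x)),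
      -(hf A * (K.a * K.s * K.sb * (K.M * K.zb * K.zb + K.zb) - ii A * K.x))]]

/-- The Killing fields. -/
noncomputable def kil (K : KC A) : Fin 2 → P354XG.Der A := ![K.T, hf A • K.F2]

theorem Is.cK_eq (h : K.Is) (k : Fin 2) (f : A) :
    ∑ b, K.cK k b * fr K.kerr b f = K.kil k f := by
  fin_cases k <;> simp [cK, kil, fr, kerr, Fin.sum_univ_six]
  · linear_combination -hf A * h.T_eq f + K.T f * two_hf (A := A)
  · linear_combination -hf A * h.F2_eq f

theorem St.kil {f : A} (hf : K.St f) (k : Fin 2) : K.kil k f = 0 := by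
  fin_cases k <;> simp [KC.kil, hf.1, hf.2]

theorem Is.kil_fr (h : K.Is) (k : Fin 2) (b : Fin 6) (f : A) :
    K.kil k (fr K.kerr b f) = fr K.kerr b (K.kil k f) := by
  fin_cases k <;> fin_cases b <;>
    simp [kil, fr, kerr, h.T_th, h.T_tp, h.T_et, h.T_ep, h.H_T, h.B_T, h.F2_th, h.F2_tp, h.F2_et,
      h.F2_ep, h.F2_H, h.F2_B, D_mul, Hp.D_hf]

theorem Is.st_cK (h : K.Is) (k : Fin 2) (b : Fin 6) : K.St (K.cK k b) := by
  have i : K.St (ii A) := St.alg _
  have t : K.St (hf A) := St.alg _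
  have := h.st_a
  have := h.st_M
  have := h.st_x
  have := h.st_s
  have := h.st_sb
  have := h.st_N
  have := h.st_Ni
  have := h.st_sg
  have := h.st_z
  have := h.st_zb
  have := h.st_De
  have := h.st_W
  fin_cases k <;> fin_cases b <;> simp only [cK, Fin.reduceFinMk, Matrix.cons_val] <;>
    repeat' first | assumption | apply St.neg | apply St.mul | apply St.add | apply St.sub

/-- The Killing data of Kerr. -/
noncomputable def kilK (h : K.Is) (hF : K.Free) {Mi : A} (hM : K.M * Mi = 1) :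
    (tv h hM).Kil (Fin 2) where
  c := K.cK
  K := ⊥
  real k b := by
    have c2 : K.c (hf A) = hf A := by rw [hf, h.calg, map_div₀, map_one, map_ofNat]
    fin_cases k <;> fin_cases b <;>
      simp [tv, kerr, cK, bar, De, W, h.tab, h.c_z, h.c_zb, c2, map_ofNat] <;> ring
  Kc f hf := by rw [Ideal.mem_bot] at hf ⊢; rw [hf, map_zero]
  KD b f hf := by rw [Ideal.mem_bot] at hf ⊢; rw [hf, D_zero]
  K0 := rfl
  K4 := rfl
  K2 k := Ideal.mem_bot.2 ((h.cK_eq k _).trans (h.st_P2.kil k))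
  KL k k' e := Ideal.mem_bot.2 ((h.cK_eq k _).trans ((h.st_cK k' e).kil k))
  Kdel k a e := by
    have key : ∀ f, ∑ e, (fr K.kerr a (K.cK k e) + ∑ b, K.cK k b * gam K.kerr a b e) *
        fr K.kerr e f = 0 := fun f => by
      have e1 := h.kil_fr k a f
      rw [← h.cK_eq, ← h.cK_eq] at e1
      have e2 : ∀ b, fr K.kerr a (fr K.kerr b f) = fr K.kerr b (fr K.kerr a f) +
        ∑ e, gam K.kerr a b e * fr K.kerr e f := fun b => (tv h hM).comm a b f
      simp only [map_sum, D_mul, e2, mul_add, Finset.mul_sum, Finset.sum_add_distrib] at e1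
      simp only [add_mul, Finset.sum_mul, Finset.sum_add_distrib, mul_assoc]
      rw [Finset.sum_comm (f := fun e b => K.cK k b * (gam K.kerr a b e * fr K.kerr e f))]
      simp only [mul_comm (fr K.kerr _ f) (fr K.kerr a _)] at e1
      linear_combination -e1
    have := h.indep hF fun f => (Fin.sum_univ_six _).symm.trans (key f)
    rw [Ideal.mem_bot]
    fin_cases e
    exacts [this.1, this.2.1, this.2.2.1, this.2.2.2.1, this.2.2.2.2.1, this.2.2.2.2.2]

end KC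
end Vale.Agent.P354XR
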