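import Vale.Agent.P354XG.Quot

/-!
A GHP structure is determined by the projections of its four horizontal fields.
-/

namespace Vale.Agent.P354XR

open Vale.Agent.P354XG

variable {A : Type*} [CommRing A] [Algebra ℂ A]

theorem ghp_ext {G G' : GHP A} (h : G.Is) (h' : G'.Is) (hc : G'.c = G.c) (h1 : G'.th = G.th)
    (h2 : G'.tp = G.tp) (h3 : G'.et = G.et) (h4 : G'.ep = G.ep) (hH : G'.H = G.H)
    (hB : G'.Hb = G.Hb) (a1 : G'.ka = G.ka) (a2 : G'.si = G.si) (a3 : G'.rh = G.rh)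
    (a4 : G'.ta = G.ta) (b1 : G'.ka' = G.ka') (b2 : G'.si' = G.si') (b3 : G'.rh' = G.rh')
    (b4 : G'.ta' = G.ta') : G' = G := by
  have p0 := h'.r2
  have p1 := h'.r3
  have p2 := h'.r6
  have p3 := h'.r3'
  have p4 := h'.r2'
  simp only [hc, h1, h2, h3, h4, a1, a2, a3, a4, b1, b2, b3, b4] at p0 p1 p2 p3 p4
  have q0 : G'.P0 = G.P0 := by linear_combination h.r2 - p0
  have q1 : G'.P1 = G.P1 := by linear_combination h.r3 - p1
  have q2 : G'.P2 = G.P2 := by linear_combination h.r6 - p2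
  have q3 : G'.P3 = G.P3 := by linear_combination h.r3' - p3
  have q4 : G'.P4 = G.P4 := by linear_combination h.r2' - p4
  cases G
  cases G'
  simp only [GHP.mk.injEq]
  exact ⟨hc, h1, h2, h3, h4, hH, hB, a1, a2, a3, a4, b1, b2, b3, b4, q0, q1, q2, q3, q4⟩

/-- Uniqueness of the connection. -/
theorem ghp_uniq {G G' : GHP A} (h : G.Is) (h' : G'.Is) (hc : G'.c = G.c) (hH : G'.H = G.H)
    (hB : G'.Hb = G.Hb) {u1 v1 u2 v2 u3 v3 u4 v4 : A}
    (e1 : ∀ f, G'.th f = G.th f + u1 * G.H f + v1 * G.Hb f)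
    (e2 : ∀ f, G'.tp f = G.tp f + u2 * G.H f + v2 * G.Hb f)
    (e3 : ∀ f, G'.et f = G.et f + u3 * G.H f + v3 * G.Hb f)
    (e4 : ∀ f, G'.ep f = G.ep f + u4 * G.H f + v4 * G.Hb f)
    {ι : Type} (x : ι → A) (xH : ∀ i, G.H (x i) = 0) (xB : ∀ i, G.Hb (x i) = 0)
    (ind : ∀ c1 c2 c3 c4 : A, (∀ i, c1 * G.th (x i) + c2 * G.tp (x i) + c3 * G.et (x i) +
      c4 * G.ep (x i) = 0) → c1 = 0 ∧ c2 = 0 ∧ c3 = 0 ∧ c4 = 0) : G' = G := by
  have key : ∀ {p q : A}, p = q → ∀ {s : A}, s = p - q → s = 0 := fun e _ e' => by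
    rw [e', e, sub_self]
  obtain ⟨k1, k2, k3, k4⟩ := ind (u2 + v2) (u1 + v1)
    (G.c G'.ta - G'.ta' - (G.c G.ta - G.ta')) (G'.ta - G.c G'.ta' - (G.ta - G.c G.ta')) fun i => by
      have a := h'.th_tp (x i)
      have b := h.th_tp (x i)
      simp only [hc, hH, hB, e1, e2, e3, e4, xH, xB, h.H_th, h.H_tp, h.Hb_th, h.Hb_tp, D_zero,
        mul_zero, add_zero] at a b
      linear_combination b - a
  obtain ⟨l1, l2, l3, l4⟩ := ind (u3 + v3 - (G.c G'.ta' - G.c G.ta')) (G.ka - G'.ka)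
    (G.c G'.rh - G.c G.rh - (u1 - v1)) (G'.si - G.si) fun i => by
      have a := h'.th_et (x i)
      have b := h.th_et (x i)
      simp only [hc, hH, hB, e1, e2, e3, e4, xH, xB, h.H_th, h.H_et, h.Hb_th, h.Hb_et, D_zero,
        mul_zero, add_zero] at a b
      linear_combination b - a
  obtain ⟨m1, -, -, m4⟩ := ind (u4 + v4 - (G'.ta' - G.ta')) (G.c G.ka - G.c G'.ka)
    (G.c G'.si - G.c G.si) (G'.rh - G.rh - (v1 - u1)) fun i => by
      have a := h'.th_ep (x i)
      have b := h.th_ep (x i)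
      simp only [hc, hH, hB, e1, e2, e3, e4, xH, xB, h.H_th, h.H_ep, h.Hb_th, h.Hb_ep, D_zero,
        mul_zero, add_zero] at a b
      linear_combination b - a
  obtain ⟨n1, n2, n3, n4⟩ := ind (G.ka' - G'.ka') (G.c G.ta - G.c G'.ta - (u4 + v4))
    (G'.si' - G.si') (G.c G'.rh' - G.c G.rh' - (v2 - u2)) fun i => by
      have a := h'.tp_ep (x i)
      have b := h.tp_ep (x i)
      simp only [hc, hH, hB, e1, e2, e3, e4, xH, xB, h.H_tp, h.H_ep, h.Hb_tp, h.Hb_ep, D_zero,
        mul_zero, add_zero] at a b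
      linear_combination b - a
  obtain ⟨-, o2, o3, -⟩ := ind (G.c G.ka' - G.c G'.ka') (G.ta - G'.ta - (u3 + v3))
    (G'.rh' - G.rh' - (u2 - v2)) (G.c G'.si' - G.c G.si') fun i => by
      have a := h'.tp_et (x i)
      have b := h.tp_et (x i)
      simp only [hc, hH, hB, e1, e2, e3, e4, xH, xB, h.H_tp, h.H_et, h.Hb_tp, h.Hb_et, D_zero,
        mul_zero, add_zero] at a b
      linear_combination b - a
  obtain ⟨p1, p2, p3, p4⟩ := ind (G.c G'.rh' - G'.rh' - (G.c G.rh' - G.rh'))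
    (G'.rh - G.c G'.rh - (G.rh - G.c G.rh)) (u4 - v4) (u3 - v3) fun i => by
      have a := h'.et_ep (x i)
      have b := h.et_ep (x i)
      simp only [hc, hH, hB, e1, e2, e3, e4, xH, xB, h.H_et, h.H_ep, h.Hb_et, h.Hb_ep, D_zero,
        mul_zero, add_zero] at a b
      linear_combination b - a
  have four : ∀ {u : A}, 4 * u = 0 → u = 0 := fun {u} e => by
    have t := GHP.two_unit (A := A)
    exact t.mul_right_eq_zero.1 (t.mul_right_eq_zero.1 (by linear_combination e))
  have z1 : u1 = 0 := four (by linear_combination 2 * k2 - p2 + m4 - l3)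
  have y1 : v1 = 0 := by linear_combination k2 - z1
  have z2 : u2 = 0 := four (by linear_combination 2 * k1 - p1 + n4 - o3)
  have y2 : v2 = 0 := by linear_combination k1 - z2
  have z3 : u3 = 0 := four (by linear_combination 2 * p4 - k4 + l1 - o2)
  have y3 : v3 = 0 := by linear_combination z3 - p4
  have z4 : u4 = 0 := four (by linear_combination 2 * p3 - k3 + m1 - n2)
  have y4 : v4 = 0 := by linear_combination z4 - p3
  subst z1 y1 z2 y2 z3 y3 z4 y4
  simp only [zero_mul, add_zero] at e1 e2 e3 e4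
  exact ghp_ext h h' hc (Derivation.ext e1) (Derivation.ext e2) (Derivation.ext e3)
    (Derivation.ext e4) hH hB (by linear_combination -l2) (by linear_combination l4)
    (by linear_combination m4) (by linear_combination -o2) (by linear_combination -n1)
    (by linear_combination n3) (by linear_combination o3) (by linear_combination -m1)

end Vale.Agent.P354XR
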