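import Vale.Agent.P354XD.Rot
import Vale.Agent.P354XR.Mod
import Vale.Agent.P354XR.Uni

/-!
The Kerr metric in the coordinates (t, r om), its principal null frame, and the identification of
the GHP structure of this frame.
-/

set_option linter.unusedSimpArgs false

namespace Vale.Agent.P354XR

open Vale.Agent.P354XG Vale.Agent.P354XG.Geo Vale.Agent.P354XD

variable {A : Type*} [CommRing A] [Algebra ℂ A]

namespace KC

/-- The form sin^2 d(phi) on the field with the components e3, e4 along P, Q. -/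
noncomputable def qf (K : KC A) (e3 e4 : A) : A := ii A * (K.s * e4 - K.sb * e3)

/-- The Kerr metric on two fields with given components along T, R, P, Q. -/
noncomputable def gB (K : KC A) (e1 e2 e3 e4 f1 f2 f3 f4 : A) : A :=
  -(e1 * f1) + e1 * f2 + e2 * f1 - K.a * (e2 * K.qf f3 f4 + K.qf e3 e4 * f2) +
    2 * (K.r * K.r + K.a * K.a * K.x * K.x) * (e3 * f4 + e4 * f3) +
    K.a * K.a * K.qf e3 e4 * K.qf f3 f4 +
    2 * K.M * K.r * K.sg * (e1 - K.a * K.qf e3 e4) * (f1 - K.a * K.qf f3 f4)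

variable {K : KC A}

namespace Is
variable (h : K.Is)
include h

theorem gB_th_th : K.gB (2 * K.N * K.sg * K.W) (K.N * K.sg * K.De) (ii A * K.a * K.N * K.sg * K.s) (-(ii A * K.a *
    K.N * K.sg * K.sb)) (2 * K.N * K.sg * K.W) (K.N * K.sg * K.De) (ii A * K.a * K.N * K.sg * K.s)
    (-(ii A * K.a * K.N * K.sg * K.sb)) = 0 := by
  simp only [gB, qf, z, zb, De, W]
  linear_combination (16*K.r^3*K.a^2*K.M*K.s*K.sb*K.N^2*K.sg^3 +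
    8*K.r*K.x^2*K.a^4*K.M*K.s*K.sb*K.N^2*K.sg^3 + 8*K.r*K.a^4*K.M*ii A^2*K.s^2*K.sb^2*K.N^2*K.sg^3 +
    8*K.r*K.a^4*K.M*K.s*K.sb*K.N^2*K.sg^3 - 8*K.r*K.a^2*K.M*K.s*K.sb*K.N^2*K.sg^2 + 4*K.a^4*ii
    A^2*K.s^2*K.sb^2*K.N^2*K.sg^2) * ii_sq (A := A) + (-16*K.r^3*K.a^2*K.M*K.N^2*K.sg^3 -
    8*K.r*K.x^2*K.a^4*K.M*K.N^2*K.sg^3 - 8*K.r*K.a^4*K.M*ii A^2*K.s*K.sb*K.N^2*K.sg^3 -
    8*K.r*K.a^4*K.M*K.N^2*K.sg^3 + 8*K.r*K.a^2*K.M*K.N^2*K.sg^2 - 4*K.a^4*ii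
    A^2*K.s*K.sb*K.N^2*K.sg^2) * h.hs + (8*K.r^3*K.M*K.N^2*K.sg^2 +
    8*K.r*K.x^2*K.a^2*K.M*K.N^2*K.sg^2) * h.hg
theorem gB_tp_tp : K.gB (0) (-K.Ni) (0) (0) (0) (-K.Ni) (0) (0) = 0 := by
  simp only [gB, qf, z, zb, De, W]
  ring
theorem gB_et_et : K.gB (ii A * K.a * K.s * K.zb) (0) (0) (K.zb) (ii A * K.a * K.s * K.zb) (0) (0) (K.zb) = 0 := by
  simp only [gB, qf, z, zb, De, W]
  ring
theorem gB_th_tp : K.gB (2 * K.N * K.sg * K.W) (K.N * K.sg * K.De) (ii A * K.a * K.N * K.sg * K.s) (-(ii A * K.a *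
    K.N * K.sg * K.sb)) (0) (-K.Ni) (0) (0) = -2 := by
  simp only [gB, qf, z, zb, De, W]
  linear_combination (-2*K.a^2*K.s*K.sb*K.N*K.Ni*K.sg) * ii_sq (A := A) + (2*K.a^2*K.N*K.Ni*K.sg)
    * h.hs + (-2*K.r^2*K.sg - 2*K.x^2*K.a^2*K.sg) * h.hN + (-2) * h.hg
theorem gB_th_et : K.gB (2 * K.N * K.sg * K.W) (K.N * K.sg * K.De) (ii A * K.a * K.N * K.sg * K.s) (-(ii A * K.a *
    K.N * K.sg * K.sb)) (ii A * K.a * K.s * K.zb) (0) (0) (K.zb) = 0 := by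
  simp only [gB, qf, z, zb, De, W]
  linear_combination (-2*K.r*K.a^3*ii A*K.s^2*K.sb*K.N*K.sg^2 + 2*K.x*K.a^4*ii
    A^2*K.s^2*K.sb*K.N*K.sg^2) * ii_sq (A := A) + (2*K.r*K.a^3*ii A*K.s*K.N*K.sg^2 - 2*K.x*K.a^4*ii
    A^2*K.s*K.N*K.sg^2) * h.hs
theorem gB_tp_et : K.gB (0) (-K.Ni) (0) (0) (ii A * K.a * K.s * K.zb) (0) (0) (K.zb) = 0 := by
  simp only [gB, qf, z, zb, De, W]
  ring
theorem gB_et_ep : K.gB (ii A * K.a * K.s * K.zb) (0) (0) (K.zb) (-(ii A * K.a * K.sb * K.z)) (0) (K.z) (0) = 2 := by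
  simp only [gB, qf, z, zb, De, W]
  linear_combination (-2*K.r^2*K.x^2*K.a^2*K.sg^2 - 2*K.x^4*K.a^4*K.sg^2) * ii_sq (A := A) +
    (2*K.r^2*K.sg + 2*K.x^2*K.a^2*K.sg + 2) * h.hg

end Is
end KC

variable (K : Hp A) (p : Pm A)

/-- The components along T, R, P, Q of the coordinate fields. -/
noncomputable def c1 (a : Fin 4) : A := Hp.e0 A a + K.om a * p.h1
noncomputable def c3 (a : Fin 4) : A := hf A * K.ri * K.mu a + K.om a * p.j1 * (ii A * K.kc.s)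
noncomputable def c4 (a : Fin 4) : A := hf A * K.ri * K.mub a - K.om a * p.j1 * (ii A * K.kc.sb)

/-- One half of the Kerr metric in the coordinates of the base. -/
noncomputable def gK (a b : Fin 4) : A :=
  hf A * (kk K p).gB (c1 K p a) (K.om a) (c3 K p a) (c4 K p a) (c1 K p b) (K.om b) (c3 K p b)
    (c4 K p b)

/-- The principal null frame. -/
noncomputable def frK : Fr A :=
  ⟨K.prj (kk K p).th, K.prj (kk K p).tp, K.prj (kk K p).et, K.prj (kk K p).ep⟩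

variable {K p}

theorem prj_s (h : K.Is) (e1 e2 e3 e4 e5 e6 : A) :
    ∑ a, K.prj (K.kc.V e1 e2 e3 e4 e5 e6) a * Hp.e0 A a = e1 ∧
    ∑ a, K.prj (K.kc.V e1 e2 e3 e4 e5 e6) a * K.om a = e2 ∧
    ∑ a, K.prj (K.kc.V e1 e2 e3 e4 e5 e6) a * (hf A * K.ri * K.mu a) = e3 ∧
    ∑ a, K.prj (K.kc.V e1 e2 e3 e4 e5 e6) a * (hf A * K.ri * K.mub a) = e4 := by
  obtain ⟨p1, p2, p3, p4, p5, p6⟩ := h.prods
  have t := two_hf (A := A)
  have r := h.hr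
  have o0 : K.om 0 = 0 := rfl
  have m0 : K.mu 0 = 0 := rfl
  have n0 : K.mub 0 = 0 := rfl
  simp only [h.prj_V, Fin.sum_univ_four, o0, m0, n0] at p1 p2 p3 p4 p5 p6 ⊢
  simp only [Hp.e0, Matrix.cons_val]
  refine ⟨by ring, ?_, ?_, ?_⟩
  · linear_combination e2 * p1 + e3 * K.z 1 * p3 + e4 * K.z 1 * p2
  · linear_combination hf A * K.ri * (e2 * p2 + e3 * K.z 1 * p6 + e4 * K.z 1 * p4) +
      e3 * (K.z 1 * K.ri * t + r)
  · linear_combination hf A * K.ri * (e2 * p3 + e3 * K.z 1 * p5 + e4 * K.z 1 * p6) +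
      e4 * (K.z 1 * K.ri * t + r)

theorem prj_c (h : K.Is) (e1 e2 e3 e4 e5 e6 : A) :
    ∑ a, K.prj ((kk K p).V e1 e2 e3 e4 e5 e6) a * c1 K p a = e1 ∧
    ∑ a, K.prj ((kk K p).V e1 e2 e3 e4 e5 e6) a * K.om a = e2 ∧
    ∑ a, K.prj ((kk K p).V e1 e2 e3 e4 e5 e6) a * c3 K p a = e3 ∧
    ∑ a, K.prj ((kk K p).V e1 e2 e3 e4 e5 e6) a * c4 K p a = e4 := by
  rw [kk_V]
  obtain ⟨s0, s1, s2, s3⟩ := prj_s h (e1 - e2 * p.h1) e2 (e3 - e2 * p.j1 * (ii A * K.kc.s))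
    (e4 + e2 * p.j1 * (ii A * K.kc.sb)) (e5 + e2 * p.j1 * (ii A * K.kc.x))
    (e6 - e2 * p.j1 * (ii A * K.kc.x))
  simp only [c1, c3, c4, Fin.sum_univ_four] at s0 s1 s2 s3 ⊢
  refine ⟨?_, s1, ?_, ?_⟩
  · linear_combination s0 + p.h1 * s1
  · linear_combination s2 + p.j1 * (ii A * K.kc.s) * s1
  · linear_combination s3 - p.j1 * (ii A * K.kc.sb) * s1

theorem dot_gK (Γ : Fin 4 → Fin 4 → Fin 4 → A) (Y Z : Vec A) : (K.geo (gK K p) Γ).dot Y Z =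
    hf A * (kk K p).gB (∑ a, Y a * c1 K p a) (∑ a, Y a * K.om a) (∑ a, Y a * c3 K p a)
      (∑ a, Y a * c4 K p a) (∑ a, Z a * c1 K p a) (∑ a, Z a * K.om a) (∑ a, Z a * c3 K p a)
      (∑ a, Z a * c4 K p a) := by
  simp only [dot, Hp.geo, gK, KC.gB, KC.qf, Fin.sum_univ_four]
  ring

theorem dot_V (h : K.Is) (Γ : Fin 4 → Fin 4 → Fin 4 → A) (e1 e2 e3 e4 e5 e6 f1 f2 f3 f4 f5 f6 : A) :
    (K.geo (gK K p) Γ).dot (K.prj ((kk K p).V e1 e2 e3 e4 e5 e6))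
      (K.prj ((kk K p).V f1 f2 f3 f4 f5 f6)) = hf A * (kk K p).gB e1 e2 e3 e4 f1 f2 f3 f4 := by
  simp only [dot_gK, prj_c h]

theorem cv_prj (h : K.Is) (g : Fin 4 → Fin 4 → A) (Γ : Fin 4 → Fin 4 → Fin 4 → A)
    {D D' : Der A} (e : ∀ f, K.c (D f) = D' (K.c f)) : (K.geo g Γ).cv (K.prj D) = K.prj D' :=
  funext fun a => (e _).trans (congrArg D' (h.c_co a))

theorem dv_prj {E D : Der A} {w : A} (e : ∀ f, E (D f) = D (E f) + w * D f)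
    (e0 : ∀ a, E (K.co a) = 0) : dv E (K.prj D) = w • K.prj D :=
  funext fun a => by simp [dv, Hp.prj, e, e0]

/-- The frame is a weighted null frame. -/
theorem frK_wn (h : K.Is) (q : p.Is K) (Γ : Fin 4 → Fin 4 → Fin 4 → A) :
    (frK K p).WN (K.geo (gK K p) Γ) := by
  have k := kk_is h q
  have t := two_hf (A := A)
  have cH : ∀ a, K.H (K.co a) = 0 := fun a => (h.tco a).2.2.2.2.1
  have cB : ∀ a, K.B (K.co a) = 0 := fun a => (h.tco a).2.2.2.2.2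
  refine ⟨⟨cv_prj h _ _ k.c_th, cv_prj h _ _ k.c_tp, cv_prj h _ _ k.c_et, ?_, ?_, ?_, ?_, ?_, ?_,
    ?_⟩, ?_, ?_, ?_, ?_⟩
  · exact (dot_V h Γ ..).trans (by rw [k.gB_th_th, mul_zero])
  · exact (dot_V h Γ ..).trans (by rw [k.gB_tp_tp, mul_zero])
  · exact (dot_V h Γ ..).trans (by rw [k.gB_et_et, mul_zero])
  · exact (dot_V h Γ ..).trans (by rw [k.gB_th_tp]; linear_combination -t)
  · exact (dot_V h Γ ..).trans (by rw [k.gB_th_et, mul_zero])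
  · exact (dot_V h Γ ..).trans (by rw [k.gB_tp_et, mul_zero])
  · exact (dot_V h Γ ..).trans (by rw [k.gB_et_ep]; linear_combination t)
  · exact (dv_prj (w := 1) (fun f => by rw [one_mul]; exact k.H_th f) cH).trans (one_smul _ _)
  · exact (dv_prj (w := -1) (fun f => by rw [neg_one_mul]; exact k.H_tp f) cH).trans
      (neg_one_smul _ _)
  · exact (dv_prj (w := 1) (fun f => by rw [one_mul]; exact k.H_et f) cH).trans (one_smul _ _)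
  · exact (dv_prj (w := -1) (fun f => by
      rw [neg_one_mul, ← sub_eq_add_neg]; exact k.kerr_is.Hb_et f) cB).trans (neg_one_smul _ _)

/-- A field of the chart and a lift of its projection differ by a vertical field. -/
theorem act_V (h : K.Is) (g : Fin 4 → Fin 4 → A) (Γ : Fin 4 → Fin 4 → Fin 4 → A)
    (e1 e2 e3 e4 e5 e6 : A) (u : Op A) (hu : u.X = K.prj ((kk K p).V e1 e2 e3 e4 e5 e6)) :
    ∃ a b, ∀ f, (K.geo g Γ).act u f = (kk K p).V e1 e2 e3 e4 e5 e6 f + a * K.H f + b * K.B f := by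
  rw [kk_V] at hu ⊢
  refine ⟨u.a - (e5 + e2 * p.j1 * (ii A * K.kc.x)), u.b - (e6 - e2 * p.j1 * (ii A * K.kc.x)),
    fun f => ?_⟩
  rw [← h.act_prj g Γ, act_apply, act_apply, hu]
  simp only [Hp.geo]
  ring

theorem V_lin (K : KC A) (d1 d2 d3 d4 a1 a2 a3 a4 a5 a6 b1 b2 b3 b4 b5 b6 c1 c2 c3 c4 c5 c6 e1 e2 e3
    e4 e5 e6 f : A) : d1 * K.V a1 a2 a3 a4 a5 a6 f + d2 * K.V b1 b2 b3 b4 b5 b6 f +
    d3 * K.V c1 c2 c3 c4 c5 c6 f + d4 * K.V e1 e2 e3 e4 e5 e6 f =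
    K.V (d1 * a1 + d2 * b1 + d3 * c1 + d4 * e1) (d1 * a2 + d2 * b2 + d3 * c2 + d4 * e2)
      (d1 * a3 + d2 * b3 + d3 * c3 + d4 * e3) (d1 * a4 + d2 * b4 + d3 * c4 + d4 * e4)
      (d1 * a5 + d2 * b5 + d3 * c5 + d4 * e5) (d1 * a6 + d2 * b6 + d3 * c6 + d4 * e6) f := by
  simp only [KC.V_ap]; ring

theorem kerr_ind (h : K.Is) (q : p.Is K) (d1 d2 d3 d4 : A) (e : ∀ a, d1 * (kk K p).th (K.co a) +
    d2 * (kk K p).tp (K.co a) + d3 * (kk K p).et (K.co a) + d4 * (kk K p).ep (K.co a) = 0) :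
    d1 = 0 ∧ d2 = 0 ∧ d3 = 0 ∧ d4 = 0 := by
  obtain ⟨E1, E2, E3, E4, E5, E6, hV⟩ : ∃ E1 E2 E3 E4 E5 E6, ∀ f, d1 * (kk K p).th f +
      d2 * (kk K p).tp f + d3 * (kk K p).et f + d4 * (kk K p).ep f =
      (kk K p).V E1 E2 E3 E4 E5 E6 f :=
    ⟨_, _, _, _, _, _, fun f => by
      rw [KC.th, KC.tp, KC.et, KC.ep]; exact V_lin ..⟩
  have e0 : K.prj ((kk K p).V E1 E2 E3 E4 E5 E6) = 0 := funext fun a => (hV _).symm.trans (e a)
  obtain ⟨s1, s2, s3, s4⟩ := prj_c (p := p) h E1 E2 E3 E4 E5 E6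
  simp only [e0, Pi.zero_apply, zero_mul, Finset.sum_const_zero] at s1 s2 s3 s4
  subst s1 s2 s3 s4
  obtain ⟨a1, a2, a3, a4, -⟩ := (kk_is h q).indep (kk_free h p) (u1 := d1) (u2 := d2) (u3 := d3)
    (u4 := d4) (u5 := -E5) (u6 := -E6) fun f => by rw [hV, KC.V_ap]; ring
  exact ⟨a1, a2, a3, a4⟩

/-- The GHP structure of the principal frame. -/
theorem ghp_frK (h : K.Is) (q : p.Is K) {Γ : Fin 4 → Fin 4 → Fin 4 → A}
    (hS : (K.geo (gK K p) Γ).Is) : (frK K p).ghp (K.geo (gK K p) Γ) = (kk K p).kerr := by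
  obtain ⟨u1, v1, e1⟩ := act_V h (gK K p) Γ _ _ _ _ _ _
    (hat (K.geo (gK K p) Γ) (frK K p).l (frK K p).n (frK K p).m (frK K p).mb (frK K p).l) rfl
  obtain ⟨u2, v2, e2⟩ := act_V h (gK K p) Γ _ _ _ _ _ _
    (hat (K.geo (gK K p) Γ) (frK K p).l (frK K p).n (frK K p).m (frK K p).mb (frK K p).n) rfl
  obtain ⟨u3, v3, e3⟩ := act_V h (gK K p) Γ _ _ _ _ _ _
    (hat (K.geo (gK K p) Γ) (frK K p).l (frK K p).n (frK K p).m (frK K p).mb (frK K p).m) rfl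
  obtain ⟨u4, v4, e4⟩ := act_V h (gK K p) Γ _ _ _ _ _ _
    (hat (K.geo (gK K p) Γ) (frK K p).l (frK K p).n (frK K p).m (frK K p).mb (frK K p).mb) rfl
  exact ghp_uniq (kk_is h q).kerr_is (WNull.is hS (frK_wn h q Γ)) rfl rfl rfl e1 e2 e3 e4 K.co
    (fun a => (h.tco a).2.2.2.2.1) (fun a => (h.tco a).2.2.2.2.2) (kerr_ind h q)

end Vale.Agent.P354XR
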