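import Vale.Agent.P354XR.Teu

/-!
The Teukolsky operators of Kerr as identities of operators, for functions of any weight.
-/

namespace Vale.Agent.P354XR
namespace KC

set_option linter.unusedSimpArgs false

open Vale.Agent.P354XG

variable {A : Type*} [CommRing A] [Algebra ℂ A] (K : KC A)

/-- The operators which act on the defects of the weights. -/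
noncomputable def E1 : Der A :=
  K.V (K.r*K.x^2*K.a^2*K.sg^2 - K.r*K.a^2*K.sg^2 - K.x^3*K.a^3*ii A*K.sg^2 + K.x*K.a^3*ii A*K.sg^2
    + K.x*K.a*ii A*K.sg) (K.r*K.x^2*K.a^2*K.sg^2 - 2*K.r*K.x*K.a*K.M*ii A*K.sg^2 - K.r*K.a^2*K.sg^2
    - K.x^3*K.a^3*ii A*K.sg^2 - 2*K.x^2*K.a^2*K.M*K.sg^2 + K.x*K.a^3*ii A*K.sg^2 + K.x*K.a*ii A*K.sg
    + K.M*K.sg) (0) (K.r*K.a*ii A*K.sb*K.sg^2 + K.x*K.a^2*K.sb*K.sg^2) (2*K.x^3*K.a^3*K.M*ii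
    A*K.sg^3 + K.x^2*K.a^2*K.sg^2 - K.x*K.a*K.M*ii A*K.sg^2) (-K.x^2*K.a^2*K.sg^2 - K.a^2*K.sg^2)
noncomputable def E2 : Der A :=
  K.V (K.r*K.x^2*K.a^2*K.sg^2 - K.r*K.a^2*K.sg^2 + K.x^3*K.a^3*ii A*K.sg^2 - K.x*K.a^3*ii A*K.sg^2
    - K.x*K.a*ii A*K.sg) (K.r*K.x^2*K.a^2*K.sg^2 + 2*K.r*K.x*K.a*K.M*ii A*K.sg^2 - K.r*K.a^2*K.sg^2
    + K.x^3*K.a^3*ii A*K.sg^2 - 2*K.x^2*K.a^2*K.M*K.sg^2 - K.x*K.a^3*ii A*K.sg^2 - K.x*K.a*ii A*K.sg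
    + K.M*K.sg) (-K.r*K.a*ii A*K.s*K.sg^2 + K.x*K.a^2*K.s*K.sg^2) (0) 0 (-2*K.x^3*K.a^3*K.M*ii
    A*K.sg^3 + K.x^2*K.a^2*K.sg^2 + K.x*K.a*K.M*ii A*K.sg^2)
noncomputable def u0 : A :=
  12*K.r*K.x^2*K.a^2*K.M*K.sg^3 - 2*K.r*K.x*K.a*ii A*K.sg^2 - 3*K.r*K.M*K.sg^2 +
    4*K.x^3*K.a^3*K.M*ii A*K.sg^3 - K.x*K.a*K.M*ii A*K.sg^2 - 2*K.a^2*K.sg^2
noncomputable def v0 : A :=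
  -2*K.r*K.x^3*K.a^3*ii A*K.sg^3 + 2*K.r*K.x*K.a^3*ii A*K.sg^3 + 4*K.r*K.x*K.a*ii A*K.sg^2 -
    3*K.r*K.M*K.sg^2 - 2*K.x^4*K.a^4*K.sg^3 + 2*K.x^2*K.a^4*K.sg^3 + K.x^2*K.a^2*K.sg^2 -
    K.x*K.a*K.M*ii A*K.sg^2 - K.a^2*K.sg^2
noncomputable def u4 : A :=
  -8*K.r*K.x^2*K.a^2*K.M*K.sg^3 + 4*K.r*K.x*K.a*ii A*K.sg^2 + 3*K.r*K.M*K.sg^2 -
    8*K.x^3*K.a^3*K.M*ii A*K.sg^3 + 2*K.x^2*K.a^2*K.sg^2 + 3*K.x*K.a*K.M*ii A*K.sg^2 +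
    2*K.a^2*K.sg^2 - K.sg
noncomputable def v4 : A :=
  2*K.r*K.x^3*K.a^3*ii A*K.sg^3 + 4*K.r*K.x^2*K.a^2*K.M*K.sg^3 - 2*K.r*K.x*K.a^3*ii A*K.sg^3 -
    6*K.r*K.x*K.a*ii A*K.sg^2 + 3*K.r*K.M*K.sg^2 + 2*K.x^4*K.a^4*K.sg^3 + 4*K.x^3*K.a^3*K.M*ii
    A*K.sg^3 - 2*K.x^2*K.a^4*K.sg^3 + K.x^2*K.a^2*K.sg^2 - K.x*K.a*K.M*ii A*K.sg^2 + K.a^2*K.sg^2 +
    K.sg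

variable {K}

namespace Is
variable (h : K.Is)
include h

theorem teu0_aux (f : A) :
    (K.th (K.tp f + (K.rh2 + 2 * K.c K.rh2) * f) -
      (4 * K.N * K.ee + 2 * K.rh - K.c K.rh) * (K.tp f + (K.rh2 + 2 * K.c K.rh2) * f)) -
      (K.et (K.ep f + K.ta2 * f) + (K.c K.ta2 - 4 * K.ta) * (K.ep f + K.ta2 * f)) -
      3 * K.P2 * f = -(K.sg * K.Ps 2 f) + K.E1 (K.H f - 2 * f) + K.u0 * (K.H f - 2 * f) +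
        K.E2 (K.B f + 2 * f) + K.v0 * (K.B f + 2 * f) := by
  simp only [Ps, F2, E1, E2, u0, v0, u4, v4, th, tp, et, ep, rh, rh2, ta, ta2, P2, z, zb, ee, De,
    W, V_ap, D_add, D_sub, D_mul, D_neg, D_num, D_zero, D_ii, map_mul, map_add, map_sub, map_neg,
    map_zero, map_ofNat, h.tab, h.R_T, h.P_T, h.Q_T, h.H_T, h.B_T, h.P_R, h.Q_R, h.H_R, h.B_R,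
    h.P_Q, h.H_P, h.H_Q, h.B_P, h.B_Q, h.B_H]
  have hi := ii_sq (A := A)
  have hs := h.hs
  have hN := h.hN
  have hg := h.hg
  generalize K.T (K.T f) = fTT, K.T (K.R f) = fTR, K.T (K.P f) = fTP, K.T (K.Q f) = fTQ, K.R (K.R
    f) = fRR, K.R (K.P f) = fRP, K.R (K.Q f) = fRQ, K.P (K.P f) = fPP, K.Q (K.P f) = fQP, K.Q (K.Q
    f) = fQQ, K.T (K.H f) = fTH, K.R (K.H f) = fRH, K.P (K.H f) = fPH, K.Q (K.H f) = fQH, K.H (K.H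
    f) = fHH, K.H (K.B f) = fHB, K.T (K.B f) = fTB, K.R (K.B f) = fRB, K.P (K.B f) = fPB, K.Q (K.B
    f) = fQB, K.B (K.B f) = fBB
  generalize K.T f = fT, K.R f = fR, K.P f = fP, K.Q f = fQ, K.H f = fH, K.B f = fB
  generalize K.r = r, K.x = x, K.a = a, K.M = M, ii A = i, K.s = s, K.sb = sb, K.N = N, K.Ni = Ni,
    K.sg = sg at hi hs hN hg ⊢
  linear_combination ((r^2*a^2*s*sb*sg^2 - x^4*a^4*sg^2 - x^2*a^4*i^2*s*sb*sg^2 +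
    x^2*a^4*sg^2)*fTT + (x^2*a^3*i*s*sg^2)*fTP + (-x^2*a^3*i*sb*sg^2)*fTQ + (x^2*a^2*sg^2)*fQP +
    (r^3*a^2*s*sb*sg^3 - r*x^4*a^4*sg^3 - r*x^2*a^4*i^2*s*sb*sg^3 + r*x^2*a^4*sg^3 +
    x^3*a^5*i*s*sb*sg^3)*fTH + (-x^3*a^4*s*sg^3 + x*a^2*s*N*Ni*sg^2)*fPH + (-r*x^2*a^3*i*sb*sg^3 -
    x*a^2*sb*N*Ni*sg^2)*fQH + (r*x^3*a^5*i*s*sb*sg^4 - x^2*a^2*N*Ni*sg^2)*fHH + (r^4*a^2*s*sb*sg^4 -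
    r^2*x^2*a^4*i^2*s*sb*sg^4 + x^6*a^6*sg^4 + x^4*a^6*s*sb*sg^4 - x^4*a^6*sg^4 - x^4*a^4*sg^3 +
    x^2*a^4*sg^3 + 2*x^2*a^2*N*Ni*sg^2)*fHB + (r^3*a^2*s*sb*sg^3 - r*x^4*a^4*sg^3 -
    r*x^2*a^4*i^2*s*sb*sg^3 + r*x^2*a^4*sg^3 - x^3*a^5*i*s*sb*sg^3)*fTB + (r*x^2*a^3*i*s*sg^3 -
    x*a^2*s*N*Ni*sg^2)*fPB + (-x^3*a^4*sb*sg^3 + x*a^2*sb*N*Ni*sg^2)*fQB + (-r*x^3*a^5*i*s*sb*sg^4 -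
    x^2*a^2*N*Ni*sg^2)*fBB + (3*r^3*a^2*s*sb*sg^3 - 3*r*x^4*a^4*sg^3 - 3*r*x^2*a^4*i^2*s*sb*sg^3 +
    3*r*x^2*a^4*sg^3 + 3*r*a^2*s*sb*sg^2 - 3*x^3*a^5*i*s*sb*sg^3 - 2*x^3*a^3*i*sg^2 +
    5*x*a^3*i*s*sb*sg^2)*fT + (r^2*x*a^2*s*sg^3 + 2*r*x^2*a^3*i*s*sg^3 - x^3*a^4*i^2*s*sg^3 +
    4*x^3*a^4*s*sg^3 - x*a^2*s*N*Ni*sg^2 - 5*x*a^2*s*sg^2)*fP + (r^2*x*a^2*sb*sg^3 -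
    r*x^2*a^3*i*sb*sg^3 - x^3*a^4*i^2*sb*sg^3 + x^3*a^4*sb*sg^3 + x*a^2*sb*N*Ni*sg^2)*fQ +
    (2*r^4*a^2*s*sb*sg^4 - r^3*x*a^3*i*s*sb*sg^4 - 2*r^2*x^2*a^4*i^2*s*sb*sg^4 -
    r^2*x^2*a^4*s*sb*sg^4 + 3*r^2*x^2*a^2*N*Ni*sg^3 + 3*r^2*a^2*s*sb*sg^3 + r*x^5*a^5*i*sg^4 +
    r*x^3*a^5*i^3*s*sb*sg^4 - 4*r*x^3*a^5*i*s*sb*sg^4 - r*x^3*a^5*i*sg^4 - 2*r*x^3*a^3*i*sg^3 -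
    6*r*x^2*a^2*M*N*Ni*sg^3 + 5*r*x*a^3*i*s*sb*sg^3 + 3*x^6*a^6*sg^4 + x^4*a^6*i^2*s*sb*sg^4 -
    3*x^4*a^6*sg^4 - 2*x^4*a^4*sg^3 + 3*x^2*a^4*N*Ni*sg^3 + 2*x^2*a^4*sg^3 + x^2*a^2*N*Ni*sg^2)*fH +
    (r^4*a^2*s*sb*sg^4 + r^3*x*a^3*i*s*sb*sg^4 - r^2*x^2*a^4*i^2*s*sb*sg^4 - r^2*x^2*a^4*s*sb*sg^4 -
    3*r^2*x^2*a^2*N*Ni*sg^3 - r*x^5*a^5*i*sg^4 - r*x^3*a^5*i^3*s*sb*sg^4 - 2*r*x^3*a^5*i*s*sb*sg^4 +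
    r*x^3*a^5*i*sg^4 + 6*r*x^2*a^2*M*N*Ni*sg^3 + 2*x^6*a^6*sg^4 + x^4*a^6*i^2*s*sb*sg^4 -
    5*x^4*a^6*s*sb*sg^4 - 2*x^4*a^6*sg^4 - 3*x^4*a^4*sg^3 + 6*x^2*a^4*s*sb*sg^3 -
    3*x^2*a^4*N*Ni*sg^3 + x^2*a^4*sg^3 - x^2*a^2*N*Ni*sg^2)*fB + (2*r^4*a^2*s*sb*sg^4 +
    r^3*x*a^3*i*s*sb*sg^4 - 3*r^2*x^2*a^4*i^2*s*sb*sg^4 + 5*r^2*x^2*a^4*s*sb*sg^4 -
    3*r^2*x^2*a^2*N*Ni*sg^3 + 2*r^2*x^2*a^2*sg^3 + 2*r^2*a^2*s*sb*sg^3 - r*x^5*a^5*i*sg^4 -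
    r*x^3*a^5*i^3*s*sb*sg^4 - 5*r*x^3*a^5*i*s*sb*sg^4 + r*x^3*a^5*i*sg^4 - 2*r*x^3*a^3*i*sg^3 +
    6*r*x^2*a^2*M*N*Ni*sg^3 + 18*r*x^2*a^2*M*sg^3 + 8*r*x*a^3*i*s*sb*sg^3 + x^6*a^6*i^2*sg^4 -
    3*x^6*a^6*sg^4 + x^4*a^6*i^4*s*sb*sg^4 - 5*x^4*a^6*i^2*s*sb*sg^4 - x^4*a^6*i^2*sg^4 +
    3*x^4*a^6*sg^4 - 2*x^4*a^4*i^2*sg^3 + 5*x^4*a^4*sg^3 + 6*x^3*a^3*M*i*sg^3 +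
    6*x^2*a^4*i^2*s*sb*sg^3 - 3*x^2*a^4*N*Ni*sg^3 - 3*x^2*a^4*sg^3)*f) * hi + ((-r^2*a^2*sg^2 +
    x^2*a^4*i^2*sg^2 + a^2*sg)*fTT + (-r^3*a^2*sg^3 - r^2*x*a^3*i*sg^3 + r*x^2*a^4*i^2*sg^3 -
    x^3*a^5*i*sg^3)*fTH + (-r^3*x*a^3*i*sg^4 - r*x^3*a^5*i*sg^4)*fHH + (-r^4*a^2*sg^4 +
    r^2*x^2*a^4*i^2*sg^4 - r^2*x^2*a^4*sg^4 - x^4*a^6*sg^4)*fHB + (-r^3*a^2*sg^3 + r^2*x*a^3*i*sg^3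
    + r*x^2*a^4*i^2*sg^3 + x^3*a^5*i*sg^3)*fTB + (r^3*x*a^3*i*sg^4 + r*x^3*a^5*i*sg^4)*fBB +
    (-3*r^3*a^2*sg^3 + 3*r^2*x*a^3*i*sg^3 + 3*r*x^2*a^4*i^2*sg^3 - 3*r*a^2*sg^2 + 3*x^3*a^5*i*sg^3 -
    5*x*a^3*i*sg^2)*fT + (-2*r^4*a^2*sg^4 + 5*r^3*x*a^3*i*sg^4 + 2*r^2*x^2*a^4*i^2*sg^4 +
    r^2*x^2*a^4*sg^4 - 3*r^2*a^2*sg^3 - r*x^3*a^5*i^3*sg^4 + 4*r*x^3*a^5*i*sg^4 - 5*r*x*a^3*i*sg^3 -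
    x^4*a^6*i^2*sg^4)*fH + (-r^4*a^2*sg^4 + r^3*x*a^3*i*sg^4 + r^2*x^2*a^4*i^2*sg^4 +
    6*r^2*x^2*a^4*sg^4 - r^2*a^2*sg^3 + r*x^3*a^5*i^3*sg^4 + 2*r*x^3*a^5*i*sg^4 + 3*r*x*a^3*i*sg^3 -
    x^4*a^6*i^2*sg^4 + 5*x^4*a^6*sg^4 - 6*x^2*a^4*sg^3)*fB + (-2*r^4*a^2*sg^4 + 4*r^3*x*a^3*i*sg^4 +
    3*r^2*x^2*a^4*i^2*sg^4 - 5*r^2*x^2*a^4*sg^4 - 2*r^2*a^2*sg^3 + r*x^3*a^5*i^3*sg^4 +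
    5*r*x^3*a^5*i*sg^4 - 8*r*x*a^3*i*sg^3 - x^4*a^6*i^4*sg^4 + 5*x^4*a^6*i^2*sg^4 -
    6*x^2*a^4*i^2*sg^3)*f) * hs + ((-2*r^2*sg - 2*a^2*sg)*fTR + (-r^2*sg + 2*r*M*sg - a^2*sg)*fRR +
    (-a*i*s*sg)*fRP + (a*i*sb*sg)*fRQ + (2*r^2*x*a*i*sg^2 + 2*x*a^3*i*sg^2)*fTH + (-r^3*sg^2 +
    r^2*x*a*i*sg^2 + 2*r^2*M*sg^2 - 2*r*x*a*M*i*sg^2 - r*a^2*sg^2 + r*sg + x*a^3*i*sg^2 + x*a*i*sg -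
    M*sg)*fRH + (-x*a^2*s*sg^2)*fPH + (x*a^2*sb*sg^2)*fQH + (r^3*x*a*i*sg^3 - 2*r^2*x*a*M*i*sg^3 +
    r*x*a^3*i*sg^3 - r*x*a*i*sg^2 + x^2*a^2*sg^2 + x*a*M*i*sg^2)*fHH + (-2*x^2*a^2*sg^2)*fHB +
    (-2*r^2*x*a*i*sg^2 - 2*x*a^3*i*sg^2)*fTB + (-r^3*sg^2 - r^2*x*a*i*sg^2 + 2*r^2*M*sg^2 +
    2*r*x*a*M*i*sg^2 - r*a^2*sg^2 + r*sg - x*a^3*i*sg^2 - x*a*i*sg - M*sg)*fRB + (x*a^2*s*sg^2)*fPB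
    + (-x*a^2*sb*sg^2)*fQB + (-r^3*x*a*i*sg^3 + 2*r^2*x*a*M*i*sg^3 - r*x*a^3*i*sg^3 + r*x*a*i*sg^2 +
    x^2*a^2*sg^2 - x*a*M*i*sg^2)*fBB + (6*r^3*sg^2 - 2*r^2*x*a*i*sg^2 + 6*r*a^2*sg^2 -
    2*x*a^3*i*sg^2)*fT + (-4*r^2*x*a*i*sg^2 + 8*r*x*a*M*i*sg^2 + 2*r*sg - 4*x*a^3*i*sg^2 -
    2*M*sg)*fR + (3*r*a*i*s*sg^2 + x*a^2*s*sg^2)*fP + (-3*r*a*i*sb*sg^2 - x*a^2*sb*sg^2)*fQ +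
    (3*r^4*sg^3 - 6*r^3*M*sg^3 - 3*r^2*x^2*a^2*sg^3 + 3*r^2*a^2*sg^3 - 3*r^2*sg^2 +
    6*r*x^2*a^2*M*sg^3 - 4*r*x*a*i*sg^2 + 3*r*M*sg^2 - 3*x^2*a^4*sg^3 - x^2*a^2*sg^2 +
    x*a*M*i*sg^2)*fH + (3*r^4*sg^3 - 2*r^3*x*a*i*sg^3 - 6*r^3*M*sg^3 + 3*r^2*x^2*a^2*sg^3 +
    4*r^2*x*a*M*i*sg^3 + 3*r^2*a^2*sg^3 - 3*r^2*sg^2 - 6*r*x^2*a^2*M*sg^3 - 2*r*x*a^3*i*sg^3 +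
    6*r*x*a*i*sg^2 + 3*r*M*sg^2 + 3*x^2*a^4*sg^3 + x^2*a^2*sg^2 - 3*x*a*M*i*sg^2)*fB + (3*r^4*sg^3 +
    8*r^3*x*a*i*sg^3 - 6*r^3*M*sg^3 + 3*r^2*x^2*a^2*sg^3 - 16*r^2*x*a*M*i*sg^3 + 3*r^2*a^2*sg^3 -
    3*r^2*sg^2 - 6*r*x^2*a^2*M*sg^3 + 8*r*x*a^3*i*sg^3 + 2*r*x*a*i*sg^2 + 3*x^2*a^4*sg^3 -
    2*x*a*M*i*sg^2 + 3*a^2*sg^2)*f) * hN + ((x^2*a^2*sg - a^2*sg)*fTT + (-a*i*s*sg)*fTP +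
    (a*i*sb*sg)*fTQ + (-sg)*fQP + (r*x^2*a^2*sg^2 - r*a^2*sg^2 + x^3*a^3*i*sg^2 - x*a^3*i*sg^2 +
    2*x*a*i*sg)*fTH + (-r*sg + x*a*i*sg + 2*M*sg)*fRH + (x*a^2*s*sg^2)*fPH + (r*a*i*sb*sg^2)*fQH +
    (r*x^3*a^3*i*sg^3 - r*x*a^3*i*sg^3 + r*x*a*i*sg^2 - 2*x*a*M*i*sg^2)*fHH + (r^2*x^2*a^2*sg^3 -
    r^2*a^2*sg^3 - x^4*a^4*i^2*sg^3 + x^2*a^4*i^2*sg^3 + x^2*a^2*sg^2 - a^2*sg^2)*fHB +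
    (r*x^2*a^2*sg^2 - r*a^2*sg^2 - x^3*a^3*i*sg^2 + x*a^3*i*sg^2 - 2*x*a*i*sg)*fTB + (-r*sg -
    x*a*i*sg + 2*M*sg)*fRB + (-r*a*i*s*sg^2)*fPB + (x*a^2*sb*sg^2)*fQB + (-r*x^3*a^3*i*sg^3 +
    r*x*a^3*i*sg^3 - r*x*a*i*sg^2 + 2*x*a*M*i*sg^2)*fBB + (3*r*x^2*a^2*sg^2 - 3*r*a^2*sg^2 + 6*r*sg
    - 3*x^3*a^3*i*sg^2 + 3*x*a^3*i*sg^2)*fT + (-4*x*a*i*sg)*fR + (-2*r*a*i*s*sg^2 -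
    4*x*a^2*s*sg^2)*fP + (r*a*i*sb*sg^2 - x*a^2*sb*sg^2)*fQ + (2*r^2*x^2*a^2*sg^3 - 2*r^2*a^2*sg^3 +
    3*r^2*sg^2 - 5*r*x^3*a^3*i*sg^3 + 5*r*x*a^3*i*sg^3 + 2*r*x*a*i*sg^2 - 6*r*M*sg^2 -
    2*x^4*a^4*i^2*sg^3 - 3*x^4*a^4*sg^3 + 2*x^2*a^4*i^2*sg^3 + 3*x^2*a^4*sg^3 - x^2*a^2*sg^2 -
    2*a^2*sg^2)*fH + (r^2*x^2*a^2*sg^3 - r^2*a^2*sg^3 + 3*r^2*sg^2 - r*x^3*a^3*i*sg^3 +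
    r*x*a^3*i*sg^3 - 2*r*x*a*i*sg^2 - 6*r*M*sg^2 - x^4*a^4*i^2*sg^3 - 7*x^4*a^4*sg^3 +
    x^2*a^4*i^2*sg^3 + 7*x^2*a^4*sg^3 + 4*x^2*a^2*sg^2 + 4*x*a*M*i*sg^2 + a^2*sg^2)*fB +
    (2*r^2*x^2*a^2*sg^3 - 2*r^2*a^2*sg^3 + 3*r^2*sg^2 - 4*r*x^3*a^3*i*sg^3 + 4*r*x*a^3*i*sg^3 +
    10*r*x*a*i*sg^2 - 3*x^4*a^4*i^2*sg^3 + 3*x^4*a^4*sg^3 + 3*x^2*a^4*i^2*sg^3 - 3*x^2*a^4*sg^3 +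
    2*x^2*a^2*sg^2 + 2*x*a*M*i*sg^2 - a^2*sg^2)*f) * hg

theorem teu4_aux' (f : A) :
    (K.tp (K.th f + (4 * K.N * K.ee + K.rh - 2 * K.c K.rh) * f) -
      (2 * K.rh2 + 3 * K.c K.rh2) * (K.th f + (4 * K.N * K.ee + K.rh - 2 * K.c K.rh) * f)) -
      (K.ep (K.et f + (3 * K.ta - 2 * K.c K.ta2) * f) - (2 * K.ta2 + K.c K.ta) *
        (K.et f + (3 * K.ta - 2 * K.c K.ta2) * f)) - 3 * K.P2 * f =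
      -(K.sg * K.Ps (-2) f) + K.E1 (K.H f + 2 * f) + K.u4 * (K.H f + 2 * f) +
        K.E2 (K.B f - 2 * f) + K.v4 * (K.B f - 2 * f) := by
  simp only [Ps, F2, E1, E2, u0, v0, u4, v4, th, tp, et, ep, rh, rh2, ta, ta2, P2, z, zb, ee, De,
    W, V_ap, D_add, D_sub, D_mul, D_neg, D_num, D_zero, D_ii, map_mul, map_add, map_sub, map_neg,
    map_zero, map_ofNat, h.tab, h.R_T, h.P_T, h.Q_T, h.H_T, h.B_T, h.P_R, h.Q_R, h.H_R, h.B_R,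
    h.P_Q, h.H_P, h.H_Q, h.B_P, h.B_Q, h.B_H]
  have hi := ii_sq (A := A)
  have hs := h.hs
  have hN := h.hN
  have hg := h.hg
  generalize K.T (K.T f) = fTT, K.T (K.R f) = fTR, K.T (K.P f) = fTP, K.T (K.Q f) = fTQ, K.R (K.R
    f) = fRR, K.R (K.P f) = fRP, K.R (K.Q f) = fRQ, K.P (K.P f) = fPP, K.Q (K.P f) = fQP, K.Q (K.Q
    f) = fQQ, K.T (K.H f) = fTH, K.R (K.H f) = fRH, K.P (K.H f) = fPH, K.Q (K.H f) = fQH, K.H (K.H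
    f) = fHH, K.H (K.B f) = fHB, K.T (K.B f) = fTB, K.R (K.B f) = fRB, K.P (K.B f) = fPB, K.Q (K.B
    f) = fQB, K.B (K.B f) = fBB
  generalize K.T f = fT, K.R f = fR, K.P f = fP, K.Q f = fQ, K.H f = fH, K.B f = fB
  generalize K.r = r, K.x = x, K.a = a, K.M = M, ii A = i, K.s = s, K.sb = sb, K.N = N, K.Ni = Ni,
    K.sg = sg at hi hs hN hg ⊢
  linear_combination ((r^2*a^2*s*sb*sg^2 - x^4*a^4*sg^2 - x^2*a^4*i^2*s*sb*sg^2 +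
    x^2*a^4*sg^2)*fTT + (x^2*a^3*i*s*sg^2)*fTP + (-x^2*a^3*i*sb*sg^2)*fTQ + (x^2*a^2*sg^2)*fQP +
    (r^3*a^2*s*sb*sg^3 - r*x^4*a^4*sg^3 - r*x^2*a^4*i^2*s*sb*sg^3 + r*x^2*a^4*sg^3 +
    x^3*a^5*i*s*sb*sg^3)*fTH + (-x^3*a^4*s*sg^3 + x*a^2*s*N*Ni*sg^2)*fPH + (-r*x^2*a^3*i*sb*sg^3 -
    x*a^2*sb*N*Ni*sg^2)*fQH + (r*x^3*a^5*i*s*sb*sg^4 - x^2*a^2*N*Ni*sg^2)*fHH + (r^4*a^2*s*sb*sg^4 -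
    r^2*x^2*a^4*i^2*s*sb*sg^4 + x^6*a^6*sg^4 + x^4*a^6*s*sb*sg^4 - x^4*a^6*sg^4 - x^4*a^4*sg^3 +
    x^2*a^4*sg^3 + 2*x^2*a^2*N*Ni*sg^2)*fHB + (r^3*a^2*s*sb*sg^3 - r*x^4*a^4*sg^3 -
    r*x^2*a^4*i^2*s*sb*sg^3 + r*x^2*a^4*sg^3 - x^3*a^5*i*s*sb*sg^3)*fTB + (r*x^2*a^3*i*s*sg^3 -
    x*a^2*s*N*Ni*sg^2)*fPB + (-x^3*a^4*sb*sg^3 + x*a^2*sb*N*Ni*sg^2)*fQB + (-r*x^3*a^5*i*s*sb*sg^4 -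
    x^2*a^2*N*Ni*sg^2)*fBB + (-3*r^3*a^2*s*sb*sg^3 + 3*r*x^4*a^4*sg^3 + 3*r*x^2*a^4*i^2*s*sb*sg^3 -
    3*r*x^2*a^4*sg^3 - 3*r*a^2*s*sb*sg^2 + 3*x^3*a^5*i*s*sb*sg^3 + 2*x^3*a^3*i*sg^2 -
    5*x*a^3*i*s*sb*sg^2)*fT + (-2*r^2*x*a^2*s*sg^3 - 2*r*x^2*a^3*i*s*sg^3 + 2*x^3*a^4*i^2*s*sg^3 -
    2*x^3*a^4*s*sg^3 + x*a^2*s*N*Ni*sg^2 + 3*x*a^2*s*sg^2)*fP + (-2*r^2*x*a^2*sb*sg^3 +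
    r*x^2*a^3*i*sb*sg^3 + 2*x^3*a^4*i^2*sb*sg^3 + x^3*a^4*sb*sg^3 - x*a^2*sb*N*Ni*sg^2 -
    2*x*a^2*sb*sg^2)*fQ + (-2*r^4*a^2*s*sb*sg^4 + 2*r^3*x*a^3*i*s*sb*sg^4 +
    2*r^2*x^2*a^4*i^2*s*sb*sg^4 + 2*r^2*x^2*a^4*s*sb*sg^4 - 3*r^2*x^2*a^2*N*Ni*sg^3 -
    3*r^2*a^2*s*sb*sg^3 - 2*r*x^5*a^5*i*sg^4 - 2*r*x^3*a^5*i^3*s*sb*sg^4 - r*x^3*a^5*i*s*sb*sg^4 +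
    2*r*x^3*a^5*i*sg^4 + 6*r*x^2*a^2*M*N*Ni*sg^3 - 3*r*x*a^3*i*s*sb*sg^3 - 4*x^6*a^6*sg^4 -
    2*x^4*a^6*i^2*s*sb*sg^4 - 5*x^4*a^6*s*sb*sg^4 + 4*x^4*a^6*sg^4 + 3*x^2*a^4*s*sb*sg^3 -
    3*x^2*a^4*N*Ni*sg^3 - 2*x^2*a^4*sg^3 - x^2*a^2*N*Ni*sg^2 + x^2*a^2*sg^2)*fH +
    (-r^4*a^2*s*sb*sg^4 - 2*r^3*x*a^3*i*s*sb*sg^4 + r^2*x^2*a^4*i^2*s*sb*sg^4 +
    2*r^2*x^2*a^4*s*sb*sg^4 + 3*r^2*x^2*a^2*N*Ni*sg^3 + 2*r*x^5*a^5*i*sg^4 +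
    2*r*x^3*a^5*i^3*s*sb*sg^4 + 7*r*x^3*a^5*i*s*sb*sg^4 - 2*r*x^3*a^5*i*sg^4 + 2*r*x^3*a^3*i*sg^3 -
    6*r*x^2*a^2*M*N*Ni*sg^3 - 2*r*x*a^3*i*s*sb*sg^3 - 3*x^6*a^6*sg^4 - 2*x^4*a^6*i^2*s*sb*sg^4 +
    3*x^4*a^6*sg^4 + x^4*a^4*sg^3 - 3*x^2*a^4*s*sb*sg^3 + 3*x^2*a^4*N*Ni*sg^3 - x^2*a^4*sg^3 +
    x^2*a^2*N*Ni*sg^2 - x^2*a^2*sg^2)*fB + (2*r^4*a^2*s*sb*sg^4 + 2*r^3*x*a^3*i*s*sb*sg^4 -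
    6*r^2*x^2*a^4*i^2*s*sb*sg^4 - 10*r^2*x^2*a^4*s*sb*sg^4 - 3*r^2*x^2*a^2*N*Ni*sg^3 -
    4*r^2*x^2*a^2*sg^3 + 5*r^2*a^2*s*sb*sg^3 - 2*r*x^5*a^5*i*sg^4 - 2*r*x^3*a^5*i^3*s*sb*sg^4 -
    10*r*x^3*a^5*i*s*sb*sg^4 + 2*r*x^3*a^5*i*sg^4 - 4*r*x^3*a^3*i*sg^3 + 6*r*x^2*a^2*M*N*Ni*sg^3 +
    18*r*x^2*a^2*M*sg^3 + 13*r*x*a^3*i*s*sb*sg^3 + 4*x^6*a^6*i^2*sg^4 + 12*x^6*a^6*sg^4 +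
    4*x^4*a^6*i^4*s*sb*sg^4 + 10*x^4*a^6*i^2*s*sb*sg^4 - 4*x^4*a^6*i^2*sg^4 - 12*x^4*a^6*sg^4 +
    4*x^4*a^4*i^2*sg^3 - 10*x^4*a^4*sg^3 + 6*x^3*a^3*M*i*sg^3 + 9*x^2*a^4*s*sb*sg^3 -
    3*x^2*a^4*N*Ni*sg^3 + 6*x^2*a^4*sg^3 + 6*x^2*a^2*sg^2 - 3*a^2*s*sb*sg^2)*f) * hi +
    ((-r^2*a^2*sg^2 + x^2*a^4*i^2*sg^2 + a^2*sg)*fTT + (-r^3*a^2*sg^3 - r^2*x*a^3*i*sg^3 +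
    r*x^2*a^4*i^2*sg^3 - x^3*a^5*i*sg^3)*fTH + (-r^3*x*a^3*i*sg^4 - r*x^3*a^5*i*sg^4)*fHH +
    (-r^4*a^2*sg^4 + r^2*x^2*a^4*i^2*sg^4 - r^2*x^2*a^4*sg^4 - x^4*a^6*sg^4)*fHB + (-r^3*a^2*sg^3 +
    r^2*x*a^3*i*sg^3 + r*x^2*a^4*i^2*sg^3 + x^3*a^5*i*sg^3)*fTB + (r^3*x*a^3*i*sg^4 +
    r*x^3*a^5*i*sg^4)*fBB + (3*r^3*a^2*sg^3 - 3*r^2*x*a^3*i*sg^3 - 3*r*x^2*a^4*i^2*sg^3 +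
    3*r*a^2*sg^2 - 3*x^3*a^5*i*sg^3 + 5*x*a^3*i*sg^2)*fT + (2*r^4*a^2*sg^4 - r^3*x*a^3*i*sg^4 -
    2*r^2*x^2*a^4*i^2*sg^4 + 3*r^2*x^2*a^4*sg^4 + 2*r^2*a^2*sg^3 + 2*r*x^3*a^5*i^3*sg^4 +
    r*x^3*a^5*i*sg^4 + 3*r*x*a^3*i*sg^3 + 2*x^4*a^6*i^2*sg^4 + 5*x^4*a^6*sg^4 - 3*x^2*a^4*sg^3)*fH +
    (r^4*a^2*sg^4 - 5*r^3*x*a^3*i*sg^4 - r^2*x^2*a^4*i^2*sg^4 - 2*r^2*x^2*a^4*sg^4 -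
    2*r*x^3*a^5*i^3*sg^4 - 7*r*x^3*a^5*i*sg^4 - r*x*a^3*i*sg^3 + 2*x^4*a^6*i^2*sg^4 +
    3*x^2*a^4*sg^3)*fB + (-2*r^4*a^2*sg^4 + 8*r^3*x*a^3*i*sg^4 + 6*r^2*x^2*a^4*i^2*sg^4 +
    10*r^2*x^2*a^4*sg^4 - 5*r^2*a^2*sg^3 + 2*r*x^3*a^5*i^3*sg^4 + 10*r*x^3*a^5*i*sg^4 -
    4*r*x*a^3*i*sg^3 - 4*x^4*a^6*i^4*sg^4 - 10*x^4*a^6*i^2*sg^4 - 9*x^2*a^4*sg^3 + 3*a^2*sg^2)*f) *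
    hs + ((-2*r^2*sg - 2*a^2*sg)*fTR + (-r^2*sg + 2*r*M*sg - a^2*sg)*fRR + (-a*i*s*sg)*fRP +
    (a*i*sb*sg)*fRQ + (2*r^2*x*a*i*sg^2 + 2*x*a^3*i*sg^2)*fTH + (-r^3*sg^2 + r^2*x*a*i*sg^2 +
    2*r^2*M*sg^2 - 2*r*x*a*M*i*sg^2 - r*a^2*sg^2 + r*sg + x*a^3*i*sg^2 + x*a*i*sg - M*sg)*fRH +
    (-x*a^2*s*sg^2)*fPH + (x*a^2*sb*sg^2)*fQH + (r^3*x*a*i*sg^3 - 2*r^2*x*a*M*i*sg^3 +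
    r*x*a^3*i*sg^3 - r*x*a*i*sg^2 + x^2*a^2*sg^2 + x*a*M*i*sg^2)*fHH + (-2*x^2*a^2*sg^2)*fHB +
    (-2*r^2*x*a*i*sg^2 - 2*x*a^3*i*sg^2)*fTB + (-r^3*sg^2 - r^2*x*a*i*sg^2 + 2*r^2*M*sg^2 +
    2*r*x*a*M*i*sg^2 - r*a^2*sg^2 + r*sg - x*a^3*i*sg^2 - x*a*i*sg - M*sg)*fRB + (x*a^2*s*sg^2)*fPB
    + (-x*a^2*sb*sg^2)*fQB + (-r^3*x*a*i*sg^3 + 2*r^2*x*a*M*i*sg^3 - r*x*a^3*i*sg^3 + r*x*a*i*sg^2 +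
    x^2*a^2*sg^2 - x*a*M*i*sg^2)*fBB + (-6*r^3*sg^2 + 2*r^2*x*a*i*sg^2 - 6*r*a^2*sg^2 - 4*r*sg +
    2*x*a^3*i*sg^2)*fT + (4*r^2*x*a*i*sg^2 - 8*r*x*a*M*i*sg^2 - 6*r*sg + 4*x*a^3*i*sg^2 + 6*M*sg)*fR
    + (-3*r*a*i*s*sg^2 - x*a^2*s*sg^2)*fP + (3*r*a*i*sb*sg^2 + x*a^2*sb*sg^2)*fQ + (-r^4*sg^3 -
    2*r^3*x*a*i*sg^3 + 2*r^3*M*sg^3 + 3*r^2*x^2*a^2*sg^3 + 4*r^2*x*a*M*i*sg^3 - r^2*a^2*sg^3 -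
    6*r*x^2*a^2*M*sg^3 - 2*r*x*a^3*i*sg^3 + 6*r*x*a*i*sg^2 + r*M*sg^2 + 3*x^2*a^4*sg^3 +
    x^2*a^2*sg^2 - 3*x*a*M*i*sg^2 - a^2*sg^2 + sg)*fH + (-r^4*sg^3 + 4*r^3*x*a*i*sg^3 + 2*r^3*M*sg^3
    - 3*r^2*x^2*a^2*sg^3 - 8*r^2*x*a*M*i*sg^3 - r^2*a^2*sg^3 + 6*r*x^2*a^2*M*sg^3 + 4*r*x*a^3*i*sg^3
    - 8*r*x*a*i*sg^2 + r*M*sg^2 - 3*x^2*a^4*sg^3 - x^2*a^2*sg^2 + 5*x*a*M*i*sg^2 - a^2*sg^2 + sg)*fB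
    + (3*r^4*sg^3 - 6*r^3*M*sg^3 + 3*r^2*x^2*a^2*sg^3 + 3*r^2*a^2*sg^3 - 3*r^2*sg^2 -
    6*r*x^2*a^2*M*sg^3 + 10*r*x*a*i*sg^2 + 3*x^2*a^4*sg^3 - 10*x*a*M*i*sg^2 + 3*a^2*sg^2 - 4*sg)*f)
    * hN + ((x^2*a^2*sg - a^2*sg)*fTT + (-a*i*s*sg)*fTP + (a*i*sb*sg)*fTQ + (-sg)*fQP +
    (r*x^2*a^2*sg^2 - r*a^2*sg^2 + x^3*a^3*i*sg^2 - x*a^3*i*sg^2 + 2*x*a*i*sg)*fTH + (-r*sg +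
    x*a*i*sg + 2*M*sg)*fRH + (x*a^2*s*sg^2)*fPH + (r*a*i*sb*sg^2)*fQH + (r*x^3*a^3*i*sg^3 -
    r*x*a^3*i*sg^3 + r*x*a*i*sg^2 - 2*x*a*M*i*sg^2)*fHH + (r^2*x^2*a^2*sg^3 - r^2*a^2*sg^3 -
    x^4*a^4*i^2*sg^3 + x^2*a^4*i^2*sg^3 + x^2*a^2*sg^2 - a^2*sg^2)*fHB + (r*x^2*a^2*sg^2 -
    r*a^2*sg^2 - x^3*a^3*i*sg^2 + x*a^3*i*sg^2 - 2*x*a*i*sg)*fTB + (-r*sg - x*a*i*sg + 2*M*sg)*fRB +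
    (-r*a*i*s*sg^2)*fPB + (x*a^2*sb*sg^2)*fQB + (-r*x^3*a^3*i*sg^3 + r*x*a^3*i*sg^3 - r*x*a*i*sg^2 +
    2*x*a*M*i*sg^2)*fBB + (-3*r*x^2*a^2*sg^2 + 3*r*a^2*sg^2 - 6*r*sg + 3*x^3*a^3*i*sg^2 -
    3*x*a^3*i*sg^2)*fT + (4*x*a*i*sg)*fR + (2*r*a*i*s*sg^2 + 2*x*a^2*s*sg^2)*fP + (-r*a*i*sb*sg^2 -
    x*a^2*sb*sg^2)*fQ + (-2*r^2*x^2*a^2*sg^3 + 2*r^2*a^2*sg^3 - r^2*sg^2 + r*x^3*a^3*i*sg^3 -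
    r*x*a^3*i*sg^3 - 2*r*x*a*i*sg^2 + 2*r*M*sg^2 + 2*x^4*a^4*i^2*sg^3 - x^4*a^4*sg^3 -
    2*x^2*a^4*i^2*sg^3 + x^2*a^4*sg^3 + 2*x^2*a^2*sg^2 + 4*x*a*M*i*sg^2 + 3*a^2*sg^2 - 2*sg)*fH +
    (-r^2*x^2*a^2*sg^3 + r^2*a^2*sg^3 - r^2*sg^2 + 5*r*x^3*a^3*i*sg^3 - 5*r*x*a^3*i*sg^3 +
    2*r*x*a*i*sg^2 + 2*r*M*sg^2 + x^4*a^4*i^2*sg^3 + 3*x^4*a^4*sg^3 - x^2*a^4*i^2*sg^3 -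
    3*x^2*a^4*sg^3 - 3*x^2*a^2*sg^2 - 8*x*a*M*i*sg^2)*fB + (2*r^2*x^2*a^2*sg^3 - 2*r^2*a^2*sg^3 +
    3*r^2*sg^2 - 8*r*x^3*a^3*i*sg^3 + 8*r*x*a^3*i*sg^3 + 4*r*x*a*i*sg^2 - 6*x^4*a^4*i^2*sg^3 -
    12*x^4*a^4*sg^3 + 6*x^2*a^4*i^2*sg^3 + 12*x^2*a^4*sg^3 + 11*x^2*a^2*sg^2 + 18*x*a*M*i*sg^2 -
    4*a^2*sg^2)*f) * hg

theorem sg_eq : K.sg = K.z * K.c K.z := by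
  rw [h.c_z, z, zb]
  linear_combination -K.sg * h.hg + K.sg * K.sg * K.a * K.a * K.x * K.x * ii_sq (A := A)

theorem teu0_all (f : A) : teu K.kerr (K.w0 * f) =
    K.w0 * (-(K.sg * K.Ps 2 f) + K.E1 (K.H f - 2 * f) + K.u0 * (K.H f - 2 * f) +
      K.E2 (K.B f + 2 * f) + K.v0 * (K.B f + 2 * f)) := by
  have key : ∀ (D : Der A) (a b c : A), D K.N = a * K.N → D K.z = b * K.z →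
      D (K.c K.z) = c * K.c K.z → D K.w0 = (2 * a + 2 * b + 2 * c) * K.w0 :=
    fun D a b c h1 h2 h3 => by
      rw [w0, h.sg_eq]
      simp only [D_mul, h1, h2, h3]
      ring
  have k1 : K.th (K.c K.z) = K.c K.rh * K.c K.z := by rw [← h.c_th, h.th_z, map_mul]
  have k2 : K.tp (K.c K.z) = K.c K.rh2 * K.c K.z := by rw [← h.c_tp, h.tp_z, map_mul]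
  have k3 : K.et (K.c K.z) = K.c K.ta2 * K.c K.z := by rw [← h.c_ep, h.ep_z, map_mul]
  have k4 : K.ep (K.c K.z) = K.c K.ta * K.c K.z := by rw [← h.c_et, h.et_z, map_mul]
  rw [teu_conj K.kerr f (key K.th _ _ _ h.th_N h.th_z k1)
    (key K.tp 0 _ _ (by rw [h.tp_N, zero_mul]) h.tp_z k2) (key K.et _ _ _ h.et_N h.et_z k3)
    (key K.ep _ _ _ h.ep_N h.ep_z k4)]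
  have e1 : 2 * 0 + 2 * K.rh2 + 2 * K.c K.rh2 - K.rh2 = K.rh2 + 2 * K.c K.rh2 := by ring
  have e2 : 2 * -K.c K.ta + 2 * K.ta2 + 2 * K.c K.ta - K.ta2 = K.ta2 := by ring
  simp only [kerr, e1, e2]
  linear_combination K.w0 * h.teu0_aux f

theorem teu4_all (f : A) : teu K.kerr.pr (K.w4 * f) =
    K.w4 * (-(K.sg * K.Ps (-2) f) + K.E1 (K.H f + 2 * f) + K.u4 * (K.H f + 2 * f) +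
      K.E2 (K.B f - 2 * f) + K.v4 * (K.B f - 2 * f)) := by
  have key : ∀ (D : Der A) (a b c : A), D K.Ni = a * K.Ni → D K.z = b * K.z →
      D (K.r + ii A * K.a * K.x) = -c * (K.r + ii A * K.a * K.x) →
      D K.w4 = (2 * a + 2 * b - 2 * c) * K.w4 := fun D a b c h1 h2 h3 => by
    rw [w4]
    generalize K.r + ii A * K.a * K.x = e at h3 ⊢
    simp only [D_mul, h1, h2, h3]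
    ring
  rw [teu_conj K.kerr.pr f (key K.tp 0 _ _ (by rw [h.tp_Ni, zero_mul]) h.tp_z h.tp_zeb)
    (key K.th _ _ _ h.th_Ni h.th_z h.th_zeb) (key K.ep _ _ _ h.ep_Ni h.ep_z h.ep_zeb)
    (key K.et _ _ _ h.et_Ni h.et_z h.et_zeb)]
  have e1 : 2 * (2 * K.N * K.ee) + 2 * K.rh - 2 * K.c K.rh - K.rh =
    4 * K.N * K.ee + K.rh - 2 * K.c K.rh := by ring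
  have e2 : 2 * K.ta + 2 * K.ta - 2 * K.c K.ta2 - K.ta = 3 * K.ta - 2 * K.c K.ta2 := by ring
  simp only [kerr, GHP.pr, e1, e2]
  linear_combination K.w4 * h.teu4_aux' f

end Is
end KC
end Vale.Agent.P354XR
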