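import Vale.Agent.P354XR.Su
import Vale.Agent.P354XR.Teu2
import Vale.Agent.P354XF.FamG

/-!
The frame of Kerr against the letters T, R, Om 0, Om 1, Om 2, and the ring of the functions of
Kerr.
-/

set_option linter.unusedSimpArgs false

namespace Vale.Agent.P354XR

open Vale.Agent.P354XG Vale.Agent.P354XG.Geo Vale.Agent.P354XD Vale.Agent.P354XF

variable {A : Type*} [CommRing A] [Algebra ℂ A]

namespace KC

/-- The frame of Kerr in the basis T R P Q H B. -/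
noncomputable def ye (K : KC A) : Fin 6 → Fin 6 → A :=
  ![![2 * K.N * K.sg * K.W, K.N * K.sg * K.De, ii A * K.a * K.N * K.sg * K.s,
      -(ii A * K.a * K.N * K.sg * K.sb), -(K.N * (K.ee + ii A * K.a * K.x * K.sg)),
      -(K.N * (K.ee - ii A * K.a * K.x * K.sg))],
    ![0, -K.Ni, 0, 0, ii A * K.a * K.x * K.sg * K.Ni, -(ii A * K.a * K.x * K.sg * K.Ni)],
    ![ii A * K.a * K.s * K.zb, 0, 0, K.zb, -(K.a * K.a * K.x * K.sg * K.s * K.zb),
      ii A * K.a * K.r * K.sg * K.s * K.zb],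
    ![-(ii A * K.a * K.sb * K.z), 0, K.z, 0, -(ii A * K.a * K.r * K.sg * K.sb * K.z),
      -(K.a * K.a * K.x * K.sg * K.sb * K.z)],
    ![0, 0, 0, 0, 1, 0], ![0, 0, 0, 0, 0, 1]]

/-- The basis T R P Q H B in the frame of Kerr. -/
noncomputable def xe (K : KC A) : Fin 6 → Fin 6 → A :=
  ![K.cK 0, ![0, -K.N, 0, 0, ii A * K.a * K.x * K.sg, -(ii A * K.a * K.x * K.sg)],
    fun b => ii A * K.a * K.sb * K.cK 0 b + ![0, 0, 0, K.r - ii A * K.a * K.x,
      ii A * K.a * K.r * K.sg * K.sb, K.a * K.a * K.x * K.sg * K.sb] b,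
    fun b => -(ii A * K.a * K.s) * K.cK 0 b + ![0, 0, K.r + ii A * K.a * K.x, 0,
      K.a * K.a * K.x * K.sg * K.s, -(ii A * K.a * K.r * K.sg * K.s)] b,
    ![0, 0, 0, 0, 1, 0], ![0, 0, 0, 0, 0, 1]]

/-- The basis. -/
def bs (K : KC A) : Fin 6 → P354XG.Der A := ![K.T, K.R, K.P, K.Q, K.H, K.B]

/-- The generators lie in S. -/
def In (K : KC A) (S : Subalgebra ℂ A) : Prop := K.r ∈ S ∧ K.x ∈ S ∧ K.s ∈ S ∧ K.sb ∈ S ∧
  K.N ∈ S ∧ K.Ni ∈ S ∧ K.sg ∈ S ∧ K.a ∈ S ∧ K.M ∈ S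

/-- The factors, their inverses, the spin. -/
noncomputable def Ws (K : KC A) (σ : Bool) : A := cond σ K.w0 K.w4
noncomputable def Wi (K : KC A) (σ : Bool) : A :=
  cond σ (K.Ni * K.Ni * (K.r * K.r + K.a * K.a * K.x * K.x) * (K.r * K.r + K.a * K.a * K.x * K.x))
    (K.N * K.N * K.zb * K.zb * (K.r - ii A * K.a * K.x) * (K.r - ii A * K.a * K.x))

variable {K : KC A} {S : Subalgebra ℂ A}

theorem fr_ye (K : KC A) (b : Fin 6) (f : A) : fr K.kerr b f = ∑ e, K.ye b e * K.bs e f := by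
  fin_cases b <;> simp [fr, kerr, th, tp, et, ep, V_ap, ye, bs, Fin.sum_univ_six]

theorem V_bs (K : KC A) (e1 e2 e3 e4 e5 e6 f : A) :
    K.V e1 e2 e3 e4 e5 e6 f = ∑ e, ![e1, e2, e3, e4, e5, e6] e * K.bs e f := by
  simp [V_ap, bs, Fin.sum_univ_six]

theorem Is.zb_ze (h : K.Is) : K.zb * (K.r + ii A * K.a * K.x) = 1 := by
  rw [zb]
  linear_combination h.hg - K.sg * K.a * K.a * K.x * K.x * ii_sq (A := A)

theorem Is.bs_xe (h : K.Is) (e : Fin 6) (f : A) : K.bs e f = ∑ b, K.xe e b * fr K.kerr b f := by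
  have t : ∑ b, K.cK 0 b * fr K.kerr b f = K.T f := h.cK_eq 0 f
  fin_cases e <;>
    simp only [xe, bs, Fin.reduceFinMk, Matrix.cons_val, add_mul, Finset.sum_add_distrib, mul_assoc,
      ← Finset.mul_sum, t] <;>
    simp [Fin.sum_univ_six, fr, kerr, tp, et, ep, V_ap]
  · linear_combination (-K.R f + ii A * K.a * K.x * K.sg * (K.H f - K.B f)) * h.hN
  · linear_combination (ii A * K.a * K.sb * K.T f - K.P f + ii A * K.a * K.r * K.sg * K.sb * K.H f +
      K.a * K.a * K.x * K.sg * K.sb * K.B f) * h.z_ze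
  · linear_combination (-(ii A * K.a * K.s * K.T f) - K.Q f + K.a * K.a * K.x * K.sg * K.s * K.H f -
      ii A * K.a * K.r * K.sg * K.s * K.B f) * h.zb_ze

theorem In.all (m : K.In S) : ii A ∈ S ∧ hf A ∈ S ∧ (2 : A) ∈ S ∧ K.z ∈ S ∧ K.zb ∈ S ∧ K.De ∈ S ∧
    K.W ∈ S ∧ K.ee ∈ S := by
  obtain ⟨_, _, _, _, _, _, _, _, _⟩ := m
  have : ii A ∈ S := S.algebraMap_mem _
  have : (2 : A) ∈ S := ofNat_mem _ 2
  refine ⟨‹_›, S.algebraMap_mem _, ‹_›, ?_, ?_, ?_, ?_, ?_⟩ <;> simp only [z, zb, De, W, ee] <;>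
    repeat' first | assumption | apply add_mem | apply sub_mem | apply mul_mem

theorem In.ye (m : K.In S) (b e : Fin 6) : K.ye b e ∈ S := by
  obtain ⟨_, _, _, _, _, _, _, _⟩ := m.all
  obtain ⟨_, _, _, _, _, _, _, _, _⟩ := m
  fin_cases b <;> fin_cases e <;> simp only [KC.ye, Fin.reduceFinMk, Matrix.cons_val] <;>
    repeat' first
      | assumption | exact zero_mem _ | exact one_mem _
      | apply neg_mem | apply add_mem | apply sub_mem | apply mul_mem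

theorem In.cK (m : K.In S) (k : Fin 2) (b : Fin 6) : K.cK k b ∈ S := by
  obtain ⟨_, _, _, _, _, _, _, _⟩ := m.all
  obtain ⟨_, _, _, _, _, _, _, _, _⟩ := m
  fin_cases k <;> fin_cases b <;> simp only [KC.cK, Fin.reduceFinMk, Matrix.cons_val] <;>
    repeat' first
      | assumption | apply neg_mem | apply add_mem | apply sub_mem | apply mul_mem

theorem In.xe (m : K.In S) (e b : Fin 6) : K.xe e b ∈ S := by
  have := m.cK 0 b
  obtain ⟨_, _, _, _, _, _, _, _⟩ := m.all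
  obtain ⟨_, _, _, _, _, _, _, _, _⟩ := m
  fin_cases e <;> fin_cases b <;> simp only [KC.xe, Fin.reduceFinMk, Matrix.cons_val] at this ⊢ <;>
    repeat' first
      | assumption | exact zero_mem _ | exact one_mem _
      | apply neg_mem | apply add_mem | apply sub_mem | apply mul_mem

theorem In.Ws (m : K.In S) (σ : Bool) : K.Ws σ ∈ S ∧ K.Wi σ ∈ S := by
  obtain ⟨_, _, _, _, _, _, _, _⟩ := m.all
  obtain ⟨_, _, _, _, _, _, _, _, _⟩ := m
  cases σ <;> simp only [KC.Ws, KC.Wi, w0, w4, cond] <;> constructor <;>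
    repeat' first | assumption | apply add_mem | apply sub_mem | apply mul_mem

/-- Fields with components in S. -/
def Vf (K : KC A) (S : Subalgebra ℂ A) (D : A → A) : Prop :=
  ∃ e : Fin 6 → A, (∀ b, e b ∈ S) ∧ ∀ f, D f = ∑ b, e b * fr K.kerr b f

theorem Is.vf (h : K.Is) (m : K.In S) {c : Fin 6 → A} (hc : ∀ e, c e ∈ S) :
    K.Vf S fun f => ∑ e, c e * K.bs e f :=
  ⟨fun b => ∑ e, c e * K.xe e b, fun b => sum_mem fun e _ => mul_mem (hc e) (m.xe e b), fun f => by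
    simp only [h.bs_xe, Finset.mul_sum, Finset.sum_mul, mul_assoc]
    exact Finset.sum_comm⟩

theorem Is.vf_V (h : K.Is) (m : K.In S) {e1 e2 e3 e4 e5 e6 : A} (h1 : e1 ∈ S) (h2 : e2 ∈ S)
    (h3 : e3 ∈ S) (h4 : e4 ∈ S) (h5 : e5 ∈ S) (h6 : e6 ∈ S) : K.Vf S (K.V e1 e2 e3 e4 e5 e6) := by
  rw [show (K.V e1 e2 e3 e4 e5 e6 : A → A) = _ from funext (K.V_bs _ _ _ _ _ _)]
  refine h.vf m fun e => ?_
  fin_cases e
  exacts [h1, h2, h3, h4, h5, h6]

theorem Is.vf_E (h : K.Is) (m : K.In S) : K.Vf S K.E1 ∧ K.Vf S K.E2 := by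
  obtain ⟨_, -, _, -⟩ := m.all
  obtain ⟨_, _, _, _, _, _, _, _, _⟩ := id m
  constructor <;> refine h.vf_V m ?_ ?_ ?_ ?_ ?_ ?_ <;>
    with_reducible repeat' first
      | assumption | exact zero_mem _
      | apply add_mem | apply sub_mem | apply mul_mem | apply pow_mem | apply neg_mem

theorem In.uv (m : K.In S) : K.u0 ∈ S ∧ K.v0 ∈ S ∧ K.u4 ∈ S ∧ K.v4 ∈ S := by
  have n : ∀ (k : ℕ) [k.AtLeastTwo], (ofNat(k) : A) ∈ S := fun k _ => ofNat_mem _ k
  have := n 3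
  have := n 4
  have := n 6
  have := n 8
  have := n 12
  obtain ⟨_, -, _, -⟩ := m.all
  obtain ⟨_, _, _, _, _, _, _, _, _⟩ := m
  refine ⟨?_, ?_, ?_, ?_⟩ <;> simp only [u0, v0, u4, v4] <;>
    with_reducible repeat' first
      | assumption
      | apply add_mem | apply sub_mem | apply mul_mem | apply pow_mem | apply neg_mem

theorem Is.Ws_Wi (h : K.Is) (σ : Bool) : K.Ws σ * K.Wi σ = 1 := by
  cases σ <;> simp only [Ws, Wi, w0, w4, cond]
  · have e : (K.N * K.Ni * (K.z * (K.r - ii A * K.a * K.x)) *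
        (K.zb * (K.r + ii A * K.a * K.x))) ^ 2 = 1 := by rw [h.hN, h.z_ze, h.zb_ze]; ring
    linear_combination e
  · have e : (K.N * K.Ni * (K.sg * (K.r * K.r + K.a * K.a * K.x * K.x))) ^ 2 = 1 := by
      rw [h.hN, h.hg]; ring
    linear_combination e

theorem Is.st_Ws (h : K.Is) (σ : Bool) : K.St (K.Ws σ) ∧ K.St (K.Wi σ) := by
  have i : K.St (ii A) := St.alg _
  have := h.st_a
  have := h.st_r
  have := h.st_x
  have := h.st_N
  have := h.st_Ni
  have := h.st_sg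
  have := h.st_z
  have := h.st_zb
  cases σ <;> simp only [Ws, Wi, w0, w4, cond] <;> constructor <;>
    repeat' first | assumption | apply St.mul | apply St.add | apply St.sub

theorem Is.span (h : K.Is) (hF : K.Free) : Op.Span (fr K.kerr) := fun c hc b => by
  ext m
  have := h.indep hF (u1 := (c 0).coeff m) (u2 := (c 1).coeff m) (u3 := (c 2).coeff m)
    (u4 := (c 3).coeff m) (u5 := (c 4).coeff m) (u6 := (c 5).coeff m) fun f => by
      have := congrArg (MvPolynomial.coeff m) (hc f)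
      simp only [Fin.sum_univ_six, MvPolynomial.coeff_add, MvPolynomial.coeff_C_mul] at this
      simpa [fr, kerr, mul_comm] using this
  fin_cases b
  exacts [this.1, this.2.1, this.2.2.1, this.2.2.2.1, this.2.2.2.2.1, this.2.2.2.2.2]

theorem Is.indep6 (h : K.Is) (hF : K.Free) {u : Fin 6 → A}
    (e : ∀ f, ∑ b, u b * fr K.kerr b f = 0) (b : Fin 6) : u b = 0 := by
  have := h.indep hF fun f => (Fin.sum_univ_six _).symm.trans (e f)
  fin_cases b
  exacts [this.1, this.2.1, this.2.2.1, this.2.2.2.1, this.2.2.2.2.1, this.2.2.2.2.2]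

end KC

/-- The spin as an element of the ring, and the Teukolsky operators. -/
def sA (A : Type*) [CommRing A] (σ : Bool) : A := cond σ 2 (-2)
def tks (T : Tv A) (σ : Bool) (f : A) : A := cond σ (T.tk0 f) (T.tk4 f)

theorem D_sA (D : P354XG.Der A) (σ : Bool) : D (sA A σ) = 0 := by
  cases σ <;> simp only [sA, cond, D_neg, D_num, neg_zero]

namespace KC
variable {K : KC A} {Mi : A}

theorem Is.H_Ws (h : K.Is) (σ : Bool) : K.H (K.Ws σ) = sA A σ * K.Ws σ ∧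
    K.B (K.Ws σ) = sA A σ * K.Ws σ ∧ K.H (K.Wi σ) = -(sA A σ * K.Wi σ) ∧
    K.B (K.Wi σ) = -(sA A σ * K.Wi σ) := by
  cases σ <;> simp only [Ws, Wi, w0, w4, z, zb, sA, cond, D_mul, D_add, D_sub, D_ii, h.tab] <;>
    refine ⟨?_, ?_, ?_, ?_⟩ <;> ring

theorem tk_teu (h : K.Is) (hM : K.M * Mi = 1) (f : A) :
    (tv h hM).tk0 f = teu K.kerr f ∧ (tv h hM).tk4 f = teu K.kerr.pr f := by
  simp only [Tv.tk0, Tv.tk4, tv, teu, GHP.pr, kerr, D_sub, D_mul]
  exact ⟨by linear_combination -f * h.q6, by linear_combination -f * h.r6⟩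

theorem kil_tks (h : K.Is) (hM : K.M * Mi = 1) (σ : Bool) (k : Fin 2) (f : A) :
    K.kil k (tks (tv h hM) σ f) = tks (tv h hM) σ (K.kil k f) := by
  have e0 : ∀ f, K.kil k (K.th f) = K.th (K.kil k f) := h.kil_fr k 0
  have e1 : ∀ f, K.kil k (K.tp f) = K.tp (K.kil k f) := h.kil_fr k 1
  have e2 : ∀ f, K.kil k (K.et f) = K.et (K.kil k f) := h.kil_fr k 2
  have e3 : ∀ f, K.kil k (K.ep f) = K.ep (K.kil k f) := h.kil_fr k 3
  cases σ <;>
    simp only [tks, cond, Tv.tk0, Tv.tk4, tv, kerr, D_sub, D_add, D_mul, D_num, e0, e1, e2, e3,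
      h.st_rh.kil k, h.st_rh2.kil k, h.st_ta.kil k, h.st_ta2.kil k, h.st_P2.kil k,
      (h.st_c h.st_rh).kil k, (h.st_c h.st_rh2).kil k, (h.st_c h.st_ta).kil k,
      (h.st_c h.st_ta2).kil k] <;> ring

theorem tks_Ps (h : K.Is) (hM : K.M * Mi = 1) (σ : Bool) (f : A) :
    tks (tv h hM) σ (K.Ws σ * f) = K.Ws σ * (-(K.sg * K.Ps (sA A σ) f) +
      K.E1 (K.H f - sA A σ * f) + cond σ K.u0 K.u4 * (K.H f - sA A σ * f) +
      K.E2 (K.B f + sA A σ * f) + cond σ K.v0 K.v4 * (K.B f + sA A σ * f)) := by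
  cases σ <;> simp only [tks, cond, Ws, sA, tk_teu h hM]
  · rw [h.teu4_all, neg_mul, sub_neg_eq_add, ← sub_eq_add_neg]
  · exact h.teu0_all f

end KC
end Vale.Agent.P354XR
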