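import Vale.Agent.P354XR.Br

/-!
The five letters on the chart (t, r, xi1, xi2), the functions of Kerr, and the operator PP.
-/

set_option linter.unusedSimpArgs false

namespace Vale.Agent.P354XR

open Vale.Agent.P354XG Vale.Agent.P354XG.Geo Vale.Agent.P354XD Vale.Agent.P354XF

variable {A : Type*} [CommRing A] [Algebra ℂ A]

/-- The index set of the functions of Kerr. -/
abbrev KI : Type := Fin 10 ⊕ Fin 3 × Fin 3

section defs
variable (K : Hp A) (p : Pm A) (Mi : A)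

/-- The functions of Kerr. -/
noncomputable def kf : KI → A :=
  Sum.elim ![(kk K p).r, (kk K p).x, (kk K p).s, (kk K p).sb, (kk K p).N, (kk K p).Ni, (kk K p).sg,
    (kk K p).a, (kk K p).M, Mi] fun q => ![ww K, wm K, wb K] q.1 q.2

/-- The ring which they generate. -/
noncomputable def SS : Subalgebra ℂ A := Algebra.adjoin ℂ (Set.range (kf K p Mi))

/-- The letters. -/
noncomputable def XX : Fin 5 → P354XG.Der A := ![(kk K p).T, (kk K p).R, Om K 0, Om K 1, Om K 2]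

/-- The rotations in the basis T R P Q H B. -/
noncomputable def oe (j : Fin 3) : Fin 6 → A := ![0, 0, -(hf A * ii A * wm K j),
  hf A * ii A * wb K j, -(hf A * ii A * ww K j), hf A * ii A * ww K j]

/-- The letters in the frame of Kerr. -/
noncomputable def xc (a : Fin 5) (b : Fin 6) : A :=
  ∑ e, ![![1, 0, 0, 0, 0, 0], ![0, 1, 0, 0, 0, 0], oe K 0, oe K 1, oe K 2] a e * (kk K p).xe e b

/-- The frame of Kerr in the letters and H, B. -/
noncomputable def yc (b : Fin 6) : Fin 5 → A :=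
  ![(kk K p).ye b 0, (kk K p).ye b 1,
    ii A * ((kk K p).ye b 2 * wb K 0 - (kk K p).ye b 3 * wm K 0),
    ii A * ((kk K p).ye b 2 * wb K 1 - (kk K p).ye b 3 * wm K 1),
    ii A * ((kk K p).ye b 2 * wb K 2 - (kk K p).ye b 3 * wm K 2)]
noncomputable def yh (b : Fin 6) : A := (kk K p).ye b 4
noncomputable def yb (b : Fin 6) : A := (kk K p).ye b 5

/-- The operator P s k in the letters. -/
noncomputable def PP (s k u : A) : A :=
  (kk K p).De * XX K p 1 (XX K p 1 u) + (1 - s) * (2 * K.z 1 - 2 * p.M) * XX K p 1 u +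
    2 * ((K.z 1 * K.z 1 + p.a * p.a) * XX K p 0 (XX K p 1 u) + p.a * XX K p 4 (XX K p 1 u)) +
    2 * (1 - 2 * s) * K.z 1 * XX K p 0 u + (s * s - s) * u + ∑ i, Om K i (Om K i u) +
    p.a * p.a * (1 - ww K 2 * ww K 2) * XX K p 0 (XX K p 0 u) +
    2 * p.a * XX K p 0 (XX K p 4 u) - 2 * k * p.a * ii A * ww K 2 * XX K p 0 u

end defs

/-- The hypotheses on the chart and the parameters. -/
structure KP (K : Hp A) (p : Pm A) (Mi : A) : Prop where
  h : K.Is
  q : p.Is K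
  j : p.j1 = 0
  M : p.M * Mi = 1

variable {K : Hp A} {p : Pm A} {Mi : A}

theorem kf_mem (i : KI) : kf K p Mi i ∈ SS K p Mi := Algebra.subset_adjoin ⟨i, rfl⟩

theorem in_SS : (kk K p).In (SS K p Mi) :=
  ⟨kf_mem (.inl 0), kf_mem (.inl 1), kf_mem (.inl 2), kf_mem (.inl 3), kf_mem (.inl 4),
    kf_mem (.inl 5), kf_mem (.inl 6), kf_mem (.inl 7), kf_mem (.inl 8)⟩

theorem w_SS (j : Fin 3) : ww K j ∈ SS K p Mi ∧ wm K j ∈ SS K p Mi ∧ wb K j ∈ SS K p Mi :=
  ⟨kf_mem (.inr (0, j)), kf_mem (.inr (1, j)), kf_mem (.inr (2, j))⟩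

theorem Mi_SS : Mi ∈ SS K p Mi := kf_mem (.inl 9)

theorem oe_SS (j : Fin 3) (e : Fin 6) : oe K j e ∈ SS K p Mi := by
  obtain ⟨_, _, -⟩ := (in_SS (K := K) (p := p) (Mi := Mi)).all
  obtain ⟨_, _, _⟩ := w_SS (K := K) (p := p) (Mi := Mi) j
  fin_cases e <;> simp only [oe, Fin.reduceFinMk, Matrix.cons_val] <;>
    with_reducible repeat' first | assumption | exact zero_mem _ | apply mul_mem | apply neg_mem

theorem xc_SS (a : Fin 5) (b : Fin 6) : xc K p a b ∈ SS K p Mi := by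
  refine sum_mem fun e _ => mul_mem ?_ (in_SS.xe e b)
  fin_cases a <;> simp only [Fin.reduceFinMk, Matrix.cons_val]
  · fin_cases e <;> simp [zero_mem, one_mem]
  · fin_cases e <;> simp [zero_mem, one_mem]
  all_goals exact oe_SS _ e

theorem yc_SS (b : Fin 6) (a : Fin 5) : yc K p b a ∈ SS K p Mi := by
  have i := (in_SS (K := K) (p := p) (Mi := Mi)).all.1
  have k : ∀ j, ii A * ((kk K p).ye b 2 * wb K j - (kk K p).ye b 3 * wm K j) ∈ SS K p Mi :=
    fun j => mul_mem i (sub_mem (mul_mem (in_SS.ye b 2) (w_SS j).2.2)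
      (mul_mem (in_SS.ye b 3) (w_SS j).2.1))
  fin_cases a
  exacts [in_SS.ye b 0, in_SS.ye b 1, k 0, k 1, k 2]

theorem yh_SS (b : Fin 6) : yh K p b ∈ SS K p Mi ∧ yb K p b ∈ SS K p Mi :=
  ⟨in_SS.ye b 4, in_SS.ye b 5⟩

namespace KP
variable (h : KP K p Mi)
include h

theorem is : (kk K p).Is := kk_is h.h h.q
theorem free : (kk K p).Free := kk_free h.h p
theorem span : Op.Span (fr (kk K p).kerr) := h.is.span h.free

/-- Kerr as a transverse structure. -/
noncomputable def tv : Tv A := KC.tv h.is (Mi := Mi) h.M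

theorem R_eq (f : A) : (kk K p).R f = K.d 1 f - p.h1 * K.d 0 f := by
  rw [kk_R, h.j, zero_mul, sub_zero]; rfl

theorem Om_bs (j : Fin 3) (f : A) : Om K j f = ∑ e, oe K j e * (kk K p).bs e f := by
  rw [Om_eq h.h]
  simp only [oe, KC.bs, Fin.sum_univ_six, Matrix.cons_val, kk, Hp.kc]
  ring

theorem XX_xc (a : Fin 5) (f : A) : XX K p a f = ∑ b, xc K p a b * fr (kk K p).kerr b f := by
  simp only [xc, Finset.sum_mul, mul_assoc]
  rw [Finset.sum_comm]
  simp only [← Finset.mul_sum, ← h.is.bs_xe]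
  fin_cases a <;> simp only [XX, Fin.reduceFinMk, Matrix.cons_val]
  · simp [Fin.sum_univ_six, KC.bs]
  · simp [Fin.sum_univ_six, KC.bs]
  all_goals exact h.Om_bs _ f

theorem fr_yc (b : Fin 6) (f : A) : fr (kk K p).kerr b f =
    ∑ a, yc K p b a * XX K p a f + yh K p b * K.H f + yb K p b * K.B f := by
  have e1 := P_Om h.h f
  have e2 := Q_Om h.h f
  rw [KC.fr_ye]
  simp only [Fin.sum_univ_six, Fin.sum_univ_five, Fin.sum_univ_three, yc, yh, yb, XX, KC.bs,
    Matrix.cons_val] at e1 e2 ⊢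
  change _ + _ + _ * K.P f + _ * K.Q f + _ * K.H f + _ * K.B f = _
  rw [e1, e2]
  ring

theorem c_ye (b e : Fin 6) :
    K.c ((kk K p).ye b e) = (kk K p).ye (bar b) (![0, 1, 3, 2, 5, 4] e) := by
  have k := h.is
  change (kk K p).c _ = _
  fin_cases b <;> fin_cases e <;>
    simp only [KC.ye, bar, KC.De, KC.W, KC.ee, k.tab, k.c_z, k.c_zb, map_ofNat, Fin.reduceFinMk,
      Matrix.cons_val, map_mul, map_add, map_sub, map_neg, map_zero, map_one] <;> ring

theorem c_yc (b : Fin 6) (a : Fin 5) : K.c (yc K p b a) = yc K p (bar b) a := by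
  fin_cases a <;>
    simp only [yc, Fin.reduceFinMk, Matrix.cons_val, map_mul, map_sub, h.c_ye, h.h.c_ii, wb, wm,
      h.h.c_mu, h.h.c_mub] <;> ring

theorem c_XX (a : Fin 5) (f : A) : K.c (XX K p a f) = XX K p a (K.c f) := by
  fin_cases a
  exacts [h.is.c_T f, h.is.c_R f, c_Om h.h 0 f, c_Om h.h 1 f, c_Om h.h 2 f]

theorem H_XX (a : Fin 5) (f : A) : K.H (XX K p a f) = XX K p a (K.H f) ∧
    K.B (XX K p a f) = XX K p a (K.B f) := by
  fin_cases a
  exacts [⟨h.is.H_T f, h.is.B_T f⟩, ⟨h.is.H_R f, h.is.B_R f⟩, (Om_comm h.h 0 f).2.2.2.2,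
    (Om_comm h.h 1 f).2.2.2.2, (Om_comm h.h 2 f).2.2.2.2]

theorem XX_kil (f : A) : XX K p 0 f = (kk K p).kil 0 f ∧ XX K p 4 f = (kk K p).kil 1 f := by
  refine ⟨rfl, ?_⟩
  change Om K 2 f = hf A * (kk K p).F2 f
  rw [kk_F2, F2_Om h.h]
  linear_combination -Om K 2 f * two_hf (A := A)

theorem F2_eq (f : A) : (kk K p).F2 f = 2 * XX K p 4 f := by
  rw [kk_F2, F2_Om h.h]; rfl

/-- The basis preserves the ring of the functions of Kerr. -/
theorem bs_kf (e : Fin 6) (i : KI) : (kk K p).bs e (kf K p Mi i) ∈ SS K p Mi := by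
  have k := h.is
  have m := in_SS (K := K) (p := p) (Mi := Mi)
  obtain ⟨-, -, _, -⟩ := m.all
  obtain ⟨_, _, _, _, _, _, _, _, _⟩ := m
  have hM : Mi * (kk K p).M = 1 := (mul_comm _ _).trans h.M
  rcases i with i | ⟨i, j⟩
  · fin_cases e <;> fin_cases i <;>
      simp only [kf, KC.bs, Sum.elim_inl, Fin.reduceFinMk, Matrix.cons_val, k.tab,
        KC.D_inv _ hM, mul_zero, neg_zero] <;>
      with_reducible repeat' first
        | assumption | exact zero_mem _ | exact one_mem _ | apply mul_mem | apply neg_mem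
  · obtain ⟨_, _, _⟩ := w_SS (K := K) (p := p) (Mi := Mi) j
    have e0 : ∀ f, (kk K p).T f = K.d 0 f := fun _ => rfl
    have e2 : ∀ f, (kk K p).P f = K.P f := fun _ => rfl
    have e3 : ∀ f, (kk K p).Q f = K.Q f := fun _ => rfl
    have e4 : ∀ f, (kk K p).H f = K.H f := fun _ => rfl
    have e5 : ∀ f, (kk K p).B f = K.B f := fun _ => rfl
    fin_cases e <;> fin_cases i <;>
      simp only [kf, KC.bs, Sum.elim_inr, Fin.reduceFinMk, Matrix.cons_val, e0, h.R_eq, e2, e3, e4,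
        e5, tw h.h j, mul_zero, sub_zero] <;>
      with_reducible repeat' first
        | assumption | exact zero_mem _ | apply mul_mem | apply neg_mem

theorem SY (b : Fin 6) (i : KI) : fr h.tv.G b (kf K p Mi i) ∈ SS K p Mi := by
  change fr (kk K p).kerr b _ ∈ _
  rw [KC.fr_ye]
  exact sum_mem fun e _ => mul_mem (in_SS.ye b e) (h.bs_kf e i)

theorem Sy (e : Fin 6) : h.tv.y e ∈ SS K p Mi ∧ h.tv.G.c (h.tv.y e) ∈ SS K p Mi := by
  have k := h.is
  have m := in_SS (K := K) (p := p) (Mi := Mi)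
  obtain ⟨_, -, _, _, _, _, -⟩ := m.all
  obtain ⟨_, _, _, _, _, _, _, _, _⟩ := m
  have cD : (kk K p).c (kk K p).De = (kk K p).De := by simp [KC.De, k.tab, map_ofNat]
  fin_cases e <;>
    simp only [tv, KC.tv, KC.kerr, Tv.y, Fin.reduceFinMk, Matrix.cons_val, KC.rh, KC.rh2, KC.ta,
      KC.ta2, map_neg, map_mul, map_zero, k.tab, k.c_z, cD] <;> constructor <;>
    with_reducible repeat' first | assumption | exact zero_mem _ | apply mul_mem | apply neg_mem

theorem S2 : h.tv.G.P2 ∈ SS K p Mi ∧ h.tv.G.c h.tv.G.P2 ∈ SS K p Mi := by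
  have k := h.is
  have m := in_SS (K := K) (p := p) (Mi := Mi)
  obtain ⟨_, -, _, _, _, _, -⟩ := m.all
  obtain ⟨_, _, _, _, _, _, _, _, _⟩ := m
  simp only [tv, KC.tv, KC.kerr, KC.P2, map_neg, map_mul, map_ofNat, k.tab, k.c_z]
  constructor <;> with_reducible repeat' first | assumption | apply mul_mem | apply neg_mem

theorem SPi : h.tv.Pi ∈ SS K p Mi := by
  have m := in_SS (K := K) (p := p) (Mi := Mi)
  exact neg_mem (mul_mem (mul_mem (Subalgebra.algebraMap_mem _ _) Mi_SS) (pow_mem (sub_mem m.1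
    (mul_mem (mul_mem m.all.1 m.2.2.2.2.2.2.2.1) m.2.1)) 3))

/-- The operator PP against the operator Pk. -/
theorem PP_Pk {k : A} (hk : K.H k = 0 ∧ K.B k = 0) (s f : A) :
    PP K p s k f = (kk K p).Pk s k f - (Sp K (Sp K f - k * f) + (k - 1) * (Sp K f - k * f)) := by
  have e := Cas_eq h.h f
  have e1 : Sp K (Sp K f - k * f) = Sp K (Sp K f) - k * Sp K f := by
    simp only [Sp, D_sub, D_mul, hk.1, hk.2]; ring
  have hs : (kk K p).s * (kk K p).sb = 1 - ww K 2 * ww K 2 := h.is.hs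
  rw [e1, PP, KC.Pk, h.F2_eq, h.F2_eq, D_mul, D_num, mul_assoc ((kk K p).a * (kk K p).a), hs]
  simp only [Cas] at e
  simp only [XX, Matrix.cons_val, KC.W]
  change _ = _ * _ + _ * (2 * K.z 1 - 2 * p.M) * _ + 2 * (K.z 1 * K.z 1 + p.a * p.a) * _ + p.a * _ +
    2 * K.z 1 * _ * _ + _ + K.Q (K.P f) + p.a * p.a * _ * _ + p.a * _ -
    2 * k * ii A * p.a * ww K 2 * _ - _
  linear_combination -e

theorem PP_sec {k f : A} (hk : K.H k = 0 ∧ K.B k = 0) (h1 : K.H f = k * f) (h2 : K.B f = -(k * f))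
    (s : A) : PP K p s k f = (kk K p).Pk s k f := by
  have : Sp K f - k * f = 0 := by
    rw [Sp, h1, h2]; linear_combination k * f * two_hf (A := A)
  rw [h.PP_Pk hk, this]
  simp [Sp]

/-- The Teukolsky operators of Kerr in the letters, for all functions. -/
theorem tks_PP (σ : Bool) : ∃ e1 e2 : Fin 6 → A, ∃ u v : A, (∀ b, e1 b ∈ SS K p Mi) ∧
    (∀ b, e2 b ∈ SS K p Mi) ∧ u ∈ SS K p Mi ∧ v ∈ SS K p Mi ∧ ∀ f,
    tks h.tv σ ((kk K p).Ws σ * f) = (kk K p).Ws σ * (-(p.sg * PP K p (sA A σ) (sA A σ) f) +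
      (∑ b, e1 b * fr (kk K p).kerr b (K.H f - sA A σ * f) + u * (K.H f - sA A σ * f)) +
      (∑ b, e2 b * fr (kk K p).kerr b (K.B f + sA A σ * f) + v * (K.B f + sA A σ * f))) := by
  have m := in_SS (K := K) (p := p) (Mi := Mi)
  obtain ⟨⟨e1, a1, b1⟩, e2, a2, b2⟩ := h.is.vf_E m
  have t := m.all.2.1
  have g : p.sg ∈ SS K p Mi := m.2.2.2.2.2.2.1
  have c := mul_mem g (mul_mem t t)
  obtain ⟨e3, a3, b3⟩ := h.is.vf_V m (zero_mem _) (zero_mem _) (zero_mem _) (zero_mem _) c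
    (neg_mem c)
  have s : sA A σ ∈ SS K p Mi := by
    cases σ
    exacts [neg_mem m.all.2.2.1, m.all.2.2.1]
  have d := mul_mem (mul_mem g t) (sub_mem s (one_mem _))
  obtain ⟨u1, u2, u3, u4⟩ := m.uv
  refine ⟨e1 - e3, e2 + e3, cond σ (kk K p).u0 (kk K p).u4 - p.sg * hf A * (sA A σ - 1),
    cond σ (kk K p).v0 (kk K p).v4 + p.sg * hf A * (sA A σ - 1), fun b => sub_mem (a1 b) (a3 b),
    fun b => add_mem (a2 b) (a3 b), sub_mem (by cases σ <;> assumption) d,
    add_mem (by cases σ <;> assumption) d, fun f => ?_⟩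
  have e : Sp K f - sA A σ * f = hf A * ((K.H f - sA A σ * f) - (K.B f + sA A σ * f)) := by
    rw [Sp]; linear_combination sA A σ * f * two_hf (A := A)
  refine (KC.tks_Ps h.is (Mi := Mi) h.M σ f).trans ?_
  rw [h.PP_Pk ⟨D_sA _ _, D_sA _ _⟩, KC.Pk_self, e]
  simp only [Pi.sub_apply, Pi.add_apply, sub_mul, add_mul, Finset.sum_sub_distrib,
    Finset.sum_add_distrib, ← b1, ← b2, ← b3, KC.V_ap]
  change _ * (-(p.sg * _) + (kk K p).E1 (K.H f - _) + _ * (K.H f - _) + (kk K p).E2 (K.B f + _) +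
    _ * (K.B f + _)) = _
  have e4 : ∀ f, (kk K p).H f = K.H f := fun _ => rfl
  have e5 : ∀ f, (kk K p).B f = K.B f := fun _ => rfl
  rw [e4, e4, e5, e5]
  generalize K.H f - sA A σ * f = x, K.B f + sA A σ * f = y
  simp only [Sp, D_mul, D_sub, Hp.D_hf]
  ring

/-- T and the axial field commute with the Teukolsky operators and kill the factors. -/
theorem Y_tks (σ : Bool) {a : Fin 5} (ha : a = 0 ∨ a = 4) (f : A) :
    XX K p a (tks h.tv σ f) = tks h.tv σ (XX K p a f) ∧ XX K p a ((kk K p).Ws σ) = 0 ∧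
      XX K p a ((kk K p).Wi σ) = 0 := by
  rcases ha with rfl | rfl
  · simp only [(h.XX_kil _).1]
    exact ⟨KC.kil_tks _ _ σ 0 f, (h.is.st_Ws σ).1.kil 0, (h.is.st_Ws σ).2.kil 0⟩
  · simp only [(h.XX_kil _).2]
    exact ⟨KC.kil_tks _ _ σ 1 f, (h.is.st_Ws σ).1.kil 1, (h.is.st_Ws σ).2.kil 1⟩

theorem X_Sp (a : Fin 5) (f : A) : XX K p a (Sp K f) = Sp K (XX K p a f) := by
  simp only [Sp, D_mul, D_sub, Hp.D_hf, h.H_XX]; ring

/-- The commutators of PP with R, T and the axial field, for constant s and k. -/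
theorem R_PP {s k : A} (hs : ∀ D : P354XG.Der A, D s = 0) (hk : ∀ D : P354XG.Der A, D k = 0)
    (f : A) : XX K p 1 (PP K p s k f) =
      PP K p (s - 1) k (XX K p 1 f) + 2 * (1 - 2 * s) * XX K p 0 f := by
  have e : XX K p 1 ((kk K p).Pk s k f) =
      (kk K p).Pk (s - 1) k (XX K p 1 f) + 2 * (1 - 2 * s) * XX K p 0 f :=
    h.is.R_Pk (hs _) (hk _) f
  simp only [h.PP_Pk ⟨hk _, hk _⟩, D_sub, D_add, D_mul, D_one, e, h.X_Sp, hk]
  ring

theorem Y_PP {s k : A} (hs : ∀ D : P354XG.Der A, D s = 0) (hk : ∀ D : P354XG.Der A, D k = 0)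
    {a : Fin 5} (ha : a = 0 ∨ a = 4) (f : A) :
    XX K p a (PP K p s k f) = PP K p s k (XX K p a f) := by
  have e : XX K p a ((kk K p).Pk s k f) = (kk K p).Pk s k (XX K p a f) := by
    rcases ha with rfl | rfl
    · exact h.is.T_Pk (hs _) (hk _) f
    · have e1 := h.is.F2_Pk (hs _) (hk _) f
      have e2 : ∀ g, (kk K p).Pk s k (2 * g) = 2 * (kk K p).Pk s k g := fun g => by
        simp only [KC.Pk, D_mul, D_num, mul_zero, add_zero]; ring
      rw [h.F2_eq, h.F2_eq, e2] at e1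
      linear_combination hf A * e1 -
        (XX K p 4 ((kk K p).Pk s k f) - (kk K p).Pk s k (XX K p 4 f)) * two_hf (A := A)
  simp only [h.PP_Pk ⟨hk _, hk _⟩, D_sub, D_add, D_mul, D_one, e, h.X_Sp, hk]
  ring

omit h in
theorem PP_shift (s j k f : A) : PP K p (s - j) k f = PP K p s k f +
    j * (2 * K.z 1 - 2 * p.M) * XX K p 1 f + 4 * j * K.z 1 * XX K p 0 f +
    (j * j - 2 * s * j + j) * f := by
  simp only [PP]; ring

/-- The change of frame is real and does not touch the vertical fields. -/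
theorem sg_real {G : GHP A} (hG : ∀ b f, fr G b (K.c f) = K.c (fr G (bar b) f))
    {sg : Fin 6 → Fin 6 → A}
    (e : ∀ b f, fr G b f = fr (kk K p).kerr b f + ∑ e, sg b e * fr (kk K p).kerr e f)
    (b d : Fin 6) : K.c (sg b d) = sg (bar b) (bar d) := by
  have k : ∀ b f, fr (kk K p).kerr b (K.c f) = K.c (fr (kk K p).kerr (bar b) f) := h.tv.fr_c
  have bb : ∀ b, bar (bar b) = b := by decide
  have := h.is.indep6 h.free (u := fun d => K.c (sg b (bar d)) - sg (bar b) d) (fun f => by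
    have e1 := hG b f
    rw [e, e, k, map_add, add_right_inj, map_sum] at e1
    have e2 := congrArg K.c e1
    simp only [map_sum, map_mul, k, h.h.cc] at e2
    simp only [sub_mul, Finset.sum_sub_distrib, ← e2]
    simp [Fin.sum_univ_six, bar]
    ring) (bar d)
  rwa [bb, sub_eq_zero] at this

end KP
end Vale.Agent.P354XR
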