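import Vale.Agent.P354XR.Br2
import Vale.Agent.P354XF.Brg

/-!
A transverse solution on the chart of Kerr, and products of such data.
-/

set_option linter.unusedSimpArgs false

namespace Vale.Agent.P354XR

open Vale.Agent.P354XG Vale.Agent.P354XG.Geo Vale.Agent.P354XD Vale.Agent.P354XF

/-- The data. -/
structure Raw (A : Type*) [CommRing A] [Algebra ℂ A] where
  K : Hp A
  p : Pm A
  Mi : A
  T : Tv A
  sg : Fin 6 → Fin 6 → A
  ta : Fin 6 → Fin 6 → A
  kp : KP K p Mi
  c : T.G.c = K.c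
  H : T.G.H = K.H
  B : T.G.Hb = K.B
  ZY : ∀ b f, fr T.G b f = fr (kk K p).kerr b f + ∑ e, sg b e * fr (kk K p).kerr e f
  YZ : ∀ b f, fr (kk K p).kerr b f = fr T.G b f + ∑ e, ta b e * fr T.G e f

section
variable {A : Type*} [CommRing A] [Algebra ℂ A]

theorem PP_eq (K : Hp A) (p : Pm A) (s k : ℂ) (u : A) :
    P354XF.PP (XX K p) (K.z 1) p.M p.a (ww K 2) s k u =
      PP K p (algebraMap ℂ A s) (algebraMap ℂ A k) u := by
  simp only [P354XF.PP, PL, PP, List.map, List.sum_cons, List.sum_nil, wd, Fin.sum_univ_three,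
    map_sub, map_mul, map_one, map_ofNat, map_pow, KC.De, ii]
  change _ = (K.z 1 * K.z 1 - 2 * p.M * K.z 1 + p.a * p.a) * _ + _ + _ + _ + _ +
    (XX K p 2 (XX K p 2 u) + XX K p 3 (XX K p 3 u) + XX K p 4 (XX K p 4 u)) + _ + _ - _
  ring

theorem sA_eq (σ : Bool) : algebraMap ℂ A (spn σ) = sA A σ := by
  cases σ <;> simp [spn, sA, map_ofNat]

theorem val_prod {ι : Type} (C : Cmp A ι) (x : Gn) :
    (C.T.prod C.K).val x = (C.T.val x, C.K.val x) := by
  have e : ∀ e, (C.T.prod C.K).y e = (C.T.y e, C.K.y e) := fun e => by fin_cases e <;> rfl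
  cases x with
  | p2 => rfl
  | pi => rfl
  | y e' => exact e e'
  | dy b e' =>
    change fr (prG C.T.G C.K.G) b _ = _
    rw [e, fr_prod]
    rfl
  | jet i w => exact (C.jet_prod i w).trans (by rw [Tv.val, Tv.val, C.sb_zero, wd_zero])

theorem gen_val {ι : Type} (C : Cmp A ι) (x : Bool × Gn) :
    (C.gen.x x).1 = C.T.gen.x x ∧ (C.gen.x x).2 = C.K.gen.x x := by
  obtain ⟨s, x⟩ := x
  have e := val_prod C x
  cases s
  · exact ⟨congrArg Prod.fst e, congrArg Prod.snd e⟩
  · exact ⟨congrArg (fun p : A × A => C.T.G.c p.1) e, congrArg (fun p : A × A => C.K.G.c p.2) e⟩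

namespace Raw
variable (R : Raw A)

/-- Kerr. -/
noncomputable abbrev k : KC A := kk R.K R.p

/-- The data of the bridge. -/
noncomputable def brg : Brg A KI where
  T := R.T
  K := R.kp.tv
  kf := kf R.K R.p R.Mi
  sg := R.sg
  ta := R.ta
  K0 := rfl
  K4 := rfl
  SY := R.kp.SY
  Sy := R.kp.Sy
  S2 := R.kp.S2
  ZY := R.ZY
  YZ := R.YZ
  X := XX R.K R.p
  cX := xc R.K R.p
  yX := yc R.K R.p
  vX e v := cond v (yb R.K R.p e) (yh R.K R.p e)
  w := R.k.Ws
  wi := R.k.Wi
  sm := R.p.sg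
  smi := R.k.r * R.k.r + R.k.a * R.k.a * R.k.x * R.k.x
  r := R.K.z 1
  M := R.p.M
  a := R.p.a
  x := ww R.K 2
  e σ v := cond v (R.kp.tks_PP σ).choose_spec.choose (R.kp.tks_PP σ).choose
  u σ v := cond v (R.kp.tks_PP σ).choose_spec.choose_spec.choose_spec.choose
    (R.kp.tks_PP σ).choose_spec.choose_spec.choose

theorem brg_Y (v : Bool) : R.brg.Y (vt v) = cond v R.K.B R.K.H := by cases v <;> rfl

theorem brg_P (s k : ℂ) (u : A) :
    R.brg.P s k u = PP R.K R.p (algebraMap ℂ A s) (algebraMap ℂ A k) u := PP_eq _ _ _ _ _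

theorem brg_is : R.brg.Is := by
  have h := R.kp
  have m := in_SS (K := R.K) (p := R.p) (Mi := R.Mi)
  have t := fun σ => (R.kp.tks_PP σ).choose_spec.choose_spec.choose_spec.choose_spec
  obtain ⟨m1, m2, -, -, -, -, m7, m8, m9⟩ := id m
  refine
    { span := h.span, vert := fun v => ?_, cX := xc_SS, yX := yc_SS, vX := fun e v => ?_
      w := fun σ => (m.Ws σ).1, wi := fun σ => (m.Ws σ).2, sm := m7
      smi := add_mem (mul_mem m1 m1) (mul_mem (mul_mem (mul_mem m8 m8) m2) m2)
      r := m1, M := m9, a := m8, x := m2, e := fun σ v c => ?_, u := fun σ v => ?_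
      XY := h.XX_xc, YX := fun e f => ?_, VX := fun v a f => ?_, ww := h.is.Ws_Wi, ss := h.is.hg
      Vw := fun σ v => ?_, teu := fun σ f => ?_, RP := fun s k f => ?_
      YP := fun c hc s k f => ?_ }
  · cases v
    exacts [R.H, R.B]
  · cases v
    exacts [(yh_SS e).1, (yh_SS e).2]
  · cases v
    exacts [(t σ).1 c, (t σ).2.1 c]
  · cases v
    exacts [(t σ).2.2.1, (t σ).2.2.2.1]
  · refine (h.fr_yc e f).trans ?_
    rw [Fintype.sum_bool, add_comm (R.brg.vX e true * _), ← add_assoc]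
    rfl
  · cases v
    exacts [(h.H_XX a f).1, (h.H_XX a f).2]
  · rw [neg_smul, Algebra.smul_def, sA_eq]
    cases v
    exacts [(h.is.H_Ws σ).2.2.1, (h.is.H_Ws σ).2.2.2]
  · refine ((t σ).2.2.2.2 f).trans ?_
    rw [brg_P, sA_eq, Fintype.sum_bool, add_comm (_ + R.brg.u σ true * _), add_assoc]
    simp only [wgt, cond, neg_smul, sub_neg_eq_add, Algebra.smul_def, sA_eq, map_neg, neg_mul]
    rfl
  · simp only [brg_P, map_sub, map_mul, map_one, map_ofNat]
    exact h.R_PP (fun D => D_alg D s) (fun D => D_alg D k) f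
  · simp only [brg_P]
    exact h.Y_PP (fun D => D_alg D s) (fun D => D_alg D k) hc f

theorem c_sg (b d : Fin 6) : R.K.c (R.sg b d) = R.sg (bar b) (bar d) :=
  R.kp.sg_real (fun b f => R.c ▸ R.T.fr_c b f) R.ZY b d

theorem c_zX (b : Fin 6) (a : Fin 5) : R.K.c (R.brg.zX b a) = R.brg.zX (bar b) a := by
  simp only [Brg.zX, brg, map_add, map_mul, R.c_sg, R.kp.c_yc, Fin.sum_univ_six]
  simp only [bar, Matrix.cons_val]
  ring

/-- The perturbation is real. -/
theorem c_del (a a' : Fin 5) : R.K.c (R.brg.del a a') = R.brg.del a a' := by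
  have e1 : R.K.c R.brg.smi = R.brg.smi := by
    have k := R.kp.is
    change R.k.c (R.k.r * R.k.r + R.k.a * R.k.a * R.k.x * R.k.x) = _
    simp only [map_add, map_mul, k.c_r, k.c_a, k.c_x]
    rfl
  have e2 : ∀ b a, R.K.c (R.brg.yX b a) = R.brg.yX (bar b) a := R.kp.c_yc
  have e3 : R.K.c (algebraMap ℂ A (1 / 2)) = algebraMap ℂ A (1 / 2) := R.kp.h.c_hf
  simp only [Brg.del, Brg.E, map_neg, map_mul, map_add, map_sub, e1, e2, e3, R.c_zX]
  simp only [bar, Matrix.cons_val]
  ring

end Raw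
end

section pi
variable {J : Type*} {A : J → Type*} [∀ j, CommRing (A j)] [∀ j, Algebra ℂ (A j)]

/-- Products of derivations and of conjugations. -/
def piD (D : ∀ j, P354XG.Der (A j)) : P354XG.Der (∀ j, A j) :=
  Derivation.mk' (LinearMap.pi fun j => (D j : A j →ₗ[ℂ] A j) ∘ₗ LinearMap.proj j) fun f g =>
    funext fun j => (D j).leibniz (f j) (g j)

def piC (c : ∀ j, A j →+* A j) : (∀ j, A j) →+* ∀ j, A j :=
  RingHom.pi fun j => (c j).comp (Pi.evalRingHom A j)

theorem piD_ap (D : ∀ j, P354XG.Der (A j)) (f : ∀ j, A j) (j : J) : piD D f j = D j (f j) := rfl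
omit [∀ j, Algebra ℂ (A j)] in
theorem piC_ap (c : ∀ j, A j →+* A j) (f : ∀ j, A j) (j : J) : piC c f j = c j (f j) := rfl

/-- The product of GHP structures. -/
def piG (G : ∀ j, GHP (A j)) : GHP (∀ j, A j) where
  c := piC fun j => (G j).c
  th := piD fun j => (G j).th
  tp := piD fun j => (G j).tp
  et := piD fun j => (G j).et
  ep := piD fun j => (G j).ep
  H := piD fun j => (G j).H
  Hb := piD fun j => (G j).Hb
  ka j := (G j).ka
  si j := (G j).si
  rh j := (G j).rh
  ta j := (G j).ta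
  ka' j := (G j).ka'
  si' j := (G j).si'
  rh' j := (G j).rh'
  ta' j := (G j).ta'
  P0 j := (G j).P0
  P1 j := (G j).P1
  P2 j := (G j).P2
  P3 j := (G j).P3
  P4 j := (G j).P4

theorem piG_half {G : ∀ j, GHP (A j)} (h : ∀ j, (G j).Half) : (piG G).Half where
  cc f := funext fun j => (h j).cc (f j)
  calg z := funext fun j => (h j).calg z
  c_th f := funext fun j => (h j).c_th (f j)
  c_et f := funext fun j => (h j).c_et (f j)
  c_H f := funext fun j => (h j).c_H (f j)
  H_Hb f := funext fun j => (h j).H_Hb (f j)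
  H_th f := funext fun j => (h j).H_th (f j)
  H_et f := funext fun j => (h j).H_et (f j)
  H_ka := funext fun j => (h j).H_ka
  Hb_ka := funext fun j => (h j).Hb_ka
  H_si := funext fun j => (h j).H_si
  Hb_si := funext fun j => (h j).Hb_si
  H_rh := funext fun j => (h j).H_rh
  Hb_rh := funext fun j => (h j).Hb_rh
  H_ta := funext fun j => (h j).H_ta
  Hb_ta := funext fun j => (h j).Hb_ta
  H_P0 := funext fun j => (h j).H_P0
  Hb_P0 := funext fun j => (h j).Hb_P0
  H_P1 := funext fun j => (h j).H_P1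
  Hb_P1 := funext fun j => (h j).Hb_P1
  H_P2 := funext fun j => (h j).H_P2
  Hb_P2 := funext fun j => (h j).Hb_P2
  th_tp f := funext fun j => (h j).th_tp (f j)
  th_et f := funext fun j => (h j).th_et (f j)
  et_ep f := funext fun j => (h j).et_ep (f j)
  r1 := funext fun j => (h j).r1
  r2 := funext fun j => (h j).r2
  r3 := funext fun j => (h j).r3
  r4 := funext fun j => (h j).r4
  r5 := funext fun j => (h j).r5
  r6 := funext fun j => (h j).r6
  b1 := funext fun j => (h j).b1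
  b2 := funext fun j => (h j).b2
  b3 := funext fun j => (h j).b3
  b4 := funext fun j => (h j).b4

/-- The products of transverse structures, of charts and of parameters. -/
def piT (T : ∀ j, Tv (A j)) : Tv (∀ j, A j) where
  G := piG fun j => (T j).G
  Pi j := (T j).Pi
  is := ⟨piG_half fun j => (T j).is.h, piG_half (G := fun j => (T j).G.pr) fun j => (T j).is.p⟩
  h1 := funext fun j => (T j).h1
  h3 := funext fun j => (T j).h3
  inv := funext fun j => (T j).inv

def piK (K : ∀ j, Hp (A j)) : Hp (∀ j, A j) where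
  c := piC fun j => (K j).c
  d i := piD fun j => (K j).d i
  z i j := (K j).z i
  ri j := (K j).ri
  Ni j := (K j).Ni

def piP (p : ∀ j, Pm (A j)) : Pm (∀ j, A j) where
  a j := (p j).a
  M j := (p j).M
  sg j := (p j).sg
  h1 j := (p j).h1
  j1 j := (p j).j1

theorem piK_is {K : ∀ j, Hp (A j)} (h : ∀ j, (K j).Is) : (piK K).Is where
  cc f := funext fun j => (h j).cc (f j)
  calg z := funext fun j => (h j).calg z
  c0 f := funext fun j => (h j).c0 (f j)
  c1 f := funext fun j => (h j).c1 (f j)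
  c2 f := funext fun j => (h j).c2 (f j)
  c3 f := funext fun j => (h j).c3 (f j)
  z0 := funext fun j => (h j).z0
  z1 := funext fun j => (h j).z1
  z2 := funext fun j => (h j).z2
  z3 := funext fun j => (h j).z3
  comm a b f := funext fun j => (h j).comm a b (f j)
  dz a b := funext fun j => ((h j).dz a b).trans (by split_ifs <;> rfl)
  hr := funext fun j => (h j).hr
  hN := funext fun j => (h j).hN

theorem piP_is {K : ∀ j, Hp (A j)} {p : ∀ j, Pm (A j)} (h : ∀ j, (p j).Is (K j)) :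
    (piP p).Is (piK K) where
  ca := funext fun j => (h j).ca
  cM := funext fun j => (h j).cM
  ch := funext fun j => (h j).ch
  cj := funext fun j => (h j).cj
  da i := funext fun j => (h j).da i
  dM i := funext fun j => (h j).dM i
  dh i e := funext fun j => (h j).dh i e
  dj i e := funext fun j => (h j).dj i e
  hg := funext fun j => (h j).hg

theorem fr_piG (G : ∀ j, GHP (A j)) (b : Fin 6) (f : ∀ j, A j) (j : J) :
    fr (piG G) b f j = fr (G j) b (f j) := by fin_cases b <;> rfl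

theorem bs_pi (K : ∀ j, Hp (A j)) (p : ∀ j, Pm (A j)) (e : Fin 6) (f : ∀ j, A j) (j : J) :
    (kk (piK K) (piP p)).bs e f j = (kk (K j) (p j)).bs e (f j) := by fin_cases e <;> rfl

theorem ye_pi (K : ∀ j, Hp (A j)) (p : ∀ j, Pm (A j)) (b e : Fin 6) (j : J) :
    (kk (piK K) (piP p)).ye b e j = (kk (K j) (p j)).ye b e := by
  fin_cases b <;> fin_cases e <;> rfl

theorem fr_pi (K : ∀ j, Hp (A j)) (p : ∀ j, Pm (A j)) (b : Fin 6) (f : ∀ j, A j) (j : J) :
    fr (kk (piK K) (piP p)).kerr b f j = fr (kk (K j) (p j)).kerr b (f j) := by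
  simp only [KC.fr_ye, Finset.sum_apply, Pi.mul_apply, bs_pi, ye_pi]

theorem XX_pi (K : ∀ j, Hp (A j)) (p : ∀ j, Pm (A j)) (a : Fin 5) (f : ∀ j, A j) (j : J) :
    XX (piK K) (piP p) a f j = XX (K j) (p j) a (f j) := by fin_cases a <;> rfl

/-- The product of the data. -/
noncomputable def Raw.pi (R : ∀ j, Raw (A j)) : Raw (∀ j, A j) where
  K := piK fun j => (R j).K
  p := piP fun j => (R j).p
  Mi j := (R j).Mi
  T := piT fun j => (R j).T
  sg b e j := (R j).sg b e
  ta b e j := (R j).ta b e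
  kp := ⟨piK_is fun j => (R j).kp.h, piP_is fun j => (R j).kp.q, funext fun j => (R j).kp.j,
    funext fun j => (R j).kp.M⟩
  c := congrArg piC (funext fun j => (R j).c)
  H := Derivation.ext fun f => funext fun j => DFunLike.congr_fun (R j).H (f j)
  B := Derivation.ext fun f => funext fun j => DFunLike.congr_fun (R j).B (f j)
  ZY b f := funext fun j => by
    simp only [piT, Pi.add_apply, Finset.sum_apply, Pi.mul_apply, fr_pi, fr_piG]
    exact (R j).ZY b (f j)
  YZ b f := funext fun j => by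
    simp only [piT, Pi.add_apply, Finset.sum_apply, Pi.mul_apply, fr_pi, fr_piG]
    exact (R j).YZ b (f j)

variable (R : ∀ j, Raw (A j)) (j : J)

theorem Raw.kf_pi (i : KI) : (Raw.pi R).brg.kf i j = (R j).brg.kf i := by
  rcases i with i | ⟨i, k⟩
  · fin_cases i <;> rfl
  · fin_cases i <;> fin_cases k <;> rfl

theorem Raw.wdT_pi (w : List (Fin 6)) (f : ∀ j, A j) :
    wd (fr (Raw.pi R).T.G) w f j = wd (fr (R j).T.G) w (f j) := by
  induction w with
  | nil => rfl
  | cons b w ih => exact (fr_piG _ b _ j).trans (congrArg _ ih)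

theorem Raw.wdY_pi (w : List (Fin 6)) (f : ∀ j, A j) :
    wd (Raw.pi R).brg.Y w f j = wd (R j).brg.Y w (f j) := by
  induction w with
  | nil => rfl
  | cons b w ih => exact (fr_pi _ _ b _ j).trans (congrArg _ ih)

theorem Raw.valT_pi (x : Gn) : (Raw.pi R).T.val x j = (R j).T.val x := by
  have e : ∀ e, (Raw.pi R).T.y e j = (R j).T.y e := fun e => by fin_cases e <;> rfl
  cases x with
  | p2 => rfl
  | pi => rfl
  | y e' => exact e e'
  | dy b e' => exact (fr_piG _ b _ j).trans (congrArg _ (e e'))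
  | jet i w => exact (Raw.wdT_pi R j w _).trans (congrArg _ (by fin_cases i <;> rfl))

theorem Raw.valK_pi (x : Gn) : (Raw.pi R).brg.K.val x j = (R j).brg.K.val x := by
  have e : ∀ e, (Raw.pi R).brg.K.y e j = (R j).brg.K.y e := fun e => by fin_cases e <;> rfl
  cases x with
  | p2 => rfl
  | pi => rfl
  | y e' => exact e e'
  | dy b e' => exact (fr_pi _ _ b _ j).trans (congrArg _ (e e'))
  | jet i w => exact (Raw.wdY_pi R j w _).trans (congrArg _ (by fin_cases i <;> rfl))

theorem Raw.gen_pi (x : Bool × Gn) :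
    ((Raw.pi R).brg.gen.x x).1 j = ((R j).brg.gen.x x).1 ∧
      ((Raw.pi R).brg.gen.x x).2 j = ((R j).brg.gen.x x).2 := by
  have e := gen_val (Raw.pi R).brg.toCmp x
  have e' := gen_val (R j).brg.toCmp x
  obtain ⟨s, x⟩ := x
  rw [e.1, e.2, e'.1, e'.2]
  cases s
  · exact ⟨Raw.valT_pi R j x, Raw.valK_pi R j x⟩
  · exact ⟨congrArg (R j).T.G.c (Raw.valT_pi R j x), congrArg (R j).K.c (Raw.valK_pi R j x)⟩

/-- The sizes at a point of one factor are sizes at a point of the product. -/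
theorem Raw.pt_pi {L N : ℕ} {K0 mu ds : ℝ} {al : ℕ → ℝ} {φ : A j →ₐ[ℂ] ℂ}
    (h : (R j).brg.U.Pt L N K0 mu ds al φ) :
    (Raw.pi R).brg.U.Pt L N K0 mu ds al (φ.comp (Pi.evalAlgHom ℂ A j)) where
  big x hx := by
    simp only [AlgHom.comp_apply, Pi.evalAlgHom_apply, Raw.gen_pi]
    exact h.big x hx
  small x hx := by
    simp only [AlgHom.comp_apply, Pi.evalAlgHom_apply, Raw.gen_pi]
    exact h.small x hx
  ref i := (congrArg (‖φ ·‖) (Raw.kf_pi R j i)).trans_le (h.ref i)
  jet b e w hw := ⟨(congrArg (‖φ ·‖) (Raw.wdY_pi R j w _)).trans_le (h.jet b e w hw).1,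
    (congrArg (‖φ ·‖) (Raw.wdY_pi R j w _)).trans_le (h.jet b e w hw).2⟩
  mono := h.mono
  pos := h.pos
  half := h.half
  one := h.one
  ds0 := h.ds0
  dsK := h.dsK

end pi
end Vale.Agent.P354XR
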