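import Vale.Agent.P354XR.Es3
import Vale.Agent.P354SI.Defs

/-!
The pointwise dictionary for the states of the hierarchy.
-/

namespace Vale.Agent.P354XR

open Vale.Agent.P354XG Vale.Agent.P354XD Vale.Agent.P354XF Vale.Agent.P354CV
open Vale.Agent.P354Z Vale.Agent.P354BO Vale.Agent.P354XI Vale.Agent.P354YH Filter
open Vale.Agent.P354SI

/-- The parameters are close to those of the reference solution. -/
theorem par_le {s : ℝ} (hs : 1 < s) (w : ℕ) : ∃ C, 0 ≤ C ∧ ∀ {c : P354Z.Cs} {E : Est} {ε : ℝ},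
    0 ≤ c.t1 → E.Near c → E.Dec c.L0 s ε → ε ≤ 1 → E.e0 ≤ ε → 0 ≤ c.C c.R1 →
    |c.bt c.R1 - c.t1| + c.c0 ≤ w → |E.M - c.M| + |E.a - c.a| ≤ c.C c.R1 * C * ε := by
  obtain ⟨A, hA, tA⟩ := tl_pt hs
  refine ⟨1 + 2 * (w + A), by positivity, fun {c E ε} h1 hN hD e1 e2 hC hw => ?_⟩
  have e0 := hN.e0.trans e2
  have T := hN.par _ (tail_of (j := 0) (dec_ini (by linarith) hD (abs_of_nonneg e0).le _ _)
    (fun i => mul_nonneg (sq_nonneg ε) (wt_pos _ _).le) (dec_sup h1 (by linarith) hD _)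
    (tA (by linarith) (sq_nonneg ε) (wt_dec ε s)) (by simpa using hw))
  rw [Nat.zero_sub, wt_zero] at T
  have a : ε ^ 2 ≤ ε := by nlinarith
  have b : (if 0 < w then w * ε ^ 2 else 0 : ℝ) ≤ w * ε := by
    split_ifs
    exacts [mul_le_mul_of_nonneg_left a (Nat.cast_nonneg w), by positivity]
  rw [mul_assoc]
  exact T.trans (mul_le_mul_of_nonneg_left (by nlinarith [mul_le_mul_of_nonneg_left a hA]) hC)

/-- The decay of eta on the shell. -/
theorem Nr.dec {c : P354Z.Cs} {E : Est} (h : Nr c E) {L n j w : ℕ} {s ε t1 : ℝ} (hs : 0 ≤ s)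
    (hD : E.Dec L s ε) (hn : n ≤ L) (h1 : 0 ≤ t1) {x : E6} (hx : x ∈ E.O1) (a : An x)
    (hw : |x.1 - t1 - j| ≤ w) :
    E.eta n x ≤ (Real.exp (4 + 2 * n) * wt s w * (ε * wt (-s) j)) ^ 2 := by
  obtain ⟨y, hy, n1, e, -, k⟩ := h.eta_An hx a
  have b : ((j - w : ℕ) : ℝ) ≤ |x.1| := by
    rcases le_total j w with b | b
    · simp [Nat.sub_eq_zero_of_le b]
    · rw [Nat.cast_sub b]
      linarith [neg_abs_le (x.1 - t1 - j), le_abs_self x.1]
  have d : (1 + |x.1|) ^ (-s) ≤ wt s w * wt (-s) j := le_trans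
    (Real.rpow_le_rpow_of_nonpos (by positivity) (by linarith) (by linarith)) (wt_shift hs j w)
  refine (k n).1.trans ?_
  rw [mul_assoc, mul_pow, mul_left_comm]
  refine mul_le_mul_of_nonneg_left ((eta_mono E hn y).trans ((hD y hy n1).trans ?_)) (sq_nonneg _)
  rw [e, mul_pow, mul_pow]
  exact mul_le_mul_of_nonneg_left (pow_le_pow_left₀ (by positivity) d 2) (sq_nonneg _)

theorem r1_pos {c : P354Z.Cs} (h : c.Ok) : 0 < c.M ∧ 0 < c.r1 := by
  have m := (abs_nonneg _).trans_lt h.aM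
  have : √(c.M ^ 2 - c.a ^ 2) ≤ c.M := Real.sqrt_le_iff.2 ⟨m.le, by nlinarith [sq_nonneg c.a]⟩
  exact ⟨m, by linarith [h.r1]⟩

theorem dict {P : Pr} (hP : P.Ok) : DICT P := fun t w ρ => by
  by_cases z : 0 < P.c.M ∧ 0 < P.c.r1
  swap
  · exact ⟨1, one_pos, .of_forall fun σ => (z (r1_pos (c := σ.c) σ.ok)).elim⟩
  have hN := hP.N0
  have hs := hP.s1
  obtain ⟨Cp, p0, kp⟩ := par_le hs ⌈|P.c.bt P.c.R1 - P.c.t1| + P.c.c0⌉₊
  obtain ⟨Cb, b0, kb⟩ := bootp hs hP.s3 (w + ⌈P.c.c0⌉₊)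
  obtain ⟨C0, k0, c0⟩ := ((est_out z.1 z.2 ρ t (P.c.N0 - 10) (by omega)).and
    (eventually_ge_atTop 1)).exists
  obtain ⟨C1, c1, c2, c3⟩ := ((eventually_ge_atTop (P.c.C (max ρ (P.c.R1 + 3)) * Cb * 2)).and
    ((eventually_ge_atTop (Real.exp (4 + 2 * (t / 2 + 1 : ℕ)) * wt P.c.s0 w)).and
      (eventually_ge_atTop 1))).exists
  obtain ⟨C, k2, c4, c5⟩ := ((out_eta t C0).and ((eventually_ge_atTop (C0 * C1)).and
    (eventually_ge_atTop (P.c.C P.c.R1 * Cp)))).exists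
  have c6 : C0 ≤ C := by nlinarith
  have c7 : 0 < C := by linarith
  refine ⟨C, c7, ?_⟩
  filter_upwards [ev_LK t, ev_e t (show 0 < min (1 / 2) (min (C * C)⁻¹ (P.c.M / 2 / C)) by
    have := z.1; positivity)] with σ hL he
  obtain ⟨e1, e2, e3⟩ : _ ∧ _ ∧ _ := by simpa only [le_min_iff] using he.1
  have e0 := σ.e0
  have ok := σ.ok
  have t1 : 0 ≤ P.c.t1 := zero_le_two.trans ok.t1
  have D0 : σ.E.Dec P.c.L0 P.c.s0 σ.eps := fun x hx n1 =>
    (eta_mono _ (by omega) x).trans (σ.dec x hx n1)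
  have par : |σ.E.M - P.c.M| + |σ.E.a - P.c.a| ≤ C * σ.eps :=
    (kp (c := σ.c) t1 σ.is.near D0 (by linarith) σ.e1 (zero_le_one.trans (ok.C _))
      (Nat.le_ceil _)).trans (mul_le_mul_of_nonneg_right c5 e0.le)
  have hM : P.c.M / 2 ≤ σ.E.M := by
    rw [le_div_iff₀' c7] at e3
    linarith [neg_abs_le (σ.E.M - P.c.M), abs_nonneg (σ.E.a - P.c.a)]
  have h : Nr σ.c σ.E := ⟨σ.is.shape.co1, σ.is.eqs, by linarith [z.1]⟩
  have eR : σ.R = h.raw := h.raw_ext σ.RK σ.Rp σ.RG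
  refine ⟨par, fun x j a hr hw => ?_⟩
  have f0 : 0 ≤ fh P σ j := mul_nonneg e0.le (wt_pos _ _).le
  have f1 : fh P σ j ≤ σ.eps := mul_le_of_le_one_right e0.le
    ((wt_le_wt (by linarith) j).trans_eq (wt_q0 j))
  have o : h.raw.brg.Out t (P.c.N0 - 10) C0 (C * fh P σ j) (evP x) := by
    refine k0 σ.c σ.E h rfl hM x x.2 a (σ.is.shape.rad1 x x.2).1 hr _ (fun _ => rfl)
      (C1 * fh P σ j) (by positivity) (fun i => ?_) ?_ _ ?_ ?_
    · have w0 := wt_pos (-P.c.s0) j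
      have n0 := σ.is.near.e0
      have u : 0 ≤ P.c.C (max ρ (P.c.R1 + 3)) * Cb := mul_nonneg (zero_le_one.trans (ok.C _)) b0
      refine (q2_mono _ _ (show _ ≤ P.c.N0 by omega) _).trans ((kb (c := σ.c) t1
        (zero_le_one.trans ok.c0) σ.is.near D0 e0.le (by linarith [σ.e1]) (le_max_right ρ _) j x x.2
        a (hr.trans (le_max_left _ _)) (by
          push_cast; exact add_le_add hw (Nat.le_ceil _)) i).1.trans (pow_le_pow_left₀
          (mul_nonneg (mul_nonneg u (by positivity)) w0.le) (le_trans ?_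
            (mul_le_mul_of_nonneg_right c1 f0)) 2))
      rw [mul_assoc _ 2, mul_assoc _ (_ + _)]
      exact mul_le_mul_of_nonneg_left (by
        rw [fh, ← mul_assoc]; exact mul_le_mul_of_nonneg_right (by linarith [σ.e1]) w0.le) u
    · exact (h.dec (by linarith) σ.dec (by omega) t1 x.2 a hw).trans (pow_le_pow_left₀
        (mul_nonneg (mul_pos (Real.exp_pos _) (wt_pos _ _)).le f0)
        (mul_le_mul_of_nonneg_right c2 f0) 2)
    · rw [← mul_assoc]
      exact mul_le_mul_of_nonneg_right c4 f0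
    · rw [le_inv_comm₀ e0 (by positivity), le_inv_comm₀ (by positivity) e0, ← one_div,
        le_div_iff₀ (by positivity)] at e2
      nlinarith [mul_le_mul c6 (mul_le_mul_of_nonneg_left f1 c7.le) (by positivity) c7.le]
  simp only [St.lv, St.f, eR]
  exact ⟨o.mono (by positivity) (by linarith) c6 le_rfl, k2 _ _ h _ _ _ _ (fun _ => rfl) o⟩

end Vale.Agent.P354XR
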