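import Vale.Agent.P354XR.KC

/-!
The principal null frame of Kerr which is regular on the future horizon, in the normalisation
l.n = 2, m.mbar = -2, and its GHP equations.
-/

namespace Vale.Agent.P354XR
namespace KC

set_option linter.unusedSimpArgs false

open Vale.Agent.P354XG

variable {A : Type*} [CommRing A] [Algebra ℂ A] (K : KC A)

/-- z is the inverse of r - i a x, and zb its conjugate. -/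
noncomputable def z : A := K.sg * (K.r + ii A * K.a * K.x)
noncomputable def zb : A := K.sg * (K.r - ii A * K.a * K.x)
def De : A := K.r * K.r - 2 * K.M * K.r + K.a * K.a
def W : A := K.r * K.r + K.a * K.a
def ee : A := (K.r - K.M) * K.sg - K.De * K.r * K.sg * K.sg

/-- Twice the axial Killing field. -/
noncomputable def F2 : Der A :=
  K.V 0 0 (ii A * K.s) (-(ii A * K.sb)) (-(ii A * K.x)) (ii A * K.x)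

noncomputable def th : Der A :=
  K.V (2 * K.N * K.sg * K.W) (K.N * K.sg * K.De) (ii A * K.a * K.N * K.sg * K.s)
    (-(ii A * K.a * K.N * K.sg * K.sb)) (-(K.N * (K.ee + ii A * K.a * K.x * K.sg)))
    (-(K.N * (K.ee - ii A * K.a * K.x * K.sg)))
noncomputable def tp : Der A :=
  K.V 0 (-K.Ni) 0 0 (ii A * K.a * K.x * K.sg * K.Ni) (-(ii A * K.a * K.x * K.sg * K.Ni))
noncomputable def et : Der A :=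
  K.V (ii A * K.a * K.s * K.zb) 0 0 K.zb (-(K.a * K.a * K.x * K.sg * K.s * K.zb))
    (ii A * K.a * K.r * K.sg * K.s * K.zb)
noncomputable def ep : Der A :=
  K.V (-(ii A * K.a * K.sb * K.z)) 0 K.z 0 (-(ii A * K.a * K.r * K.sg * K.sb * K.z))
    (-(K.a * K.a * K.x * K.sg * K.sb * K.z))

noncomputable def rh : A := -(K.N * K.sg * K.De * K.z)
noncomputable def rh2 : A := K.Ni * K.z
noncomputable def ta : A := -(ii A * K.a * K.sg * K.s)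
noncomputable def ta2 : A := -(ii A * K.a * K.z * K.z * K.sb)
noncomputable def P2 : A := -(2 * K.M * K.z * K.z * K.z)

/-- The GHP data of Kerr. -/
noncomputable def kerr : GHP A where
  c := K.c
  th := K.th
  tp := K.tp
  et := K.et
  ep := K.ep
  H := K.H
  Hb := K.B
  ka := 0
  si := 0
  rh := K.rh
  ta := K.ta
  ka' := 0
  si' := 0
  rh' := K.rh2
  ta' := K.ta2
  P0 := 0
  P1 := 0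
  P2 := K.P2
  P3 := 0
  P4 := 0

variable {K}

namespace Is
variable (h : K.Is)
include h

/-- The table of derivatives and conjugates of the generators. -/
theorem tab : K.T K.r = 0 ∧ K.T K.x = 0 ∧ K.T K.s = 0 ∧ K.T K.sb = 0 ∧ K.T K.N = 0 ∧ K.T K.Ni = 0 ∧ K.T K.sg =
    0 ∧ K.T K.a = 0 ∧ K.T K.M = 0 ∧ K.R K.r = 1 ∧ K.R K.x = 0 ∧ K.R K.s = 0 ∧ K.R K.sb = 0 ∧ K.R K.N
    = 0 ∧ K.R K.Ni = 0 ∧ K.R K.sg = -(2 * K.r * K.sg * K.sg) ∧ K.R K.a = 0 ∧ K.R K.M = 0 ∧ K.P K.r =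
    0 ∧ K.P K.x = -K.sb ∧ K.P K.s = 2 * K.x ∧ K.P K.sb = 0 ∧ K.P K.N = 0 ∧ K.P K.Ni = 0 ∧ K.P K.sg =
    2 * K.a * K.a * K.x * K.sb * K.sg * K.sg ∧ K.P K.a = 0 ∧ K.P K.M = 0 ∧ K.Q K.r = 0 ∧ K.Q K.x =
    -K.s ∧ K.Q K.s = 0 ∧ K.Q K.sb = 2 * K.x ∧ K.Q K.N = 0 ∧ K.Q K.Ni = 0 ∧ K.Q K.sg = 2 * K.a * K.a
    * K.x * K.s * K.sg * K.sg ∧ K.Q K.a = 0 ∧ K.Q K.M = 0 ∧ K.H K.r = 0 ∧ K.H K.x = 0 ∧ K.H K.s =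
    K.s ∧ K.H K.sb = -K.sb ∧ K.H K.N = K.N ∧ K.H K.Ni = -K.Ni ∧ K.H K.sg = 0 ∧ K.H K.a = 0 ∧ K.H K.M
    = 0 ∧ K.B K.r = 0 ∧ K.B K.x = 0 ∧ K.B K.s = -K.s ∧ K.B K.sb = K.sb ∧ K.B K.N = K.N ∧ K.B K.Ni =
    -K.Ni ∧ K.B K.sg = 0 ∧ K.B K.a = 0 ∧ K.B K.M = 0 ∧ K.c K.r = K.r ∧ K.c K.x = K.x ∧ K.c K.s =
    K.sb ∧ K.c K.sb = K.s ∧ K.c K.N = K.N ∧ K.c K.Ni = K.Ni ∧ K.c K.sg = K.sg ∧ K.c K.a = K.a ∧ K.c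
    K.M = K.M ∧ K.c (ii A) = -ii A :=
  ⟨h.T_r, h.T_x, h.T_s, h.T_sb, h.T_N, h.T_Ni, h.T_sg, h.T_a, h.T_M, h.R_r, h.R_x, h.R_s, h.R_sb,
    h.R_N, h.R_Ni, h.R_sg, h.R_a, h.R_M, h.P_r, h.P_x, h.P_s, h.P_sb, h.P_N, h.P_Ni, h.P_sg, h.P_a,
    h.P_M, h.Q_r, h.Q_x, h.Q_s, h.Q_sb, h.Q_N, h.Q_Ni, h.Q_sg, h.Q_a, h.Q_M, h.H_r, h.H_x, h.H_s,
    h.H_sb, h.H_N, h.H_Ni, h.H_sg, h.H_a, h.H_M, h.B_r, h.B_x, h.B_s, h.B_sb, h.B_N, h.B_Ni, h.B_sg,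
    h.B_a, h.B_M, h.c_r, h.c_x, h.c_s, h.c_sb, h.c_N, h.c_Ni, h.c_sg, h.c_a, h.c_M, h.c_ii⟩

theorem th_tp (f : A) : K.th (K.tp f) = K.tp (K.th f) + (K.c K.ta - K.ta2) * K.et f + (K.ta - K.c K.ta2) * K.ep f -
    (K.P2 - K.ta * K.ta2) * K.H f - (K.c K.P2 - K.c K.ta * K.c K.ta2) * K.B f := by
  rw [h.V_comm (E := K.th) (F := K.tp) rfl rfl]
  generalize K.tp (K.th f) = u
  simp only [th, tp, et, ep, rh, rh2, ta, ta2, P2, z, zb, ee, De, W, V_ap, D_add, D_sub, D_mul,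
    D_neg, D_num, D_zero, D_ii, map_mul, map_add, map_sub, map_neg, map_zero, map_ofNat, h.tab]
  linear_combination (-K.r^4*K.a^2*K.s*K.sb*K.sg^4*K.H f - K.r^4*K.a^2*K.s*K.sb*K.sg^4*K.B f +
    K.r^3*K.x*K.a^3*ii A*K.s*K.sb*K.sg^4*K.H f - K.r^3*K.x*K.a^3*ii A*K.s*K.sb*K.sg^4*K.B f -
    2*K.r^3*K.a^2*K.s*K.sb*K.sg^3*K.T f + K.r^2*K.x^2*K.a^4*ii A^2*K.s*K.sb*K.sg^4*K.H f +
    K.r^2*K.x^2*K.a^4*ii A^2*K.s*K.sb*K.sg^4*K.B f + K.r^2*K.x^2*K.a^4*K.s*K.sb*K.sg^4*K.H f +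
    K.r^2*K.x^2*K.a^4*K.s*K.sb*K.sg^4*K.B f - K.r^2*K.x*K.a^2*K.s*K.sg^3*K.P f -
    K.r^2*K.x*K.a^2*K.sb*K.sg^3*K.Q f - 2*K.r^2*K.a^2*K.s*K.sb*K.sg^3*K.H f -
    2*K.r^2*K.a^2*K.s*K.sb*K.sg^3*K.B f - K.r*K.x^5*K.a^5*ii A*K.sg^4*K.H f + K.r*K.x^5*K.a^5*ii
    A*K.sg^4*K.B f + 2*K.r*K.x^4*K.a^4*K.sg^3*K.T f - K.r*K.x^3*K.a^5*ii A^3*K.s*K.sb*K.sg^4*K.H f +
    K.r*K.x^3*K.a^5*ii A^3*K.s*K.sb*K.sg^4*K.B f - K.r*K.x^3*K.a^5*ii A*K.s*K.sb*K.sg^4*K.H f +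
    K.r*K.x^3*K.a^5*ii A*K.s*K.sb*K.sg^4*K.B f + K.r*K.x^3*K.a^5*ii A*K.sg^4*K.H f -
    K.r*K.x^3*K.a^5*ii A*K.sg^4*K.B f + 2*K.r*K.x^2*K.a^4*ii A^2*K.s*K.sb*K.sg^3*K.T f -
    2*K.r*K.x^2*K.a^4*K.sg^3*K.T f - K.r*K.x^2*K.a^3*ii A*K.s*K.sg^3*K.P f + K.r*K.x^2*K.a^3*ii
    A*K.sb*K.sg^3*K.Q f - 6*K.r*K.x^2*K.a^2*K.M*K.sg^3*K.H f - 6*K.r*K.x^2*K.a^2*K.M*K.sg^3*K.B f -
    3*K.r*K.x*K.a^3*ii A*K.s*K.sb*K.sg^3*K.H f + 3*K.r*K.x*K.a^3*ii A*K.s*K.sb*K.sg^3*K.B f -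
    2*K.r*K.a^2*K.s*K.sb*K.sg^2*K.T f - 2*K.x^6*K.a^6*K.sg^4*K.H f - 2*K.x^6*K.a^6*K.sg^4*K.B f -
    K.x^4*K.a^6*ii A^2*K.s*K.sb*K.sg^4*K.H f - K.x^4*K.a^6*ii A^2*K.s*K.sb*K.sg^4*K.B f +
    2*K.x^4*K.a^6*K.sg^4*K.H f + 2*K.x^4*K.a^6*K.sg^4*K.B f + K.x^3*K.a^4*ii A^2*K.s*K.sg^3*K.P f +
    K.x^3*K.a^4*ii A^2*K.sb*K.sg^3*K.Q f - K.x^3*K.a^4*K.s*K.sg^3*K.P f -
    K.x^3*K.a^4*K.sb*K.sg^3*K.Q f - 2*K.x^3*K.a^3*K.M*ii A*K.sg^3*K.H f + 2*K.x^3*K.a^3*K.M*ii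
    A*K.sg^3*K.B f - K.x^2*K.a^4*ii A^2*K.s*K.sb*K.sg^3*K.H f - K.x^2*K.a^4*ii
    A^2*K.s*K.sb*K.sg^3*K.B f - K.x^2*K.a^4*K.s*K.sb*K.sg^3*K.H f - K.x^2*K.a^4*K.s*K.sb*K.sg^3*K.B
    f + K.x*K.a^2*K.s*K.sg^2*K.P f + K.x*K.a^2*K.sb*K.sg^2*K.Q f) * ii_sq (A := A) +
    (K.r^4*K.a^2*K.sg^4*K.H f + K.r^4*K.a^2*K.sg^4*K.B f + 2*K.r^3*K.a^2*K.sg^3*K.T f -
    K.r^2*K.x^2*K.a^4*ii A^2*K.sg^4*K.H f - K.r^2*K.x^2*K.a^4*ii A^2*K.sg^4*K.B f -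
    K.r^2*K.x^2*K.a^4*K.sg^4*K.H f - K.r^2*K.x^2*K.a^4*K.sg^4*K.B f + 2*K.r^2*K.a^2*K.sg^3*K.H f +
    2*K.r^2*K.a^2*K.sg^3*K.B f + K.r*K.x^3*K.a^5*ii A^3*K.sg^4*K.H f - K.r*K.x^3*K.a^5*ii
    A^3*K.sg^4*K.B f + K.r*K.x^3*K.a^5*ii A*K.sg^4*K.H f - K.r*K.x^3*K.a^5*ii A*K.sg^4*K.B f -
    2*K.r*K.x^2*K.a^4*ii A^2*K.sg^3*K.T f + 4*K.r*K.x*K.a^3*ii A*K.sg^3*K.H f - 4*K.r*K.x*K.a^3*ii
    A*K.sg^3*K.B f + 2*K.r*K.a^2*K.sg^2*K.T f + K.x^4*K.a^6*ii A^2*K.sg^4*K.H f + K.x^4*K.a^6*ii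
    A^2*K.sg^4*K.B f + K.x^2*K.a^4*ii A^2*K.sg^3*K.H f + K.x^2*K.a^4*ii A^2*K.sg^3*K.B f +
    K.x^2*K.a^4*K.sg^3*K.H f + K.x^2*K.a^4*K.sg^3*K.B f) * h.hs + (-4*K.r^4*K.sg^3*K.H f -
    4*K.r^4*K.sg^3*K.B f - 4*K.r^3*K.x*K.a*ii A*K.sg^3*K.H f + 4*K.r^3*K.x*K.a*ii A*K.sg^3*K.B f +
    8*K.r^3*K.M*K.sg^3*K.H f + 8*K.r^3*K.M*K.sg^3*K.B f - 4*K.r^3*K.sg^2*K.T f +
    8*K.r^2*K.x*K.a*K.M*ii A*K.sg^3*K.H f - 8*K.r^2*K.x*K.a*K.M*ii A*K.sg^3*K.B f -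
    4*K.r^2*K.a^2*K.sg^3*K.H f - 4*K.r^2*K.a^2*K.sg^3*K.B f + 5*K.r^2*K.sg^2*K.H f +
    5*K.r^2*K.sg^2*K.B f - 4*K.r*K.x*K.a^3*ii A*K.sg^3*K.H f + 4*K.r*K.x*K.a^3*ii A*K.sg^3*K.B f +
    4*K.r*K.x*K.a*ii A*K.sg^2*K.H f - 4*K.r*K.x*K.a*ii A*K.sg^2*K.B f - 4*K.r*K.a^2*K.sg^2*K.T f -
    2*K.r*K.a*ii A*K.s*K.sg^2*K.P f + 2*K.r*K.a*ii A*K.sb*K.sg^2*K.Q f - 6*K.r*K.M*K.sg^2*K.H f -
    6*K.r*K.M*K.sg^2*K.B f + 4*K.r*K.sg*K.T f - 2*K.x*K.a*K.M*ii A*K.sg^2*K.H f + 2*K.x*K.a*K.M*ii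
    A*K.sg^2*K.B f + K.a^2*K.sg^2*K.H f + K.a^2*K.sg^2*K.B f - K.sg*K.H f - K.sg*K.B f) * h.hN +
    (-K.r^2*K.x^2*K.a^2*K.sg^3*K.H f - K.r^2*K.x^2*K.a^2*K.sg^3*K.B f + K.r^2*K.a^2*K.sg^3*K.H f +
    K.r^2*K.a^2*K.sg^3*K.B f - 4*K.r^2*K.sg^2*K.H f - 4*K.r^2*K.sg^2*K.B f -
    2*K.r*K.x^2*K.a^2*K.sg^2*K.T f - 4*K.r*K.x*K.a*ii A*K.sg^2*K.H f + 4*K.r*K.x*K.a*ii A*K.sg^2*K.B
    f + 2*K.r*K.a^2*K.sg^2*K.T f + K.r*K.a*ii A*K.s*K.sg^2*K.P f - K.r*K.a*ii A*K.sb*K.sg^2*K.Q f +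
    6*K.r*K.M*K.sg^2*K.H f + 6*K.r*K.M*K.sg^2*K.B f - 4*K.r*K.sg*K.T f + K.x^4*K.a^4*ii
    A^2*K.sg^3*K.H f + K.x^4*K.a^4*ii A^2*K.sg^3*K.B f + 2*K.x^4*K.a^4*K.sg^3*K.H f +
    2*K.x^4*K.a^4*K.sg^3*K.B f - K.x^2*K.a^4*ii A^2*K.sg^3*K.H f - K.x^2*K.a^4*ii A^2*K.sg^3*K.B f -
    2*K.x^2*K.a^4*K.sg^3*K.H f - 2*K.x^2*K.a^4*K.sg^3*K.B f + K.x^2*K.a^2*K.sg^2*K.H f +
    K.x^2*K.a^2*K.sg^2*K.B f + K.x*K.a^2*K.s*K.sg^2*K.P f + K.x*K.a^2*K.sb*K.sg^2*K.Q f +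
    2*K.x*K.a*K.M*ii A*K.sg^2*K.H f - 2*K.x*K.a*K.M*ii A*K.sg^2*K.B f - K.a^2*K.sg^2*K.H f -
    K.a^2*K.sg^2*K.B f + K.sg*K.H f + K.sg*K.B f) * h.hg

theorem th_et (f : A) : K.th (K.et f) = K.et (K.th f) + K.c K.rh * K.et f - K.c K.ta2 * K.th f + K.c K.rh * K.c K.ta2 *
    K.B f := by
  rw [h.V_comm (E := K.th) (F := K.et) rfl rfl]
  generalize K.et (K.th f) = u
  simp only [th, tp, et, ep, rh, rh2, ta, ta2, P2, z, zb, ee, De, W, V_ap, D_add, D_sub, D_mul,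
    D_neg, D_num, D_zero, D_ii, map_mul, map_add, map_sub, map_neg, map_zero, map_ofNat, h.tab]
  linear_combination (-K.r^4*K.x*K.a^2*K.s*K.N*K.sg^4*K.H f - 2*K.r^4*K.x*K.a^2*K.s*K.N*K.sg^4*K.B
    f + K.r^3*K.x^2*K.a^3*ii A*K.s*K.N*K.sg^4*K.H f + 5*K.r^3*K.x^2*K.a^3*ii A*K.s*K.N*K.sg^4*K.B f
    + 2*K.r^3*K.x*K.a^2*K.M*K.s*K.N*K.sg^4*K.H f + 4*K.r^3*K.x*K.a^2*K.M*K.s*K.N*K.sg^4*K.B f -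
    2*K.r^3*K.x*K.a^2*K.s*K.N*K.sg^3*K.T f - K.r^3*K.x*K.a^2*K.s*K.N*K.sg^3*K.R f -
    K.r^2*K.x^3*K.a^4*ii A^2*K.s*K.N*K.sg^4*K.B f - K.r^2*K.x^3*K.a^4*K.s*K.N*K.sg^4*K.H f -
    2*K.r^2*K.x^2*K.a^3*K.M*ii A*K.s*K.N*K.sg^4*K.H f - 10*K.r^2*K.x^2*K.a^3*K.M*ii
    A*K.s*K.N*K.sg^4*K.B f + 3*K.r^2*K.x^2*K.a^3*ii A*K.s*K.N*K.sg^3*K.T f + K.r^2*K.x^2*K.a^3*ii
    A*K.s*K.N*K.sg^3*K.R f + K.r^2*K.x^2*K.a^2*K.N*K.sg^3*K.Q f - K.r^2*K.x*K.a^4*K.s*K.N*K.sg^4*K.H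
    f - 2*K.r^2*K.x*K.a^4*K.s*K.N*K.sg^4*K.B f + 2*K.r^2*K.x*K.a^2*K.M*K.s*K.N*K.sg^3*K.R f +
    K.r^2*K.x*K.a^2*K.s*K.N*K.sg^3*K.H f + 2*K.r*K.x^3*K.a^4*K.M*ii A^2*K.s*K.N*K.sg^4*K.B f +
    2*K.r*K.x^3*K.a^4*K.M*K.s*K.N*K.sg^4*K.H f - 2*K.r*K.x^3*K.a^4*K.M*K.s*K.N*K.sg^4*K.B f +
    K.r*K.x^2*K.a^5*ii A*K.s*K.N*K.sg^4*K.H f + 5*K.r*K.x^2*K.a^5*ii A*K.s*K.N*K.sg^4*K.B f -
    2*K.r*K.x^2*K.a^3*K.M*ii A*K.s*K.N*K.sg^3*K.T f - 2*K.r*K.x^2*K.a^3*K.M*ii A*K.s*K.N*K.sg^3*K.R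
    f - 2*K.r*K.x^2*K.a^3*ii A*K.s*K.N*K.sg^3*K.B f - 2*K.r*K.x^2*K.a^2*K.M*K.N*K.sg^3*K.Q f -
    2*K.r*K.x*K.a^4*K.s*K.N*K.sg^3*K.T f - K.r*K.x*K.a^4*K.s*K.N*K.sg^3*K.R f - K.r*K.x*K.a^3*ii
    A*K.s^2*K.N*K.sg^3*K.P f + K.r*K.x*K.a^3*ii A*K.s*K.sb*K.N*K.sg^3*K.Q f -
    K.r*K.x*K.a^2*K.M*K.s*K.N*K.sg^3*K.H f + K.r*K.x*K.a^2*K.M*K.s*K.N*K.sg^3*K.B f -
    K.x^5*K.a^6*K.s*K.N*K.sg^4*K.B f - K.x^4*K.a^4*K.N*K.sg^3*K.Q f - K.x^3*K.a^6*ii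
    A^2*K.s*K.N*K.sg^4*K.B f - K.x^3*K.a^6*K.s*K.N*K.sg^4*K.H f + K.x^3*K.a^6*K.s*K.N*K.sg^4*K.B f -
    K.x^3*K.a^4*ii A^2*K.s*K.N*K.sg^3*K.H f + K.x^3*K.a^4*ii A^2*K.s*K.N*K.sg^3*K.B f +
    K.x^3*K.a^4*K.s*K.N*K.sg^3*K.B f + 3*K.x^2*K.a^5*ii A*K.s*K.N*K.sg^3*K.T f + K.x^2*K.a^5*ii
    A*K.s*K.N*K.sg^3*K.R f + K.x^2*K.a^4*ii A^2*K.s^2*K.N*K.sg^3*K.P f - K.x^2*K.a^4*ii
    A^2*K.s*K.sb*K.N*K.sg^3*K.Q f - K.x^2*K.a^4*K.s*K.sb*K.N*K.sg^3*K.Q f +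
    2*K.x^2*K.a^4*K.N*K.sg^3*K.Q f + K.x^2*K.a^3*K.M*ii A*K.s*K.N*K.sg^3*K.H f + K.x^2*K.a^3*K.M*ii
    A*K.s*K.N*K.sg^3*K.B f - K.x*K.a^4*K.s*K.N*K.sg^3*K.B f) * ii_sq (A := A) + (K.x^2*K.a^4*ii
    A^2*K.N*K.sg^3*K.Q f + K.x^2*K.a^4*K.N*K.sg^3*K.Q f) * h.hs + (-2*K.r^3*K.a*ii
    A*K.s*K.N*K.sg^3*K.B f + K.r^2*K.x*K.a^2*K.s*K.N*K.sg^3*K.H f -
    K.r^2*K.x*K.a^2*K.s*K.N*K.sg^3*K.B f + 4*K.r^2*K.a*K.M*ii A*K.s*K.N*K.sg^3*K.B f - K.r^2*K.a*ii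
    A*K.s*K.N*K.sg^2*K.T f - K.r^2*K.N*K.sg^2*K.Q f - 2*K.r*K.x*K.a^2*K.M*K.s*K.N*K.sg^3*K.H f +
    2*K.r*K.x*K.a^2*K.M*K.s*K.N*K.sg^3*K.B f - 2*K.r*K.a^3*ii A*K.s*K.N*K.sg^3*K.B f +
    2*K.r*K.a*K.M*ii A*K.s*K.N*K.sg^2*K.T f + 2*K.r*K.M*K.N*K.sg^2*K.Q f + K.x^3*K.a^4*ii
    A^2*K.s*K.N*K.sg^3*K.B f + K.x^3*K.a^4*K.s*K.N*K.sg^3*K.B f + K.x*K.a^4*K.s*K.N*K.sg^3*K.H f -
    K.x*K.a^4*K.s*K.N*K.sg^3*K.B f - K.a^3*ii A*K.s*K.N*K.sg^2*K.T f - K.a^2*K.N*K.sg^2*K.Q f) *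
    h.hg

theorem tp_ep (f : A) : K.tp (K.ep f) = K.ep (K.tp f) + K.c K.rh2 * K.ep f - K.c K.ta * K.tp f - K.c K.rh2 * K.c K.ta *
    K.B f := by
  rw [h.V_comm (E := K.tp) (F := K.ep) rfl rfl]
  generalize K.ep (K.tp f) = u
  simp only [th, tp, et, ep, rh, rh2, ta, ta2, P2, z, zb, ee, De, W, V_ap, D_add, D_sub, D_mul,
    D_neg, D_num, D_zero, D_ii, map_mul, map_add, map_sub, map_neg, map_zero, map_ofNat, h.tab]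
  linear_combination (-3*K.r^2*K.x*K.a^2*K.sb*K.Ni*K.sg^3*K.H f +
    K.r^2*K.x*K.a^2*K.sb*K.Ni*K.sg^3*K.B f + K.r*K.x^2*K.a^3*ii A*K.sb*K.Ni*K.sg^3*K.B f +
    K.r*K.x*K.a^2*K.sb*K.Ni*K.sg^2*K.R f - 3*K.x^3*K.a^4*K.sb*K.Ni*K.sg^3*K.H f +
    4*K.x^3*K.a^4*K.sb*K.Ni*K.sg^3*K.B f + K.x^2*K.a^3*ii A*K.sb*K.Ni*K.sg^2*K.T f -
    K.x^2*K.a^2*K.Ni*K.sg^2*K.P f + 3*K.x*K.a^2*K.sb*K.Ni*K.sg^2*K.H f -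
    3*K.x*K.a^2*K.sb*K.Ni*K.sg^2*K.B f) * ii_sq (A := A) + (-3*K.r*K.a*ii A*K.sb*K.Ni*K.sg^2*K.H f +
    3*K.x*K.a^2*K.sb*K.Ni*K.sg^2*K.H f - 4*K.x*K.a^2*K.sb*K.Ni*K.sg^2*K.B f - K.a*ii
    A*K.sb*K.Ni*K.sg*K.T f + K.a*ii A*K.sb*K.Ni*K.sg*K.R f + K.Ni*K.sg*K.P f) * h.hg

theorem et_ep (f : A) : K.et (K.ep f) = K.ep (K.et f) + (K.c K.rh2 - K.rh2) * K.th f + (K.rh - K.c K.rh) * K.tp f +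
    (K.rh * K.rh2 + K.P2) * K.H f - (K.c K.rh * K.c K.rh2 + K.c K.P2) * K.B f := by
  rw [h.V_comm (E := K.et) (F := K.ep) rfl rfl]
  generalize K.ep (K.et f) = u
  simp only [th, tp, et, ep, rh, rh2, ta, ta2, P2, z, zb, ee, De, W, V_ap, D_add, D_sub, D_mul,
    D_neg, D_num, D_zero, D_ii, map_mul, map_add, map_sub, map_neg, map_zero, map_ofNat, h.tab]
  linear_combination (-K.r^4*K.a^2*K.s*K.sb*K.sg^4*K.H f + K.r^4*K.a^2*K.s*K.sb*K.sg^4*K.B f +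
    K.r^2*K.x^2*K.a^4*ii A^2*K.s*K.sb*K.sg^4*K.H f - K.r^2*K.x^2*K.a^4*ii A^2*K.s*K.sb*K.sg^4*K.B f
    + 3*K.r^2*K.x^2*K.a^2*K.N*K.Ni*K.sg^3*K.H f - 3*K.r^2*K.x^2*K.a^2*K.N*K.Ni*K.sg^3*K.B f +
    K.r^2*K.a^2*K.s*K.sb*K.sg^3*K.H f - K.r^2*K.a^2*K.s*K.sb*K.sg^3*K.B f + 6*K.r*K.x^3*K.a^5*ii
    A*K.s*K.sb*K.sg^4*K.H f + 6*K.r*K.x^3*K.a^5*ii A*K.s*K.sb*K.sg^4*K.B f + 2*K.r*K.x^3*K.a^3*ii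
    A*K.sg^3*K.H f + 2*K.r*K.x^3*K.a^3*ii A*K.sg^3*K.B f - K.r*K.x^2*K.a^3*ii A*K.s*K.sg^3*K.P f -
    K.r*K.x^2*K.a^3*ii A*K.sb*K.sg^3*K.Q f - 6*K.r*K.x^2*K.a^2*K.M*K.N*K.Ni*K.sg^3*K.H f +
    6*K.r*K.x^2*K.a^2*K.M*K.N*K.Ni*K.sg^3*K.B f + 6*K.r*K.x^2*K.a^2*K.M*K.sg^3*K.H f -
    6*K.r*K.x^2*K.a^2*K.M*K.sg^3*K.B f - K.r*K.x*K.a^3*ii A*K.s*K.sb*K.sg^3*K.H f - K.r*K.x*K.a^3*ii
    A*K.s*K.sb*K.sg^3*K.B f - K.x^6*K.a^6*K.sg^4*K.H f + K.x^6*K.a^6*K.sg^4*K.B f -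
    5*K.x^4*K.a^6*K.s*K.sb*K.sg^4*K.H f + 5*K.x^4*K.a^6*K.s*K.sb*K.sg^4*K.B f +
    K.x^4*K.a^6*K.sg^4*K.H f - K.x^4*K.a^6*K.sg^4*K.B f - K.x^4*K.a^4*K.sg^3*K.H f +
    K.x^4*K.a^4*K.sg^3*K.B f + 6*K.x^3*K.a^5*ii A*K.s*K.sb*K.sg^3*K.T f -
    3*K.x^3*K.a^4*K.s*K.sg^3*K.P f + 3*K.x^3*K.a^4*K.sb*K.sg^3*K.Q f + 2*K.x^3*K.a^3*K.M*ii
    A*K.sg^3*K.H f + 2*K.x^3*K.a^3*K.M*ii A*K.sg^3*K.B f + 4*K.x^3*K.a^3*ii A*K.sg^2*K.T f +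
    2*K.x^2*K.a^4*K.s*K.sb*K.sg^3*K.H f - 2*K.x^2*K.a^4*K.s*K.sb*K.sg^3*K.B f +
    3*K.x^2*K.a^4*K.N*K.Ni*K.sg^3*K.H f - 3*K.x^2*K.a^4*K.N*K.Ni*K.sg^3*K.B f -
    K.x^2*K.a^4*K.sg^3*K.H f + K.x^2*K.a^4*K.sg^3*K.B f - 2*K.x^2*K.a^2*K.N*K.Ni*K.sg^2*K.H f +
    2*K.x^2*K.a^2*K.N*K.Ni*K.sg^2*K.B f + K.x^2*K.a^2*K.sg^2*K.H f - K.x^2*K.a^2*K.sg^2*K.B f -
    2*K.x*K.a^3*ii A*K.s*K.sb*K.sg^2*K.T f + 2*K.x*K.a^2*K.s*K.N*K.Ni*K.sg^2*K.P f +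
    K.x*K.a^2*K.s*K.sg^2*K.P f - 2*K.x*K.a^2*K.sb*K.N*K.Ni*K.sg^2*K.Q f - K.x*K.a^2*K.sb*K.sg^2*K.Q
    f) * ii_sq (A := A) + (K.r^4*K.a^2*K.sg^4*K.H f - K.r^4*K.a^2*K.sg^4*K.B f -
    6*K.r^3*K.x*K.a^3*ii A*K.sg^4*K.H f - 6*K.r^3*K.x*K.a^3*ii A*K.sg^4*K.B f - K.r^2*K.x^2*K.a^4*ii
    A^2*K.sg^4*K.H f + K.r^2*K.x^2*K.a^4*ii A^2*K.sg^4*K.B f + 5*K.r^2*K.x^2*K.a^4*K.sg^4*K.H f -
    5*K.r^2*K.x^2*K.a^4*K.sg^4*K.B f - 6*K.r^2*K.x*K.a^3*ii A*K.sg^3*K.T f -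
    2*K.r^2*K.a^2*K.sg^3*K.H f + 2*K.r^2*K.a^2*K.sg^3*K.B f - 6*K.r*K.x^3*K.a^5*ii A*K.sg^4*K.H f -
    6*K.r*K.x^3*K.a^5*ii A*K.sg^4*K.B f + 2*K.r*K.x*K.a^3*ii A*K.sg^3*K.H f + 2*K.r*K.x*K.a^3*ii
    A*K.sg^3*K.B f + 5*K.x^4*K.a^6*K.sg^4*K.H f - 5*K.x^4*K.a^6*K.sg^4*K.B f - 6*K.x^3*K.a^5*ii
    A*K.sg^3*K.T f - 2*K.x^2*K.a^4*K.sg^3*K.H f + 2*K.x^2*K.a^4*K.sg^3*K.B f + 2*K.x*K.a^3*ii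
    A*K.sg^2*K.T f) * h.hs + (K.r^4*K.sg^3*K.H f - K.r^4*K.sg^3*K.B f + 4*K.r^3*K.x*K.a*ii
    A*K.sg^3*K.H f + 4*K.r^3*K.x*K.a*ii A*K.sg^3*K.B f - 2*K.r^3*K.M*K.sg^3*K.H f +
    2*K.r^3*K.M*K.sg^3*K.B f - 3*K.r^2*K.x^2*K.a^2*K.sg^3*K.H f + 3*K.r^2*K.x^2*K.a^2*K.sg^3*K.B f -
    8*K.r^2*K.x*K.a*K.M*ii A*K.sg^3*K.H f - 8*K.r^2*K.x*K.a*K.M*ii A*K.sg^3*K.B f +
    4*K.r^2*K.x*K.a*ii A*K.sg^2*K.T f + K.r^2*K.a^2*K.sg^3*K.H f - K.r^2*K.a^2*K.sg^3*K.B f +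
    6*K.r*K.x^2*K.a^2*K.M*K.sg^3*K.H f - 6*K.r*K.x^2*K.a^2*K.M*K.sg^3*K.B f + 4*K.r*K.x*K.a^3*ii
    A*K.sg^3*K.H f + 4*K.r*K.x*K.a^3*ii A*K.sg^3*K.B f - 2*K.r*K.x*K.a*ii A*K.sg^2*K.H f -
    2*K.r*K.x*K.a*ii A*K.sg^2*K.B f - 3*K.x^2*K.a^4*K.sg^3*K.H f + 3*K.x^2*K.a^4*K.sg^3*K.B f +
    2*K.x^2*K.a^2*K.sg^2*K.H f - 2*K.x^2*K.a^2*K.sg^2*K.B f + 4*K.x*K.a^3*ii A*K.sg^2*K.T f -
    2*K.x*K.a^2*K.s*K.sg^2*K.P f + 2*K.x*K.a^2*K.sb*K.sg^2*K.Q f + 2*K.x*K.a*K.M*ii A*K.sg^2*K.H f +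
    2*K.x*K.a*K.M*ii A*K.sg^2*K.B f) * h.hN + (-K.r^2*K.x^2*K.a^2*K.sg^3*K.H f +
    K.r^2*K.x^2*K.a^2*K.sg^3*K.B f + K.r^2*K.a^2*K.sg^3*K.H f - K.r^2*K.a^2*K.sg^3*K.B f +
    K.r^2*K.sg^2*K.H f - K.r^2*K.sg^2*K.B f + 6*K.r*K.x^3*K.a^3*ii A*K.sg^3*K.H f +
    6*K.r*K.x^3*K.a^3*ii A*K.sg^3*K.B f - 6*K.r*K.x*K.a^3*ii A*K.sg^3*K.H f - 6*K.r*K.x*K.a^3*ii
    A*K.sg^3*K.B f + 2*K.r*K.x*K.a*ii A*K.sg^2*K.H f + 2*K.r*K.x*K.a*ii A*K.sg^2*K.B f + K.r*K.a*ii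
    A*K.s*K.sg^2*K.P f + K.r*K.a*ii A*K.sb*K.sg^2*K.Q f + K.x^4*K.a^4*ii A^2*K.sg^3*K.H f -
    K.x^4*K.a^4*ii A^2*K.sg^3*K.B f - 4*K.x^4*K.a^4*K.sg^3*K.H f + 4*K.x^4*K.a^4*K.sg^3*K.B f +
    6*K.x^3*K.a^3*ii A*K.sg^2*K.T f - K.x^2*K.a^4*ii A^2*K.sg^3*K.H f + K.x^2*K.a^4*ii
    A^2*K.sg^3*K.B f + 4*K.x^2*K.a^4*K.sg^3*K.H f - 4*K.x^2*K.a^4*K.sg^3*K.B f -
    K.x^2*K.a^2*K.sg^2*K.H f + K.x^2*K.a^2*K.sg^2*K.B f - 6*K.x*K.a^3*ii A*K.sg^2*K.T f +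
    3*K.x*K.a^2*K.s*K.sg^2*K.P f - 3*K.x*K.a^2*K.sb*K.sg^2*K.Q f - 2*K.x*K.a*K.M*ii A*K.sg^2*K.H f -
    2*K.x*K.a*K.M*ii A*K.sg^2*K.B f) * h.hg

theorem r1 : K.th K.rh = K.rh * K.rh := by
  simp only [th, tp, et, ep, rh, rh2, ta, ta2, P2, z, zb, ee, De, W, V_ap, D_add, D_sub, D_mul,
    D_neg, D_num, D_zero, D_ii, map_mul, map_add, map_sub, map_neg, map_zero, map_ofNat, h.tab]
  linear_combination (-K.r^4*K.x^2*K.a^2*K.N^2*K.sg^4 + 4*K.r^3*K.x^2*K.a^2*K.M*K.N^2*K.sg^4 -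
    2*K.r^2*K.x^2*K.a^4*K.N^2*K.sg^4 - 4*K.r^2*K.x^2*K.a^2*K.M^2*K.N^2*K.sg^4 +
    4*K.r*K.x^2*K.a^4*K.M*K.N^2*K.sg^4 - K.x^2*K.a^6*K.N^2*K.sg^4) * ii_sq (A := A) +
    (K.r^4*K.N^2*K.sg^3 - 4*K.r^3*K.M*K.N^2*K.sg^3 + 2*K.r^2*K.a^2*K.N^2*K.sg^3 +
    4*K.r^2*K.M^2*K.N^2*K.sg^3 - 4*K.r*K.a^2*K.M*K.N^2*K.sg^3 + K.a^4*K.N^2*K.sg^3) * h.hg

theorem r3 : K.th K.ta = (K.ta - K.c K.ta2) * K.rh := by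
  simp only [th, tp, et, ep, rh, rh2, ta, ta2, P2, z, zb, ee, De, W, V_ap, D_add, D_sub, D_mul,
    D_neg, D_num, D_zero, D_ii, map_mul, map_add, map_sub, map_neg, map_zero, map_ofNat, h.tab]
  linear_combination (K.r^4*K.x*K.a^2*K.s*K.N*K.sg^4 + K.r^3*K.x^2*K.a^3*ii A*K.s*K.N*K.sg^4 -
    2*K.r^3*K.x*K.a^2*K.M*K.s*K.N*K.sg^4 - K.r^2*K.x^3*K.a^4*ii A^2*K.s*K.N*K.sg^4 -
    2*K.r^2*K.x^2*K.a^3*K.M*ii A*K.s*K.N*K.sg^4 + K.r^2*K.x*K.a^4*K.s*K.N*K.sg^4 -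
    K.r^2*K.x*K.a^2*K.s*K.N*K.sg^3 + 2*K.r*K.x^3*K.a^4*K.M*ii A^2*K.s*K.N*K.sg^4 -
    2*K.r*K.x^3*K.a^4*K.M*K.s*K.N*K.sg^4 + K.r*K.x^2*K.a^5*ii A*K.s*K.N*K.sg^4 +
    2*K.r*K.x*K.a^2*K.M*K.s*K.N*K.sg^3 - K.x^5*K.a^6*K.s*K.N*K.sg^4 - K.x^3*K.a^6*ii
    A^2*K.s*K.N*K.sg^4 + K.x^3*K.a^6*K.s*K.N*K.sg^4 + K.x^3*K.a^4*K.s*K.N*K.sg^3 -
    K.x*K.a^4*K.s*K.N*K.sg^3) * ii_sq (A := A) + (-K.r^3*K.a*ii A*K.s*K.N*K.sg^3 -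
    K.r^2*K.x*K.a^2*K.s*K.N*K.sg^3 + 2*K.r^2*K.a*K.M*ii A*K.s*K.N*K.sg^3 +
    2*K.r*K.x*K.a^2*K.M*K.s*K.N*K.sg^3 - K.r*K.a^3*ii A*K.s*K.N*K.sg^3 + K.x^3*K.a^4*ii
    A^2*K.s*K.N*K.sg^3 + K.x^3*K.a^4*K.s*K.N*K.sg^3 - K.x*K.a^4*K.s*K.N*K.sg^3) * h.hg

theorem r4 : K.et K.rh = (K.rh - K.c K.rh) * K.ta := by
  simp only [th, tp, et, ep, rh, rh2, ta, ta2, P2, z, zb, ee, De, W, V_ap, D_add, D_sub, D_mul,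
    D_neg, D_num, D_zero, D_ii, map_mul, map_add, map_sub, map_neg, map_zero, map_ofNat, h.tab]
  linear_combination (K.r^3*K.x^2*K.a^3*ii A*K.s*K.N*K.sg^4 + 3*K.r^2*K.x^3*K.a^4*K.s*K.N*K.sg^4 -
    2*K.r^2*K.x^2*K.a^3*K.M*ii A*K.s*K.N*K.sg^4 - 3*K.r^2*K.x*K.a^2*K.s*K.N*K.sg^3 -
    6*K.r*K.x^3*K.a^4*K.M*K.s*K.N*K.sg^4 + K.r*K.x^2*K.a^5*ii A*K.s*K.N*K.sg^4 +
    6*K.r*K.x*K.a^2*K.M*K.s*K.N*K.sg^3 + 3*K.x^3*K.a^6*K.s*K.N*K.sg^4 - 3*K.x*K.a^4*K.s*K.N*K.sg^3)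
    * ii_sq (A := A) + (-K.r^3*K.a*ii A*K.s*K.N*K.sg^3 - 3*K.r^2*K.x*K.a^2*K.s*K.N*K.sg^3 +
    2*K.r^2*K.a*K.M*ii A*K.s*K.N*K.sg^3 + 6*K.r*K.x*K.a^2*K.M*K.s*K.N*K.sg^3 - K.r*K.a^3*ii
    A*K.s*K.N*K.sg^3 - 3*K.x*K.a^4*K.s*K.N*K.sg^3) * h.hg

theorem r5 : K.et K.ta = K.ta * K.ta := by
  simp only [th, tp, et, ep, rh, rh2, ta, ta2, P2, z, zb, ee, De, W, V_ap, D_add, D_sub, D_mul,
    D_neg, D_num, D_zero, D_ii, map_mul, map_add, map_sub, map_neg, map_zero, map_ofNat, h.tab]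
  linear_combination (K.r^2*K.a^2*K.s^2*K.sg^3 - K.r*K.x*K.a^3*ii A*K.s^2*K.sg^3 +
    K.x^2*K.a^4*K.s^2*K.sg^3 - K.a^2*K.s^2*K.sg^2) * ii_sq (A := A) + (-K.a^2*K.s^2*K.sg^2) * h.hg

theorem r6 : K.ep K.ta = K.tp K.rh - K.rh * K.c K.rh2 + K.ta * K.c K.ta + K.P2 := by
  simp only [th, tp, et, ep, rh, rh2, ta, ta2, P2, z, zb, ee, De, W, V_ap, D_add, D_sub, D_mul,
    D_neg, D_num, D_zero, D_ii, map_mul, map_add, map_sub, map_neg, map_zero, map_ofNat, h.tab]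
  linear_combination (K.r^2*K.x^2*K.a^2*K.N*K.Ni*K.sg^3 + K.r^2*K.a^2*K.s*K.sb*K.sg^3 -
    2*K.r*K.x^2*K.a^2*K.M*K.N*K.Ni*K.sg^3 + 6*K.r*K.x^2*K.a^2*K.M*K.sg^3 + K.r*K.x*K.a^3*ii
    A*K.s*K.sb*K.sg^3 + 2*K.x^3*K.a^3*K.M*ii A*K.sg^3 - 3*K.x^2*K.a^4*K.s*K.sb*K.sg^3 +
    K.x^2*K.a^4*K.N*K.Ni*K.sg^3 - 2*K.x^2*K.a^2*K.sg^2 + K.a^2*K.s*K.sb*K.sg^2) * ii_sq (A := A) +
    (-K.r^2*K.a^2*K.sg^3 - 4*K.r*K.x*K.a^3*ii A*K.sg^3 + 3*K.x^2*K.a^4*K.sg^3 - K.a^2*K.sg^2) * h.hs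
    + (3*K.r^4*K.sg^3 + 4*K.r^3*K.x*K.a*ii A*K.sg^3 - 6*K.r^3*K.M*K.sg^3 - K.r^2*K.x^2*K.a^2*K.sg^3
    - 8*K.r^2*K.x*K.a*K.M*ii A*K.sg^3 + 3*K.r^2*K.a^2*K.sg^3 - 3*K.r^2*K.sg^2 +
    2*K.r*K.x^2*K.a^2*K.M*K.sg^3 + 4*K.r*K.x*K.a^3*ii A*K.sg^3 - 2*K.r*K.x*K.a*ii A*K.sg^2 +
    4*K.r*K.M*K.sg^2 - K.x^2*K.a^4*K.sg^3 + 2*K.x*K.a*K.M*ii A*K.sg^2 - K.a^2*K.sg^2) * h.hN +
    (3*K.r^2*K.sg^2 + 4*K.r*K.x*K.a*ii A*K.sg^2 - 4*K.r*K.M*K.sg^2 - 3*K.x^2*K.a^2*K.sg^2 -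
    2*K.x*K.a*K.M*ii A*K.sg^2 + 2*K.a^2*K.sg^2) * h.hg

theorem q1 : K.tp K.rh2 = K.rh2 * K.rh2 := by
  simp only [th, tp, et, ep, rh, rh2, ta, ta2, P2, z, zb, ee, De, W, V_ap, D_add, D_sub, D_mul,
    D_neg, D_num, D_zero, D_ii, map_mul, map_add, map_sub, map_neg, map_zero, map_ofNat, h.tab]
  linear_combination (-K.x^2*K.a^2*K.Ni^2*K.sg^2) * ii_sq (A := A) + (K.Ni^2*K.sg) * h.hg

theorem q3 : K.tp K.ta2 = (K.ta2 - K.c K.ta) * K.rh2 := by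
  simp only [th, tp, et, ep, rh, rh2, ta, ta2, P2, z, zb, ee, De, W, V_ap, D_add, D_sub, D_mul,
    D_neg, D_num, D_zero, D_ii, map_mul, map_add, map_sub, map_neg, map_zero, map_ofNat, h.tab]
  linear_combination (-3*K.r^2*K.x*K.a^2*K.sb*K.Ni*K.sg^3 + 3*K.r*K.x^2*K.a^3*ii
    A*K.sb*K.Ni*K.sg^3 + 3*K.x^3*K.a^4*ii A^2*K.sb*K.Ni*K.sg^3 - 3*K.x^3*K.a^4*K.sb*K.Ni*K.sg^3 +
    3*K.x*K.a^2*K.sb*K.Ni*K.sg^2) * ii_sq (A := A) + (-3*K.r*K.a*ii A*K.sb*K.Ni*K.sg^2 +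
    3*K.x*K.a^2*K.sb*K.Ni*K.sg^2) * h.hg

theorem q4 : K.ep K.rh2 = (K.rh2 - K.c K.rh2) * K.ta2 := by
  simp only [th, tp, et, ep, rh, rh2, ta, ta2, P2, z, zb, ee, De, W, V_ap, D_add, D_sub, D_mul,
    D_neg, D_num, D_zero, D_ii, map_mul, map_add, map_sub, map_neg, map_zero, map_ofNat, h.tab]
  linear_combination (4*K.r^2*K.x*K.a^2*K.sb*K.Ni*K.sg^3 + 5*K.r*K.x^2*K.a^3*ii A*K.sb*K.Ni*K.sg^3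
    + 2*K.x^3*K.a^4*ii A^2*K.sb*K.Ni*K.sg^3 + K.x^3*K.a^4*K.sb*K.Ni*K.sg^3 -
    K.x*K.a^2*K.sb*K.Ni*K.sg^2) * ii_sq (A := A) + (K.r*K.a*ii A*K.sb*K.Ni*K.sg^2 -
    K.x*K.a^2*K.sb*K.Ni*K.sg^2) * h.hg

theorem q5 : K.ep K.ta2 = K.ta2 * K.ta2 := by
  simp only [th, tp, et, ep, rh, rh2, ta, ta2, P2, z, zb, ee, De, W, V_ap, D_add, D_sub, D_mul,
    D_neg, D_num, D_zero, D_ii, map_mul, map_add, map_sub, map_neg, map_zero, map_ofNat, h.tab]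
  linear_combination (-2*K.r^4*K.a^2*K.sb^2*K.sg^4 - 7*K.r^3*K.x*K.a^3*ii A*K.sb^2*K.sg^4 -
    9*K.r^2*K.x^2*K.a^4*ii A^2*K.sb^2*K.sg^4 - 9*K.r^2*K.x^2*K.a^4*K.sb^2*K.sg^4 +
    2*K.r^2*K.a^2*K.sb^2*K.sg^3 - 5*K.r*K.x^3*K.a^5*ii A^3*K.sb^2*K.sg^4 - 4*K.r*K.x^3*K.a^5*ii
    A*K.sb^2*K.sg^4 + 4*K.r*K.x*K.a^3*ii A*K.sb^2*K.sg^3 - K.x^4*K.a^6*ii A^4*K.sb^2*K.sg^4 -
    2*K.x^4*K.a^6*ii A^2*K.sb^2*K.sg^4 - 7*K.x^4*K.a^6*K.sb^2*K.sg^4 + 2*K.x^2*K.a^4*ii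
    A^2*K.sb^2*K.sg^3 + 7*K.x^2*K.a^4*K.sb^2*K.sg^3) * ii_sq (A := A) + (2*K.r^2*K.a^2*K.sb^2*K.sg^3
    + 4*K.r*K.x*K.a^3*ii A*K.sb^2*K.sg^3 + 9*K.x^2*K.a^4*ii A^2*K.sb^2*K.sg^3 +
    7*K.x^2*K.a^4*K.sb^2*K.sg^3) * h.hg

theorem q6 : K.et K.ta2 = K.th K.rh2 - K.rh2 * K.c K.rh + K.ta2 * K.c K.ta2 + K.P2 := by
  simp only [th, tp, et, ep, rh, rh2, ta, ta2, P2, z, zb, ee, De, W, V_ap, D_add, D_sub, D_mul,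
    D_neg, D_num, D_zero, D_ii, map_mul, map_add, map_sub, map_neg, map_zero, map_ofNat, h.tab]
  linear_combination (-K.r^3*K.x*K.a^3*ii A*K.s*K.sb*K.sg^4 - K.r^2*K.x^2*K.a^4*ii
    A^2*K.s*K.sb*K.sg^4 - 5*K.r^2*K.x^2*K.a^4*K.s*K.sb*K.sg^4 + K.r^2*K.x^2*K.a^2*K.N*K.Ni*K.sg^3 -
    2*K.r^2*K.x^2*K.a^2*K.sg^3 + 2*K.r^2*K.a^2*K.s*K.sb*K.sg^3 + K.r*K.x^5*K.a^5*ii A*K.sg^4 +
    K.r*K.x^3*K.a^5*ii A^3*K.s*K.sb*K.sg^4 + 5*K.r*K.x^3*K.a^5*ii A*K.s*K.sb*K.sg^4 -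
    K.r*K.x^3*K.a^5*ii A*K.sg^4 + 2*K.r*K.x^3*K.a^3*ii A*K.sg^3 -
    2*K.r*K.x^2*K.a^2*K.M*K.N*K.Ni*K.sg^3 + 6*K.r*K.x^2*K.a^2*K.M*K.sg^3 + K.x^6*K.a^6*ii A^2*K.sg^4
    + 5*K.x^6*K.a^6*K.sg^4 + K.x^4*K.a^6*ii A^4*K.s*K.sb*K.sg^4 + 5*K.x^4*K.a^6*ii
    A^2*K.s*K.sb*K.sg^4 - K.x^4*K.a^6*ii A^2*K.sg^4 - 5*K.x^4*K.a^6*K.sg^4 + 2*K.x^4*K.a^4*ii
    A^2*K.sg^3 - 5*K.x^4*K.a^4*K.sg^3 + 2*K.x^3*K.a^3*K.M*ii A*K.sg^3 - 2*K.x^2*K.a^4*ii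
    A^2*K.s*K.sb*K.sg^3 + K.x^2*K.a^4*K.N*K.Ni*K.sg^3 + 3*K.x^2*K.a^4*K.sg^3) * ii_sq (A := A) +
    (-4*K.r^3*K.x*K.a^3*ii A*K.sg^4 + K.r^2*K.x^2*K.a^4*ii A^2*K.sg^4 + 5*K.r^2*K.x^2*K.a^4*K.sg^4 -
    2*K.r^2*K.a^2*K.sg^3 - K.r*K.x^3*K.a^5*ii A^3*K.sg^4 - 5*K.r*K.x^3*K.a^5*ii A*K.sg^4 -
    K.x^4*K.a^6*ii A^4*K.sg^4 - 5*K.x^4*K.a^6*ii A^2*K.sg^4 + 2*K.x^2*K.a^4*ii A^2*K.sg^3) * h.hs +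
    (3*K.r^4*K.sg^3 + 4*K.r^3*K.x*K.a*ii A*K.sg^3 - 6*K.r^3*K.M*K.sg^3 - K.r^2*K.x^2*K.a^2*K.sg^3 -
    8*K.r^2*K.x*K.a*K.M*ii A*K.sg^3 + 3*K.r^2*K.a^2*K.sg^3 - 3*K.r^2*K.sg^2 +
    2*K.r*K.x^2*K.a^2*K.M*K.sg^3 + 4*K.r*K.x*K.a^3*ii A*K.sg^3 - 2*K.r*K.x*K.a*ii A*K.sg^2 +
    4*K.r*K.M*K.sg^2 - K.x^2*K.a^4*K.sg^3 + 2*K.x*K.a*K.M*ii A*K.sg^2 - K.a^2*K.sg^2) * h.hN +
    (3*K.r^2*K.sg^2 + 4*K.r*K.x^3*K.a^3*ii A*K.sg^3 - 4*K.r*K.x*K.a^3*ii A*K.sg^3 + 2*K.r*K.x*K.a*ii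
    A*K.sg^2 - 4*K.r*K.M*K.sg^2 - K.x^4*K.a^4*ii A^2*K.sg^3 - 5*K.x^4*K.a^4*K.sg^3 + K.x^2*K.a^4*ii
    A^2*K.sg^3 + 5*K.x^2*K.a^4*K.sg^3 - 2*K.x*K.a*K.M*ii A*K.sg^2 + K.a^2*K.sg^2) * h.hg

theorem th_z : K.th K.z = K.rh * K.z := by
  simp only [th, tp, et, ep, rh, rh2, ta, ta2, P2, z, zb, ee, De, W, V_ap, D_add, D_sub, D_mul,
    D_neg, D_num, D_zero, D_ii, map_mul, map_add, map_sub, map_neg, map_zero, map_ofNat, h.tab]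
  linear_combination (K.r^2*K.x^2*K.a^2*K.N*K.sg^3 - 2*K.r*K.x^2*K.a^2*K.M*K.N*K.sg^3 +
    K.x^2*K.a^4*K.N*K.sg^3) * ii_sq (A := A) + (-K.r^2*K.N*K.sg^2 + 2*K.r*K.M*K.N*K.sg^2 -
    K.a^2*K.N*K.sg^2) * h.hg

theorem tp_z : K.tp K.z = K.rh2 * K.z := by
  simp only [th, tp, et, ep, rh, rh2, ta, ta2, P2, z, zb, ee, De, W, V_ap, D_add, D_sub, D_mul,
    D_neg, D_num, D_zero, D_ii, map_mul, map_add, map_sub, map_neg, map_zero, map_ofNat, h.tab]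
  linear_combination (-K.x^2*K.a^2*K.Ni*K.sg^2) * ii_sq (A := A) + (K.Ni*K.sg) * h.hg

theorem et_z : K.et K.z = K.ta * K.z := by
  simp only [th, tp, et, ep, rh, rh2, ta, ta2, P2, z, zb, ee, De, W, V_ap, D_add, D_sub, D_mul,
    D_neg, D_num, D_zero, D_ii, map_mul, map_add, map_sub, map_neg, map_zero, map_ofNat, h.tab]
  linear_combination (-2*K.x^3*K.a^4*K.s*K.sg^3 + 2*K.x*K.a^2*K.s*K.sg^2) * ii_sq (A := A) +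
    (2*K.x*K.a^2*K.s*K.sg^2) * h.hg

theorem ep_z : K.ep K.z = K.ta2 * K.z := by
  simp only [th, tp, et, ep, rh, rh2, ta, ta2, P2, z, zb, ee, De, W, V_ap, D_add, D_sub, D_mul,
    D_neg, D_num, D_zero, D_ii, map_mul, map_add, map_sub, map_neg, map_zero, map_ofNat, h.tab]
  linear_combination (3*K.r^2*K.x*K.a^2*K.sb*K.sg^3 + 3*K.r*K.x^2*K.a^3*ii A*K.sb*K.sg^3 +
    K.x^3*K.a^4*ii A^2*K.sb*K.sg^3 + K.x^3*K.a^4*K.sb*K.sg^3 - K.x*K.a^2*K.sb*K.sg^2) * ii_sq (A :=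
    A) + (K.r*K.a*ii A*K.sb*K.sg^2 - K.x*K.a^2*K.sb*K.sg^2) * h.hg


theorem c_z : K.c K.z = K.zb := by
  simp only [th, tp, et, ep, rh, rh2, ta, ta2, P2, z, zb, ee, De, W, V_ap, D_add, D_sub, D_mul,
    D_neg, D_num, D_zero, D_ii, map_mul, map_add, map_sub, map_neg, map_zero, map_ofNat, h.tab]
  ring
theorem c_zb : K.c K.zb = K.z := by rw [← h.c_z, h.cc]
theorem z_ze : K.z * (K.r - ii A * K.a * K.x) = 1 := by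
  simp only [z]
  linear_combination h.hg - K.sg * K.a * K.a * K.x * K.x * ii_sq (A := A)

theorem c_th (f : A) : K.c (K.th f) = K.th (K.c f) := by
  rw [th, h.c_V]
  simp only [th, tp, et, ep, rh, rh2, ta, ta2, P2, z, zb, ee, De, W, V_ap, D_add, D_sub, D_mul,
    D_neg, D_num, D_zero, D_ii, map_mul, map_add, map_sub, map_neg, map_zero, map_ofNat, h.tab]
  ring
theorem c_tp (f : A) : K.c (K.tp f) = K.tp (K.c f) := by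
  rw [tp, h.c_V]
  simp only [th, tp, et, ep, rh, rh2, ta, ta2, P2, z, zb, ee, De, W, V_ap, D_add, D_sub, D_mul,
    D_neg, D_num, D_zero, D_ii, map_mul, map_add, map_sub, map_neg, map_zero, map_ofNat, h.tab]
  ring
theorem c_et (f : A) : K.c (K.et f) = K.ep (K.c f) := by
  rw [et, h.c_V]
  simp only [th, tp, et, ep, rh, rh2, ta, ta2, P2, z, zb, ee, De, W, V_ap, D_add, D_sub, D_mul,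
    D_neg, D_num, D_zero, D_ii, map_mul, map_add, map_sub, map_neg, map_zero, map_ofNat, h.tab]
  ring
theorem c_ep (f : A) : K.c (K.ep f) = K.et (K.c f) := by
  apply h.cinj; rw [h.cc, h.c_et, h.cc]

theorem H_V (e1 e2 e3 e4 e5 e6 f : A) : K.H (K.V e1 e2 e3 e4 e5 e6 f) =
    K.V e1 e2 e3 e4 e5 e6 (K.H f) +
      K.V (K.H e1) (K.H e2) (K.H e3 - e3) (K.H e4 + e4) (K.H e5) (K.H e6) f := by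
  simp only [V_ap, D_add, D_mul, h.H_T, h.H_R, h.H_P, h.H_Q, h.B_H]
  ring

theorem H_th (f : A) : K.H (K.th f) = K.th (K.H f) + K.th f := by
  rw [th, h.H_V, add_right_inj]
  simp only [th, tp, et, ep, rh, rh2, ta, ta2, P2, z, zb, ee, De, W, V_ap, D_add, D_sub, D_mul,
    D_neg, D_num, D_zero, D_ii, map_mul, map_add, map_sub, map_neg, map_zero, map_ofNat, h.tab]
  ring
theorem H_tp (f : A) : K.H (K.tp f) = K.tp (K.H f) + -K.tp f := by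
  rw [tp, h.H_V, add_right_inj]
  simp only [th, tp, et, ep, rh, rh2, ta, ta2, P2, z, zb, ee, De, W, V_ap, D_add, D_sub, D_mul,
    D_neg, D_num, D_zero, D_ii, map_mul, map_add, map_sub, map_neg, map_zero, map_ofNat, h.tab]
  ring
theorem H_et (f : A) : K.H (K.et f) = K.et (K.H f) + K.et f := by
  rw [et, h.H_V, add_right_inj]
  simp only [th, tp, et, ep, rh, rh2, ta, ta2, P2, z, zb, ee, De, W, V_ap, D_add, D_sub, D_mul,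
    D_neg, D_num, D_zero, D_ii, map_mul, map_add, map_sub, map_neg, map_zero, map_ofNat, h.tab]
  ring
theorem H_ep (f : A) : K.H (K.ep f) = K.ep (K.H f) + -K.ep f := by
  rw [ep, h.H_V, add_right_inj]
  simp only [th, tp, et, ep, rh, rh2, ta, ta2, P2, z, zb, ee, De, W, V_ap, D_add, D_sub, D_mul,
    D_neg, D_num, D_zero, D_ii, map_mul, map_add, map_sub, map_neg, map_zero, map_ofNat, h.tab]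
  ring

theorem wts : K.H K.rh = K.rh ∧ K.B K.rh = K.rh ∧ K.H K.ta = K.ta ∧ K.B K.ta = -K.ta ∧
    K.H K.rh2 = -K.rh2 ∧ K.B K.rh2 = -K.rh2 ∧ K.H K.ta2 = -K.ta2 ∧ K.B K.ta2 = K.ta2 ∧
    K.H K.P2 = 0 ∧ K.B K.P2 = 0 ∧ K.H K.z = 0 ∧ K.B K.z = 0 := by
  simp only [th, tp, et, ep, rh, rh2, ta, ta2, P2, z, zb, ee, De, W, V_ap, D_add, D_sub, D_mul,
    D_neg, D_num, D_zero, D_ii, map_mul, map_add, map_sub, map_neg, map_zero, map_ofNat, h.tab]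
  refine ⟨?_, ?_, ?_, ?_, ?_, ?_, ?_, ?_, ?_, ?_, ?_, ?_⟩ <;> ring

omit h in
theorem D_P2 (D : Der A) (u : A) (hM : D K.M = 0) (hz : D K.z = u * K.z) :
    D K.P2 = 3 * u * K.P2 := by
  simp only [P2, D_neg, D_mul, D_num, hM, hz]
  ring

theorem V_M (e1 e2 e3 e4 e5 e6 : A) : K.V e1 e2 e3 e4 e5 e6 K.M = 0 := by
  simp only [V_ap, h.tab]; ring
theorem V_a (e1 e2 e3 e4 e5 e6 : A) : K.V e1 e2 e3 e4 e5 e6 K.a = 0 := by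
  simp only [V_ap, h.tab]; ring

theorem half1 : K.kerr.Half where
  cc := h.cc
  calg := h.calg
  c_th := h.c_th
  c_et := h.c_et
  c_H := h.c_H
  H_Hb f := (h.B_H f).symm
  H_th := h.H_th
  H_et := h.H_et
  H_ka := by simp [kerr]
  Hb_ka := by simp [kerr]
  H_si := by simp [kerr]
  Hb_si := by simp [kerr]
  H_rh := h.wts.1
  Hb_rh := h.wts.2.1
  H_ta := h.wts.2.2.1
  Hb_ta := h.wts.2.2.2.1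
  H_P0 := by simp [kerr]
  Hb_P0 := by simp [kerr]
  H_P1 := by simp [kerr]
  Hb_P1 := by simp [kerr]
  H_P2 := h.wts.2.2.2.2.2.2.2.2.1
  Hb_P2 := h.wts.2.2.2.2.2.2.2.2.2.1
  th_tp f := by
    simp only [kerr, GHP.pr, Derivation.neg_apply, D_neg, D_zero, map_zero, map_neg]
    linear_combination h.th_tp f
  th_et f := by
    simp only [kerr, GHP.pr, Derivation.neg_apply, D_neg, D_zero, map_zero, map_neg]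
    linear_combination h.th_et f
  et_ep f := by
    simp only [kerr, GHP.pr, Derivation.neg_apply, D_neg, D_zero, map_zero, map_neg]
    linear_combination h.et_ep f
  r1 := by
    simp only [kerr, GHP.pr, Derivation.neg_apply, D_neg, D_zero, map_zero, map_neg]
    linear_combination h.r1
  r2 := by simp [kerr]
  r3 := by
    simp only [kerr, GHP.pr, Derivation.neg_apply, D_neg, D_zero, map_zero, map_neg]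
    linear_combination h.r3
  r4 := by
    simp only [kerr, GHP.pr, Derivation.neg_apply, D_neg, D_zero, map_zero, map_neg]
    linear_combination h.r4
  r5 := by
    simp only [kerr, GHP.pr, Derivation.neg_apply, D_neg, D_zero, map_zero, map_neg]
    linear_combination h.r5
  r6 := by
    simp only [kerr, GHP.pr, Derivation.neg_apply, D_neg, D_zero, map_zero, map_neg]
    linear_combination h.r6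
  b1 := by simp [kerr]
  b2 := by
    simp only [kerr, GHP.pr, Derivation.neg_apply, D_neg, D_zero, map_zero, map_neg]
    linear_combination D_P2 K.th _ (h.V_M _ _ _ _ _ _) h.th_z
  b3 := by
    simp only [kerr, GHP.pr, Derivation.neg_apply, D_neg, D_zero, map_zero, map_neg]
    linear_combination -D_P2 K.ep _ (h.V_M _ _ _ _ _ _) h.ep_z
  b4 := by simp [kerr]

theorem half2 : K.kerr.pr.Half where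
  cc := h.cc
  calg := h.calg
  c_th := h.c_tp
  c_et := h.c_ep
  c_H f := by
    simp only [kerr, GHP.pr, Derivation.neg_apply, D_neg, D_zero, map_zero, map_neg]
    rw [h.c_H]
  H_Hb f := by
    simp only [kerr, GHP.pr, Derivation.neg_apply, D_neg, D_zero, map_zero, map_neg]
    rw [h.B_H]
  H_th f := by
    simp only [kerr, GHP.pr, Derivation.neg_apply, D_neg, D_zero, map_zero, map_neg]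
    linear_combination -h.H_tp f
  H_et f := by
    simp only [kerr, GHP.pr, Derivation.neg_apply, D_neg, D_zero, map_zero, map_neg]
    linear_combination -h.H_ep f
  H_ka := by simp [kerr, GHP.pr]
  Hb_ka := by simp [kerr, GHP.pr]
  H_si := by simp [kerr, GHP.pr]
  Hb_si := by simp [kerr, GHP.pr]
  H_rh := by
    simp only [kerr, GHP.pr, Derivation.neg_apply, D_neg, D_zero, map_zero, map_neg]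
    linear_combination -h.wts.2.2.2.2.1
  Hb_rh := by
    simp only [kerr, GHP.pr, Derivation.neg_apply, D_neg, D_zero, map_zero, map_neg]
    linear_combination -h.wts.2.2.2.2.2.1
  H_ta := by
    simp only [kerr, GHP.pr, Derivation.neg_apply, D_neg, D_zero, map_zero, map_neg]
    linear_combination -h.wts.2.2.2.2.2.2.1
  Hb_ta := by
    simp only [kerr, GHP.pr, Derivation.neg_apply, D_neg, D_zero, map_zero, map_neg]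
    linear_combination -h.wts.2.2.2.2.2.2.2.1
  H_P0 := by simp [kerr, GHP.pr]
  Hb_P0 := by simp [kerr, GHP.pr]
  H_P1 := by simp [kerr, GHP.pr]
  Hb_P1 := by simp [kerr, GHP.pr]
  H_P2 := by
    simp only [kerr, GHP.pr, Derivation.neg_apply, D_neg, D_zero, map_zero, map_neg]
    linear_combination -h.wts.2.2.2.2.2.2.2.2.1
  Hb_P2 := by
    simp only [kerr, GHP.pr, Derivation.neg_apply, D_neg, D_zero, map_zero, map_neg]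
    linear_combination -h.wts.2.2.2.2.2.2.2.2.2.1
  th_tp f := by
    simp only [kerr, GHP.pr, Derivation.neg_apply, D_neg, D_zero, map_zero, map_neg]
    linear_combination -h.th_tp f
  th_et f := by
    simp only [kerr, GHP.pr, Derivation.neg_apply, D_neg, D_zero, map_zero, map_neg]
    linear_combination h.tp_ep f
  et_ep f := by
    simp only [kerr, GHP.pr, Derivation.neg_apply, D_neg, D_zero, map_zero, map_neg]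
    linear_combination -h.et_ep f
  r1 := by
    simp only [kerr, GHP.pr, Derivation.neg_apply, D_neg, D_zero, map_zero, map_neg]
    linear_combination h.q1
  r2 := by simp [kerr, GHP.pr]
  r3 := by
    simp only [kerr, GHP.pr, Derivation.neg_apply, D_neg, D_zero, map_zero, map_neg]
    linear_combination h.q3
  r4 := by
    simp only [kerr, GHP.pr, Derivation.neg_apply, D_neg, D_zero, map_zero, map_neg]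
    linear_combination h.q4
  r5 := by
    simp only [kerr, GHP.pr, Derivation.neg_apply, D_neg, D_zero, map_zero, map_neg]
    linear_combination h.q5
  r6 := by
    simp only [kerr, GHP.pr, Derivation.neg_apply, D_neg, D_zero, map_zero, map_neg]
    linear_combination h.q6
  b1 := by simp [kerr, GHP.pr]
  b2 := by
    simp only [kerr, GHP.pr, Derivation.neg_apply, D_neg, D_zero, map_zero, map_neg]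
    linear_combination D_P2 K.tp _ (h.V_M _ _ _ _ _ _) h.tp_z
  b3 := by
    simp only [kerr, GHP.pr, Derivation.neg_apply, D_neg, D_zero, map_zero, map_neg]
    linear_combination -D_P2 K.et _ (h.V_M _ _ _ _ _ _) h.et_z
  b4 := by simp [kerr, GHP.pr]

/-- Kerr solves the vacuum GHP equations. -/
theorem kerr_is : K.kerr.Is := ⟨h.half1, h.half2⟩

end Is
end KC
end Vale.Agent.P354XR
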