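import Vale.Agent.P354XD.Fun
import Vale.Agent.P354XE.Defs
import Vale.Agent.P354XR.Met
import Vale.Agent.P354XR.Su

/-!
The Kerr metric in ingoing coordinates as a family of germs on the chart (t, r, xi1, xi2).
-/

set_option linter.unusedSimpArgs false

open scoped ContDiff
open Set Filter Topology Complex

namespace Vale.Agent.P354XR

open Vale.Agent.P354n (R4)
open Vale.Agent.P354RC (bs)
open Vale.Agent.P354XG Vale.Agent.P354XG.Geo Vale.Agent.P354XD
open Vale.Agent.P354XE (gin xs rd dr dq kf)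
open Vale.Agent.P354I (dT dP rnd Sg)

section alg
variable {A : Type*} [CommRing A] [Algebra ℂ A] {K : Hp A}

/-- The form sin^2 d(phi) on the coordinate fields. -/
noncomputable def qv (K : Hp A) : Vec A := ![0, -(K.ri * K.om 2), K.ri * K.om 1, 0]

theorem qf_c (h : K.Is) (a M sg : A) (b : Fin 4) :
    (kk K ⟨a, M, sg, 1, 0⟩).qf (c3 K ⟨a, M, sg, 1, 0⟩ b) (c4 K ⟨a, M, sg, 1, 0⟩ b) = qv K b := by
  have e : ∀ j : Fin 3, Om K 2 (ww K j) = hf A * ii A * (K.kc.s * wb K j - K.kc.sb * wm K j) :=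
    fun j => by rw [Om_eq h, wm_two, wb_two]; simp only [tw h j]; ring
  obtain ⟨e2, e0, e1⟩ := Om_ww h 2
  rw [e] at e0 e1 e2
  have s : (kk K ⟨a, M, sg, 1, 0⟩).s = K.kc.s := rfl
  have sb : (kk K ⟨a, M, sg, 1, 0⟩).sb = K.kc.sb := rfl
  have f : hf A * ii A * (K.kc.s * K.mub b - K.kc.sb * K.mu b) = ![0, -K.om 2, K.om 1, 0] b := by
    fin_cases b
    exacts [by simp [Hp.mu, Hp.mub], e0, e1, e2]
  have g : qv K b = K.ri * ![0, -K.om 2, K.om 1, 0] b := by fin_cases b <;> simp [qv]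
  simp only [KC.qf, c3, c4, s, sb, g]
  linear_combination K.ri * f

theorem gK_eq (h : K.Is) (a M sg : A) (b d : Fin 4) : gK K ⟨a, M, sg, 1, 0⟩ b d = hf A *
    (-(Hp.e0 A b * Hp.e0 A d) + K.om b * K.om d - a * (K.om b * qv K d + qv K b * K.om d) +
      (K.z 1 * K.z 1 + a * a * K.om 3 * K.om 3) * (K.ri * K.ri * ((if b = d then 1 else 0) -
        Hp.e0 A b * Hp.e0 A d - K.om b * K.om d)) + a * a * qv K b * qv K d +
      2 * M * K.z 1 * sg * (Hp.e0 A b + K.om b - a * qv K b) *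
        (Hp.e0 A d + K.om d - a * qv K d)) := by
  rw [gK, KC.gB, qf_c h, qf_c h, ← h.cmpl b d]
  simp only [kk, Hp.kc, c1, c3, c4]
  have o : K.om 3 = (K.z 2 * K.z 4 - K.z 3 * K.z 5) * K.Ni := rfl
  rw [← o]
  linear_combination hf A * hf A * (K.z 1 * K.z 1 + a * a * K.om 3 * K.om 3) * K.ri * K.ri *
    (K.mu b * K.mub d + K.mub b * K.mu d) * two_hf (A := A)

end alg

variable {J : Type} (G : Filter (J × E6)) [Loc G]

/-- The filter lives in r > 0, xi ≠ 0. -/
def Pos : Prop := ∀ᶠ p in G, 0 < p.2.2.1 ∧ p.2.2.2 ≠ 0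

/-- The parameters of the family of Kerr metrics (M j, a j) in the chart v = t + r. -/
noncomputable def pm (M a : J → ℝ) : Pm (Sm G) where
  a := cst fun j => a j
  M := cst fun j => M j
  sg := Ring.inverse ((hp G).z 1 * (hp G).z 1 + (cst fun j => a j) * (cst fun j => a j) *
    (hp G).kc.x * (hp G).kc.x)
  h1 := 1
  j1 := 0

variable {G}

omit [Loc G] in
theorem Pos.off (h : Pos G) : Off G := h.mono fun _ e => ⟨e.1.ne', e.2⟩

/-- The direction of the point. -/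
noncomputable def oc (x : E6) : Fin 4 → ℝ :=
  ![0, (pj x).2.1 / x.2.1, (pj x).2.2.1 / x.2.1, (pj x).2.2.2 / x.2.1]

theorem rs_cst (c : J → ℂ) : Rs (cst c : Sm G) fun p => c p.1 := rs_mk (smF_const c)

theorem rs_om (h : Off G) (b : Fin 4) : Rs ((hp G).om b) fun p => (oc p.2 b : ℂ) := by
  have e : (hp G).om b = (hp G).ri * ((hp G).co b - (hp G).z 0 * Hp.e0 _ b) := by
    rw [Hp.co]; linear_combination -(hp G).om b * (hp_is h).hr
  have e0 : Rs (Hp.e0 (Sm G) b) fun _ => if b = 0 then 1 else 0 := by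
    fin_cases b
    exacts [rs_one, rs_zero, rs_zero, rs_zero]
  rw [e]
  refine ((rs_ri h).mul ((rs_co h b).sub ((rs_z 0).mul e0))).congr (Eventually.of_forall fun p => ?_)
  fin_cases b <;> simp [oc, zc, P354RC.cv, div_eq_inv_mul]
  simp [pj]

theorem rd_pj {x : E6} (h : 0 < x.2.1) (h' : x.2.2 ≠ 0) : rd (pj x) = x.2.1 := by
  have n := (nq_pos h').ne'
  rw [rd, EuclideanSpace.norm_eq, Real.sqrt_eq_iff_mul_self_eq (by positivity) h.le]
  simp only [xs, pj, Fin.sum_univ_three, Real.norm_eq_abs, sq_abs]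
  simp
  field_simp
  simp only [nq, normSq_apply]
  ring

theorem sg_pos {x : E6} (h : 0 < x.2.1) (a : ℝ) :
    0 < x.2.1 * x.2.1 + a * a * oc x 3 * oc x 3 := by
  nlinarith [mul_self_nonneg (a * oc x 3), mul_pos h h]

theorem rs_Sg (h : Off G) (a : J → ℝ) : Rs ((hp G).z 1 * (hp G).z 1 +
    (cst fun j => a j) * (cst fun j => a j) * (hp G).kc.x * (hp G).kc.x) fun p =>
    ((p.2.2.1 * p.2.2.1 + a p.1 * a p.1 * oc p.2 3 * oc p.2 3 : ℝ) : ℂ) :=
  (((rs_z 1).mul (rs_z 1)).add ((((rs_cst _).mul (rs_cst _)).mul (rs_om h 3)).mul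
    (rs_om h 3))).congr (Eventually.of_forall fun p => by simp [zc])

theorem pm_is (h : Pos G) (M a : J → ℝ) : (pm G M a).Is (hp G) where
  ca := (rs_cst _).cj.ext (rs_cst _) (Eventually.of_forall fun _ => conj_ofReal _)
  cM := (rs_cst _).cj.ext (rs_cst _) (Eventually.of_forall fun _ => conj_ofReal _)
  ch := map_one _
  cj := map_zero _
  da i := by simp [pm, hp_d, pd_cst]
  dM i := by simp [pm, hp_d, pd_cst]
  dh i _ := D_one _
  dj i _ := D_zero _
  hg := Ring.inverse_mul_cancel _ ((rs_Sg h.off a).unit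
    (h.mono fun p e => ofReal_ne_zero.2 (sg_pos e.1 (a p.1)).ne'))

theorem rs_sg (h : Pos G) (M a : J → ℝ) : Rs (pm G M a).sg fun p =>
    (((p.2.2.1 * p.2.2.1 + a p.1 * a p.1 * oc p.2 3 * oc p.2 3 : ℝ) : ℂ))⁻¹ :=
  (rs_Sg h.off a).inv (h.mono fun p e => ofReal_ne_zero.2 (sg_pos e.1 (a p.1)).ne')

/-- The components of the metric at a point. -/
theorem gc_gin {x : E6} (h : 0 < x.2.1) (h' : x.2.2 ≠ 0) (M a : ℝ) (b d : Fin 4) (e q : Fin 4 → ℝ)
    (he : e = ![1, 0, 0, 0]) (hq : q = ![0, -(x.2.1⁻¹ * oc x 2), x.2.1⁻¹ * oc x 1, 0]) :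
    gc (gin M a) b d (pj x) = -(e b * e d) + oc x b * oc x d - a * (oc x b * q d + q b * oc x d) +
      (x.2.1 * x.2.1 + a * a * oc x 3 * oc x 3) * (x.2.1⁻¹ * x.2.1⁻¹ *
        ((if b = d then 1 else 0) - e b * e d - oc x b * oc x d)) + a * a * q b * q d +
      2 * M * x.2.1 * (x.2.1 * x.2.1 + a * a * oc x 3 * oc x 3)⁻¹ * (e b + oc x b - a * q b) *
        (e d + oc x d - a * q d) := by
  have n : ‖xs (pj x)‖ = x.2.1 := rd_pj h h'
  have r := h.ne'
  have e1 : ∀ b, dT (xs (pj x)) (xs (bs b)) = x.2.1⁻¹ * oc x b := fun b => by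
    rw [dT, n]
    fin_cases b <;> simp [xs, bs, oc, PiLp.inner_apply, Fin.sum_univ_three] <;> field_simp
  have e2 : ∀ b, dq (pj x) (bs b) = q b := fun b => by
    rw [dq, dP, n, hq]
    fin_cases b <;> simp [xs, bs, oc] <;> field_simp
  have e3 : ∀ b, (bs b).1 = e b := fun b => by
    rw [he]; fin_cases b <;> simp [bs]
  have e4 : inner ℝ (xs (bs b)) (xs (bs d)) = (if b = d then 1 else 0) - e b * e d := by
    rw [he, PiLp.inner_apply, Fin.sum_univ_three]
    fin_cases b <;> fin_cases d <;> simp [xs, bs]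
  have e5 : Sg a x.2.1 (xs (pj x)) = x.2.1 * x.2.1 + a * a * oc x 3 * oc x 3 := by
    rw [Sg, n]; simp [xs, oc]; field_simp
  simp only [gc, gin, kf, dr, rnd, rd, n, e1, e2, e3, e4, e5]
  field_simp

theorem gin_eq (h : Pos G) (M a : J → ℝ) (b d : Fin 4) :
    (geo G (1 / 2) fun j => gin (M j) (a j)).g b d = gK (hp G) (pm G M a) b d := by
  have o := h.off
  have e0 : ∀ b, Rs (Hp.e0 (Sm G) b) fun _ => ((![1, 0, 0, 0] : Fin 4 → ℝ) b : ℂ) := fun b => by
    fin_cases b <;> simp [Hp.e0, rs_one, rs_zero]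
  have q : ∀ b, Rs (qv (hp G) b) fun p => ((![0, -(p.2.2.1⁻¹ * oc p.2 2), p.2.2.1⁻¹ * oc p.2 1, 0] :
      Fin 4 → ℝ) b : ℂ) := fun b => by
    fin_cases b
    · simpa [qv] using rs_zero
    · simpa [qv, zc] using ((rs_ri o).mul (rs_om o 2)).neg
    · simpa [qv, zc] using (rs_ri o).mul (rs_om o 1)
    · simpa [qv] using rs_zero
  have dl : Rs (if b = d then (1 : Sm G) else 0) fun _ => if b = d then 1 else 0 := by
    split_ifs
    exacts [rs_one, rs_zero]
  have R := (rs_alg (G := G) (1 / 2)).mul (((((((e0 b).mul (e0 d)).neg.add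
    ((rs_om o b).mul (rs_om o d))).sub ((rs_cst fun j => a j).mul (((rs_om o b).mul (q d)).add
    ((q b).mul (rs_om o d))))).add ((rs_Sg o a).mul (((rs_ri o).mul (rs_ri o)).mul
    ((dl.sub ((e0 b).mul (e0 d))).sub ((rs_om o b).mul (rs_om o d)))))).add
    ((((rs_cst fun j => a j).mul (rs_cst fun j => a j)).mul (q b)).mul (q d))).add
    (((((((rs_num 2).mul (rs_cst fun j => M j)).mul (rs_z 1)).mul (rs_sg h M a)).mul
    (((e0 b).add (rs_om o b)).sub ((rs_cst fun j => a j).mul (q b))))).mul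
    (((e0 d).add (rs_om o d)).sub ((rs_cst fun j => a j).mul (q d)))))
  have R' : Rs (gK (hp G) (pm G M a) b d) fun p =>
      ((1 / 2 : ℝ) : ℂ) * (gc (gin (M p.1) (a p.1)) b d (pj p.2) : ℂ) := by
    rw [pm, gK_eq (hp_is o)]
    refine R.congr (h.mono fun p e => ?_)
    simp only [gc_gin e.1 e.2 _ _ b d _ _ rfl rfl]
    split_ifs <;> simp [zc]
  have R2 : Rs (2 * gK (hp G) (pm G M a) b d) fun p =>
      (gc (gin (M p.1) (a p.1)) b d (pj p.2) : ℂ) :=
    ((rs_num 2).mul R').congr (Eventually.of_forall fun p => by simp)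
  exact ((rs_alg _).mul (rs_gm R2.sm)).ext R' EventuallyEq.rfl

/-- The GHP structure of the principal frame of the family of Kerr metrics. -/
theorem ghp_gin (h : Pos G) (M a : J → ℝ)
    (hv : ∀ᶠ p in G, VacAt (gin (M p.1) (a p.1)) (pj p.2)) :
    (frK (hp G) (pm G M a)).WN (geo G (1 / 2) fun j => gin (M j) (a j)) ∧
    (frK (hp G) (pm G M a)).ghp (geo G (1 / 2) fun j => gin (M j) (a j)) =
      (kk (hp G) (pm G M a)).kerr := by
  have e : (geo G (1 / 2) fun j => gin (M j) (a j)) = (hp G).geo (gK (hp G) (pm G M a))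
      fun b d f => pb G fun j => Gc (gin (M j) (a j)) b d f := by
    rw [← show _ = gK (hp G) (pm G M a) from funext₂ (gin_eq h M a)]; rfl
  have hS := geo_is h.off (1 / 2) (g := fun j => gin (M j) (a j)) hv
  rw [e] at hS ⊢
  exact ⟨frK_wn (hp_is h.off) (pm_is h M a) _, ghp_frK (hp_is h.off) (pm_is h M a) hS⟩

end Vale.Agent.P354XR
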