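import Vale.Agent.P354XR.Raw

/-!
The family is natural, and constants which do not depend on the data.
-/

namespace Vale.Agent.P354XR

open Vale.Agent.P354XG Vale.Agent.P354XD Vale.Agent.P354XF TensorProduct

section
variable {A A' : Type*} [CommRing A] [Algebra ℂ A] [CommRing A'] [Algebra ℂ A'] {ι ι' : Type}
  {b : Brg A ι} {b' : Brg A' ι'} {π : A →ₐ[ℂ] A'}

/-- The map of the big rings. -/
noncomputable def rgm (π : A →ₐ[ℂ] A') : Duo.Rg A →ₐ[ℂ] Duo.Rg A' :=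
  Algebra.TensorProduct.map (π.prodMap π) (π.prodMap π)

theorem rgm_ap (p q : A × A) : rgm π (p ⊗ₜ q) = (π p.1, π p.2) ⊗ₜ (π q.1, π q.2) := rfl

theorem e1_rgm (P : Duo.Rg A) : Duo.e1 A' (rgm π P) = π (Duo.e1 A P) := by
  induction P using TensorProduct.induction_on with
  | zero => simp
  | add p p' k1 k2 => simp only [map_add, k1, k2]
  | tmul p q => rw [rgm_ap, Duo.e1_ap, Duo.e1_ap, map_mul]

theorem rgm_io (x : A) : rgm π (Duo.io A x) = Duo.io A' (π x) := by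
  rw [Duo.io_ap, Duo.io_ap, rgm_ap, Prod.fst_one, Prod.snd_one, map_one]
  rfl

theorem rgm_dl (hZ : ∀ c f, π (fr b.T.G c f) = fr b'.T.G c (π f))
    (hY : ∀ c f, π (b.Y c f) = b'.Y c (π f)) (c : Fin 6) (P : Duo.Rg A) :
    rgm π (b.U.dl c P) = b'.U.dl c (rgm π P) := by
  induction P using TensorProduct.induction_on with
  | zero => simp
  | add p p' k1 k2 => simp only [map_add, k1, k2]
  | tmul p q =>
    simp only [Duo.dl, tD_ap, map_add, rgm_ap, prD_ap]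
    exact congrArg₂ (· + ·) (congrArg (· ⊗ₜ[ℂ] _) (Prod.ext (hZ c _) (hY c _)))
      (congrArg (_ ⊗ₜ[ℂ] ·) (Prod.ext (hY c _) (hY c _)))

theorem fm_map (hZ : ∀ c f, π (fr b.T.G c f) = fr b'.T.G c (π f))
    (hY : ∀ c f, π (b.Y c f) = b'.Y c (π f)) (hc : ∀ a c, π (b.cX a c) = b'.cX a c) {σ : Bool}
    (hw : π (b.wi σ) = b'.wi σ) (hp : π (b.T.ps σ) = b'.T.ps σ) (J : List (Fin 5)) :
    π (b.fm σ J) = b'.fm σ J := by
  rw [Brg.fm, Brg.fm, Duo.F, Duo.F, ← e1_rgm]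
  refine congrArg _ ?_
  unfold Duo.Fr
  induction J with
  | nil => simp only [Brg.XW, Brg.e0, Op.ev, map_mul, rgm_io, rgm_ap, hw, hp, map_zero, Prod.fst_one,
      Prod.snd_one, map_one, Prod.mk_one_one]
  | cons a J ih => simp only [Brg.XW, Brg.ev_XO, map_sum, map_mul, rgm_io, rgm_dl hZ hY, ih, hc]

end

section pi
variable {J : Type*} {A : J → Type*} [∀ j, CommRing (A j)] [∀ j, Algebra ℂ (A j)]
  (R : ∀ j, Raw (A j)) (j : J)

theorem Raw.X_pi (a : Fin 5) (f : ∀ j, A j) : (Raw.pi R).brg.X a f j = (R j).brg.X a (f j) :=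
  XX_pi _ _ a f j

theorem Raw.wdX_pi (w : List (Fin 5)) (f : ∀ j, A j) :
    wd (Raw.pi R).brg.X w f j = wd (R j).brg.X w (f j) := by
  induction w with
  | nil => rfl
  | cons a w ih => exact (Raw.X_pi R j a _).trans (congrArg _ ih)

theorem Raw.cX_pi (a : Fin 5) (c : Fin 6) : (Raw.pi R).brg.cX a c j = (R j).brg.cX a c := by
  simp only [Raw.brg, xc, Finset.sum_apply, Pi.mul_apply]
  refine Finset.sum_congr rfl fun e _ => congrArg₂ (· * ·) ?_ ?_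
  · fin_cases a <;> fin_cases e <;> rfl
  · fin_cases e <;> fin_cases c <;> rfl

theorem Raw.yX_pi (c : Fin 6) (a : Fin 5) : (Raw.pi R).brg.yX c a j = (R j).brg.yX c a := by
  have e := fun e => ye_pi (fun j => (R j).K) (fun j => (R j).p) c e j
  fin_cases a <;>
    simp only [Raw.brg, Raw.pi, yc, Fin.reduceFinMk, Matrix.cons_val, Pi.mul_apply, Pi.sub_apply, e] <;>
    rfl

theorem Raw.ps_pi (σ : Bool) : (Raw.pi R).T.ps σ j = (R j).T.ps σ := by cases σ <;> rfl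

theorem Raw.fm_pi (σ : Bool) (w : List (Fin 5)) : (Raw.pi R).brg.fm σ w j = (R j).brg.fm σ w :=
  fm_map (b := (Raw.pi R).brg) (b' := (R j).brg) (π := Pi.evalAlgHom ℂ A j)
    (fun c f => fr_piG _ c f j) (fun c f => fr_pi _ _ c f j)
    (Raw.cX_pi R j) (by cases σ <;> rfl) (Raw.ps_pi R j σ) w

theorem Raw.del_pi (a a' : Fin 5) : (Raw.pi R).brg.del a a' j = (R j).brg.del a a' := by
  simp only [Brg.del, Brg.E, Brg.zX, Pi.neg_apply, Pi.mul_apply, Pi.add_apply, Pi.sub_apply,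
    Finset.sum_apply, Raw.yX_pi]
  rfl

theorem Raw.Q_pi (f : ∀ j, A j) : (Raw.pi R).brg.Q f j = (R j).brg.Q (f j) := by
  simp only [Brg.Q, Finset.sum_apply, Pi.mul_apply, Raw.del_pi, Raw.X_pi]

theorem Raw.P_pi (s k : ℂ) (f : ∀ j, A j) : (Raw.pi R).brg.P s k f j = (R j).brg.P s k (f j) := by
  simp only [Brg.P, P354XF.PP, PL, List.map, List.sum_cons, List.sum_nil, Pi.add_apply,
    Pi.mul_apply, Raw.wdX_pi]
  rfl

end pi

/-- All data over small rings. -/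
structure Uv : Type 1 where
  A : Type
  cr : CommRing A
  al : Algebra ℂ A
  R : Raw A

instance (j : Uv) : CommRing j.A := j.cr
instance (j : Uv) : Algebra ℂ j.A := j.al

/-- The universal data. -/
noncomputable def univ : Raw (∀ j : Uv, j.A) := Raw.pi fun j => j.R

/-- The index of given data. -/
abbrev Raw.ix {A : Type} [CommRing A] [Algebra ℂ A] (R : Raw A) : Uv := ⟨A, ‹_›, ‹_›, R⟩

/-- The points of given data as points of the universal data. -/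
def Raw.up {A : Type} [CommRing A] [Algebra ℂ A] (R : Raw A) (φ : A →ₐ[ℂ] ℂ) :
    (∀ j : Uv, j.A) →ₐ[ℂ] ℂ := φ.comp (Pi.evalAlgHom ℂ (fun j : Uv => j.A) R.ix)

theorem Raw.up_ap {A : Type} [CommRing A] [Algebra ℂ A] (R : Raw A) (φ : A →ₐ[ℂ] ℂ)
    (f : ∀ j : Uv, j.A) : R.up φ f = φ (f R.ix) := rfl

theorem Raw.pt_up {A : Type} [CommRing A] [Algebra ℂ A] (R : Raw A) {L N : ℕ} {K0 mu ds : ℝ}
    {al : ℕ → ℝ} {φ : A →ₐ[ℂ] ℂ} (h : R.brg.U.Pt L N K0 mu ds al φ) :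
    univ.brg.U.Pt L N K0 mu ds al (R.up φ) := Raw.pt_pi (fun j : Uv => j.R) R.ix h

variable {j n l : ℕ} {t : ∀ j : Uv, j.A}

/-- Constants which do not depend on the data. -/
theorem uni_Q (h : univ.brg.U.Qa j n l t) (K0 : ℝ) : ∃ C, 0 ≤ C ∧
    ∀ (A : Type) [CommRing A] [Algebra ℂ A] (R : Raw A) L N mu ds al φ,
      R.brg.U.Pt L N K0 mu ds al φ → l ≤ L → n ≤ N → ‖φ (t R.ix)‖ ≤ C * ((ds + mu) * al j) :=
  (h.bd K0).imp fun _ k => ⟨k.1, fun _ _ _ R L N mu ds al _ p => k.2 L N mu ds al _ (R.pt_up p)⟩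

theorem uni_M (h : univ.brg.U.Ma j n 1 l t) (K0 : ℝ) : ∃ C, 0 ≤ C ∧
    ∀ (A : Type) [CommRing A] [Algebra ℂ A] (R : Raw A) L N mu ds al φ,
      R.brg.U.Pt L N K0 mu ds al φ → l ≤ L → n ≤ N → ‖φ (t R.ix)‖ ≤ C * al j :=
  (h.bd K0).imp fun _ k => ⟨k.1, fun _ _ _ R L N mu ds al _ p => k.2 L N mu ds al _ (R.pt_up p)⟩

section
variable {A : Type} [CommRing A] [Algebra ℂ A] (R : Raw A)

theorem Raw.fm_ix (σ : Bool) (w : List (Fin 5)) : univ.brg.fm σ w R.ix = R.brg.fm σ w :=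
  Raw.fm_pi (fun j : Uv => j.R) R.ix σ w
theorem Raw.del_ix (a a' : Fin 5) : univ.brg.del a a' R.ix = R.brg.del a a' :=
  Raw.del_pi (fun j : Uv => j.R) R.ix a a'
theorem Raw.X_ix (a : Fin 5) (f : ∀ j : Uv, j.A) : univ.brg.X a f R.ix = R.brg.X a (f R.ix) :=
  Raw.X_pi (fun j : Uv => j.R) R.ix a f
theorem Raw.wdX_ix (w : List (Fin 5)) (f : ∀ j : Uv, j.A) :
    wd univ.brg.X w f R.ix = wd R.brg.X w (f R.ix) := Raw.wdX_pi (fun j : Uv => j.R) R.ix w f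
theorem Raw.wdT_ix (w : List (Fin 6)) (f : ∀ j : Uv, j.A) :
    wd (fr univ.T.G) w f R.ix = wd (fr R.T.G) w (f R.ix) := Raw.wdT_pi (fun j : Uv => j.R) R.ix w f
theorem Raw.P_ix (s k : ℂ) (f : ∀ j : Uv, j.A) : univ.brg.P s k f R.ix = R.brg.P s k (f R.ix) :=
  Raw.P_pi (fun j : Uv => j.R) R.ix s k f
theorem Raw.Q_ix (f : ∀ j : Uv, j.A) : univ.brg.Q f R.ix = R.brg.Q (f R.ix) :=
  Raw.Q_pi (fun j : Uv => j.R) R.ix f
theorem Raw.kf_ix (i : KI) : univ.brg.kf i R.ix = R.brg.kf i := Raw.kf_pi (fun j : Uv => j.R) R.ix i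
theorem Raw.val_ix (x : Gn) : univ.T.val x R.ix = R.T.val x := Raw.valT_pi (fun j : Uv => j.R) R.ix x
theorem Raw.ps_ix (σ : Bool) : univ.T.ps σ R.ix = R.T.ps σ := Raw.ps_pi (fun j : Uv => j.R) R.ix σ

end

end Vale.Agent.P354XR
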