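import Vale.Agent.P354XR.Es2
import Vale.Agent.P354XO.Fam

/-!
Homogeneity on cones, and the comparison of the jets of P0 and P4 with the family.
-/

open scoped ComplexConjugate
open Complex (exp ofRealCLM)

namespace Vale.Agent.P354XR

open Vale.Agent.P354XG Vale.Agent.P354XD Vale.Agent.P354XF
open Vale.Agent.P354Z Vale.Agent.P354BO Vale.Agent.P354XI Filter
open Vale.Agent.P354XO (sc sc_ap ev_euler)

section hom
variable {O : Set E6} {ι : Type} [Fintype ι] {X : ι → P354XG.Der (Sm (on O))} {x : E6}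

/-- The homogeneity. -/
theorem fv_hom (c : Cone O) {u : Sm (on O)} {m n : ℂ} (hH : (hp _).H u = m • u)
    (hB : (hp _).B u = n • u) (hx : x ∈ O) (w : ℂ) :
    fv u (sc (exp w) x) = exp (m * w + n * conj w) * fv u x := by
  obtain ⟨k, hk⟩ : ∃ k, k = m * w + n * conj w := ⟨_, rfl⟩
  have d1 : ∀ (u : ℂ) (s : ℝ), HasDerivAt (fun s : ℝ => exp (s * u)) (exp (s * u) * u) s :=
    fun u s => by simpa using ((ofRealCLM.hasDerivAt (x := s)).mul_const u).cexp
  have d2 : ∀ s : ℝ, HasDerivAt (fun s : ℝ => exp (s * -k) * fv u (sc (exp (s * w)) x)) 0 s := by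
    intro s
    have o : sc (exp (s * w)) x ∈ O := c.hom x hx _ (Complex.exp_ne_zero _)
    have d3 : HasDerivAt (fun s : ℝ => sc (exp (s * w)) x)
        (0, 0, w • (sc (exp (s * w)) x).2.2) s := by
      have := (hasDerivAt_const s x.1).prodMk ((hasDerivAt_const s x.2.1).prodMk
        ((d1 w s).smul_const x.2.2))
      rwa [mul_comm, mul_smul] at this
    have := (d1 (-k) s).mul
      (((fv_sm c.op u o).differentiableAt (by simp)).hasFDerivAt.comp_hasDerivAt s d3)
    rw [(fv_near c.op u o).fderiv_eq, ev_on (ev_euler (hH.trans (Algebra.smul_def _ _))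
      (hB.trans (Algebra.smul_def _ _))) o w, ← hk, ← fv_in u o] at this
    exact this.congr_deriv (by simp only [Function.comp]; ring)
  have := is_const_of_deriv_eq_zero (fun s => (d2 s).differentiableAt) (fun s => (d2 s).deriv) 1 0
  simp only [Complex.ofReal_one, one_mul, Complex.ofReal_zero, zero_mul, Complex.exp_zero] at this
  rw [← hk, show fv u x = fv u (sc 1 x) by simp [sc_ap], ← this, ← mul_assoc, ← Complex.exp_add,
    add_neg_cancel, Complex.exp_zero, one_mul]

theorem q2_hom (c : Cone O) {α β : ι → ℂ}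
    (hH : ∀ a f, (hp _).H (X a f) = X a ((hp _).H f) + α a • X a f)
    (hB : ∀ a f, (hp _).B (X a f) = X a ((hp _).B f) + β a • X a f) (h2 : ∀ a, ‖α a + β a‖ ≤ 2)
    (hx : x ∈ O) {w : ℝ} (hw : |w| ≤ 1) : ∀ (n : ℕ) (u : Sm (on O)) (p q : ℂ) (k : ℝ),
      (hp _).H u = p • u → (hp _).B u = q • u → ‖p + q‖ ≤ k →
      q2 X (sc (exp w) x) n u ≤ Real.exp (k + 2 * n) ^ 2 * q2 X x n u
  | 0, u, p, q, k, h1, h3, h4 => by
    rw [q2, q2, fv_hom c h1 h3 hx, norm_mul, mul_pow, Complex.conj_ofReal, ← add_mul]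
    gcongr
    refine (Complex.norm_exp_le_exp_norm _).trans (Real.exp_le_exp.2 ?_)
    rw [norm_mul, Complex.norm_real, Real.norm_eq_abs]
    simpa using mul_le_mul h4 hw (abs_nonneg _) ((norm_nonneg _).trans h4)
  | n + 1, u, p, q, k, h1, h3, h4 => by
    rw [q2_succ, q2_succ, mul_add, Finset.mul_sum]
    refine add_le_add ((q2_hom c hH hB h2 hx hw n u p q (k + 2) h1 h3 (by linarith)).trans_eq ?_)
      (Finset.sum_le_sum fun a _ => (q2_hom c hH hB h2 hx hw n _ (p + α a) (q + β a) (k + 2)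
        (by rw [hH, h1, Derivation.map_smul, add_smul])
        (by rw [hB, h3, Derivation.map_smul, add_smul]) ?_).trans_eq ?_)
    · push_cast; ring_nf
    · rw [add_add_add_comm]
      exact norm_add_le_of_le h4 (h2 a)
    · push_cast; ring_nf

theorem nq_sc (z : ℂ) (x : E6) : nq (sc z x) = Complex.normSq z * nq x := by
  simp [nq, sc_ap, mul_add]

/-- The unit spinor of a point of the shell. -/
theorem an_unit (a : An x) : ∃ w : ℝ, |w| ≤ 1 ∧ nq (sc (exp (-w : ℝ)) x) = 1 ∧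
    sc (exp w) (sc (exp (-w : ℝ)) x) = x := by
  have p : 0 < nq x := by linarith [a.1]
  refine ⟨Real.log (nq x) / 2, abs_le.2 ⟨?_, ?_⟩, ?_, ?_⟩
  · have := Real.one_sub_inv_le_log_of_pos p
    have : (nq x)⁻¹ ≤ 2 := inv_le_of_inv_le₀ two_pos (by linarith [a.1])
    linarith
  · linarith [Real.log_le_sub_one_of_pos p, a.2]
  · rw [nq_sc, ← Complex.ofReal_exp, Complex.normSq_ofReal, ← Real.exp_add, ← neg_add, add_halves,
      Real.exp_neg, Real.exp_log p, inv_mul_cancel₀ p.ne']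
  · simp [sc_ap, smul_smul, ← Complex.exp_add]

theorem q2_le {b : ℝ} : ∀ (n : ℕ) (f : Sm (on O)), (∀ w : List ι, w.length ≤ n →
    ‖fv (wd X w f) x‖ ^ 2 ≤ b) → q2 X x n f ≤ (1 + Fintype.card ι) ^ n * b
  | 0, f, h => by simpa [q2, wd] using h [] le_rfl
  | n + 1, f, h => by
    have e := Finset.sum_le_card_nsmul Finset.univ (fun a => q2 X x n (X a f)) _ fun a _ =>
      q2_le (b := b) n (X a f) fun w hw => by
        have := h (w ++ [a]) (by simpa using hw)
        rwa [Brg.wd_append] at this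
    rw [Finset.card_univ, nsmul_eq_mul] at e
    rw [q2_succ, pow_succ]
    linarith [q2_le n f fun w hw => h w (by omega)]

end hom

section alg
variable {A : Type} [CommRing A] [Algebra ℂ A]

/-- The data are determined by the chart, the parameters and the frame. -/
theorem Raw.ext' {R R' : Raw A} (hK : R.K = R'.K) (hp : R.p = R'.p) (hG : R.T.G = R'.T.G) :
    R = R' := by
  have e : R.k = R'.k := congrArg₂ kk hK hp
  have s : R.sg = R'.sg := funext₂ fun b c => sub_eq_zero.1 (R.kp.is.indep6 R.kp.free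
    (u := fun c => R.sg b c - R'.sg b c) (fun f => by
      have := R'.ZY b f
      rw [← hG, R.ZY, ← hK, ← hp] at this
      simp only [sub_mul, Finset.sum_sub_distrib]
      exact sub_eq_zero.2 (add_left_cancel this)) c)
  have k : ∀ R : Raw A, (1 + Matrix.of R.ta) * (1 + Matrix.of R.sg) = 1 := fun R => by
    rw [add_mul, mul_add, mul_add, one_mul, one_mul, mul_one]
    ext b c
    have := R.ta_eq b c
    simp only [Matrix.add_apply, Matrix.mul_apply, Matrix.of_apply]
    linear_combination this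
  have t : R.ta = R'.ta :=
    add_left_cancel (a := (1 : Matrix _ _ A)) (Matrix.left_inv_eq_left_inv (k R) (s ▸ k R'))
  have m : R.Mi = R'.Mi := by
    have := R'.kp.M
    rw [← hp] at this
    linear_combination R'.Mi * R.kp.M - R.Mi * this
  have i : R.T.Pi = R'.T.Pi := by
    have := R'.T.inv
    rw [← hG] at this
    linear_combination R'.T.Pi * R.T.inv - R.T.Pi * this
  obtain ⟨_, _, _, ⟨_, _, _, _, _, _⟩, _, _, _, _, _, _, _, _⟩ := R
  obtain ⟨_, _, _, ⟨_, _, _, _, _, _⟩, _, _, _, _, _, _, _, _⟩ := R'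
  simp only at hK hp hG s t m i
  subst hK hp hG s t m i
  rfl

/-- Words in six letters from words in four letters. -/
theorem six_uni (m : ℕ) : ∀ᶠ C in atTop, ∀ (A : Type) [CommRing A] [Algebra ℂ A] (R : Raw A) φ x,
    Eb R.T φ m x → ∀ s, ∀ w : List (Fin 6), w.length ≤ m →
      ‖φ (wd (fr R.T.G) w (R.T.pp s))‖ ≤ C * x :=
  (six_le univ.T m).mono fun _ h _ _ _ R φ x hx s w hw => by
    have e : ∀ s, univ.T.pp s R.ix = R.T.pp s := fun s => by cases s <;> rfl
    have := h (R.up φ) x (fun s w hw => by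
      rw [Raw.up_ap, Raw.z4_ix, e]; exact hx s w hw) s w hw
    rwa [Raw.up_ap, Raw.wdT_ix, e] at this

theorem wd_z4 (T : Tv A) (w : List (Fin 4)) (f : A) : wd (z4 T) w f = wd (fr T.G) (w.map h4) f := by
  induction w with
  | nil => rfl
  | cons a w ih => exact congrArg _ ih

end alg

namespace Nr
variable {c : P354Z.Cs} {E : Est} (h : Nr c E) {x : E6}
include h

theorem raw_ext {R : Raw (Sm (on E.O1))} (hK : R.K = kT E.O1 c.M E.M E.a)
    (hp : R.p = pT E.O1 c.M E.M E.a) (hG : R.T.G = E.G1) : R = h.raw := Raw.ext' hK hp hG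

theorem eta_hom (hx : x ∈ E.O1) {w : ℝ} (hw : |w| ≤ 1) (n : ℕ) :
    E.eta n (sc (exp w) x) ≤ Real.exp (4 + 2 * n) ^ 2 * E.eta n x := by
  have e : ∀ a, f4 E.G1 a = fr h.tv.G (h4 a) := fun a => by fin_cases a <;> rfl
  have k := q2_hom (X := f4 E.G1) h.co (α := fun a => lam false (h4 a))
    (β := fun a => lam true (h4 a)) (fun a f => by rw [e]; exact Brg.V_fr h.tv false _ f)
    (fun a f => by rw [e]; exact Brg.V_fr h.tv true _ f)
    (fun a => by fin_cases a <;> simp [lam, h4] <;> norm_num) hx hw n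
  rw [Est.eta, Est.eta, mul_add]
  exact add_le_add
    (k _ 4 0 4 (h.g1.H_P0.trans (by simp [Algebra.smul_def, map_ofNat]))
      (h.g1.Hb_P0.trans (by simp)) (by simp))
    (k _ (-4) 0 4 (h.g1.H_P4.trans (by simp [Algebra.smul_def, map_ofNat]))
      (h.g1.Hb_P4.trans (by simp)) (by simp))

theorem eta_An (hx : x ∈ E.O1) (a : An x) : ∃ y ∈ E.O1, nq y = 1 ∧ y.1 = x.1 ∧ y.2.1 = x.2.1 ∧
    ∀ n, E.eta n x ≤ Real.exp (4 + 2 * n) ^ 2 * E.eta n y ∧
      E.eta n y ≤ Real.exp (4 + 2 * n) ^ 2 * E.eta n x := by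
  obtain ⟨w, h1, h2, h3⟩ := an_unit a
  have o : sc (exp (-w : ℝ)) x ∈ E.O1 := h.co.hom x hx _ (Complex.exp_ne_zero _)
  exact ⟨_, o, h2, rfl, rfl, fun n => ⟨(congrArg _ h3).ge.trans (h.eta_hom o h1 n),
    h.eta_hom hx (by rwa [abs_neg]) n⟩⟩

end Nr

theorem eta_nn (E : Est) (n : ℕ) (x : E6) : 0 ≤ E.eta n x :=
  add_nonneg (q2_nonneg _ _ _ _) (q2_nonneg _ _ _ _)

theorem eta_mono (E : Est) {n m : ℕ} (h : n ≤ m) (x : E6) : E.eta n x ≤ E.eta m x :=
  add_le_add (q2_mono _ _ h _) (q2_mono _ _ h _)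

/-- The level m of the two families. -/
noncomputable def lvl {O : Set E6} (R : Raw (Sm (on O))) (m : ℕ) (x : E6) : ℝ :=
  ∑ b, ∑ J ∈ P354XT.words m, ‖fv (R.brg.fm b J) x‖ ^ 2

/-- The jets of P0 and P4 and the levels of the family bound each other. -/
theorem out_eta (t : ℕ) (C : ℝ) : ∀ᶠ C2 in atTop, ∀ (c : P354Z.Cs) (E : Est) (h : Nr c E) L d y
    (φ : Sm (on E.O1) →ₐ[ℂ] ℂ), (∀ F, φ F = fv F y) → h.raw.brg.Out t L C d φ → ∀ m ≤ t,
      E.eta m y ≤ C2 * lvl h.raw m y ∧ lvl h.raw m y ≤ C2 * E.eta m y := by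
  obtain ⟨C6, k, c6⟩ := ((ev_le t fun m _ => six_uni m).and (eventually_ge_atTop 0)).exists
  filter_upwards [eventually_ge_atTop (2 * 5 ^ t * C ^ 2),
    eventually_ge_atTop (2 * (P354XT.words t).card * (C * C6) ^ 2)] with C2 c1 c2 c E h L d y φ e o
    m hm
  have l0 : 0 ≤ lvl h.raw m y :=
    Finset.sum_nonneg fun _ _ => Finset.sum_nonneg fun _ _ => sq_nonneg _
  have e0 := eta_nn E m y
  constructor
  · have n : ∀ σ, h.raw.brg.Nb φ σ m √(lvl h.raw m y) := fun σ J hJ => by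
      rw [e]
      refine Real.le_sqrt_of_sq_le ((Finset.single_le_sum (f := fun J =>
        ‖fv (h.raw.brg.fm σ J) y‖ ^ 2) (fun _ _ => sq_nonneg _) (P354XT.mem_words.2 hJ)).trans ?_)
      exact Finset.single_le_sum (f := fun b => ∑ J ∈ P354XT.words m,
        ‖fv (h.raw.brg.fm b J) y‖ ^ 2) (fun _ _ => Finset.sum_nonneg fun _ _ => sq_nonneg _)
        (Finset.mem_univ σ)
    have j : ∀ i : Fin 6, lv i = 0 → q2 (f4 E.G1) y m (h.tv.sb i) ≤ 5 ^ t * (C ^ 2 * lvl h.raw m y) :=
      fun i hi => (q2_le m _ fun w hw => by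
        have := pow_le_pow_left₀ (norm_nonneg _)
          (o.jets m hm _ n i (w.map h4) (by rwa [hi, zero_add, List.length_map])) 2
        rwa [← wd_z4, e, mul_pow, Real.sq_sqrt l0, show z4 h.raw.brg.T = f4 E.G1 from
          funext fun a => by fin_cases a <;> rfl] at this).trans (mul_le_mul_of_nonneg_right
        ((pow_le_pow_right₀ (by norm_num) hm).trans_eq (by norm_num)) (by positivity))
    refine (add_le_add (j 0 rfl) (j 1 rfl)).trans ?_
    linarith [mul_le_mul_of_nonneg_right c1 l0]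
  · have b := k m hm _ h.raw φ _ (h.eb e (Real.sqrt_nonneg _) (Real.sq_sqrt e0).ge)
    have j : ∀ σ, ∑ J ∈ P354XT.words m, ‖fv (h.raw.brg.fm σ J) y‖ ^ 2 ≤
        (P354XT.words t).card * ((C * C6) ^ 2 * E.eta m y) := fun σ =>
      (Finset.sum_le_card_nsmul _ _ ((C * C6) ^ 2 * E.eta m y) fun J hJ => by
        have hJ := P354XT.mem_words.1 hJ
        have := pow_le_pow_left₀ (norm_nonneg _)
          (o.up σ J (hJ.trans hm) _ fun w hw => b (!σ) w (hw.trans hJ)) 2
        rwa [e, ← mul_assoc, mul_pow, Real.sq_sqrt e0] at this).trans (by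
        rw [nsmul_eq_mul]
        exact mul_le_mul_of_nonneg_right (Nat.cast_le.2 (Finset.card_le_card
          (P354XT.words_mono hm))) (by positivity))
    rw [lvl, Fintype.sum_bool]
    linarith [j true, j false, mul_le_mul_of_nonneg_right c2 e0]

end Vale.Agent.P354XR
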