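import Vale.Agent.P354XR.Es
import Vale.Agent.P354XF.Uni

/-!
The hypotheses of the family at the points of the near region.
-/

open scoped ComplexConjugate

namespace Vale.Agent.P354XR

open Vale.Agent.P354XG Vale.Agent.P354XD Vale.Agent.P354XF
open Vale.Agent.P354Z Vale.Agent.P354BO Vale.Agent.P354XI Filter

section alg
variable {A : Type} [CommRing A] [Algebra ℂ A] {K : Hp A} {p : Pm A} {Mi : A} {φ : A →ₐ[ℂ] ℂ}

theorem w_le (h : K.Is) (hc : ∀ f, φ (K.c f) = conj (φ f)) (j : Fin 3) :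
    ‖φ (ww K j)‖ ^ 2 ≤ 1 ∧ ‖φ (wm K j)‖ ^ 2 ≤ 2 ∧ ‖φ (wb K j)‖ ^ 2 ≤ 2 := by
  obtain ⟨p1, -, -, -, -, p6⟩ := pw h
  have k : ∀ {u v : Fin 3 → A} {b : ℝ}, (∀ j, K.c (u j) = v j) → φ (∑ j, u j * v j) = b →
      ‖φ (u j)‖ ^ 2 ≤ b := fun {u v b} e1 e2 => by
    simp only [map_sum, map_mul, ← e1, hc, Complex.mul_conj'] at e2
    exact (Finset.single_le_sum (f := fun j => ‖φ (u j)‖ ^ 2) (fun _ _ => sq_nonneg _)
      (Finset.mem_univ j)).trans_eq (by exact_mod_cast e2)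
  have m := k (u := wm K) (v := wb K) (b := 2) (fun j => h.c_mu _) (by rw [p6]; simp [map_ofNat])
  refine ⟨k (v := ww K) (fun j => h.c_om _) (by rw [p1]; simp), m, ?_⟩
  rwa [wb, ← h.c_mu, hc, Complex.norm_conj]

theorem inv_le {u v : A} (e : u * v = 1) {t B : ℝ} (hu : φ u = t) (h : 1 ≤ B * t) (hB : 0 ≤ B) :
    ‖φ v‖ ≤ B := by
  have := congrArg (‖φ ·‖) e
  simp only [map_mul, map_one, norm_mul, norm_one, hu, Complex.norm_real, Real.norm_eq_abs] at this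
  nlinarith [norm_nonneg (φ v), mul_le_mul_of_nonneg_left (le_abs_self t) hB]

/-- The functions of Kerr are bounded. -/
theorem kf_le (h : KP K p Mi) (hc : ∀ f, φ (K.c f) = conj (φ f)) {r n M a B : ℝ}
    (hr : φ (K.z 1) = r) (hn : φ K.N = n) (hM : φ p.M = M) (ha : φ p.a = a) (b : 2 ≤ B)
    (r1 : |r| ≤ B) (r2 : 1 ≤ B * r ^ 2) (n1 : 1 / 2 ≤ n) (n2 : n ≤ 2) (a1 : |a| ≤ B)
    (M1 : |M| ≤ B) (M2 : 1 ≤ B * M) (i : KI) : ‖φ (kf K p Mi i)‖ ≤ B := by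
  have s : ∀ {t : ℝ}, t ^ 2 ≤ 2 → t ≤ B := fun h => by nlinarith
  have w := fun j => w_le h.h hc j
  have e : ∀ {u} {t : ℝ}, φ u = t → |t| ≤ B → ‖φ u‖ ≤ B := fun e k => by
    rwa [e, Complex.norm_real]
  rcases i with i | ⟨i, j⟩
  · fin_cases i
    · exact e hr r1
    · exact s ((w 2).1.trans one_le_two)
    · exact s (t := ‖φ K.kc.s‖) (by simpa [wm_two] using (w 2).2.1)
    · exact s (t := ‖φ K.kc.sb‖) (by simpa [wb_two] using (w 2).2.2)
    · exact e hn (abs_le.2 ⟨by linarith, by linarith⟩)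
    · exact inv_le h.h.hN hn (by nlinarith) (by linarith)
    · refine inv_le ((mul_comm _ _).trans h.q.hg) (t := r ^ 2 + a ^ 2 * ‖φ K.kc.x‖ ^ 2) ?_
        (by nlinarith [mul_nonneg (sq_nonneg a) (sq_nonneg ‖φ K.kc.x‖)]) (by linarith)
      have x := hc K.kc.x
      rw [show K.c K.kc.x = _ from h.h.kc.c_x] at x
      simp only [map_add, map_mul, hr, ha, mul_assoc]
      nth_rw 2 [x]
      rw [Complex.mul_conj']
      push_cast
      ring
    · exact e ha a1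
    · exact e hM M1
    · exact inv_le h.M hM M2 (by linarith)
  · fin_cases i
    exacts [s ((w j).1.trans one_le_two), s (w j).2.1, s (w j).2.2]

end alg

section jets
variable {O : Set E6} {ι : Type} [Fintype ι] {X : ι → P354XG.Der (Sm (on O))} {x : E6}

theorem q2_comm {D : P354XG.Der (Sm (on O))} {C : ℝ} (hc : ∀ a f, X a (D f) = D (X a f))
    (h0 : ∀ f, q2 X x 0 (D f) ≤ C * q2 X x 1 f) : ∀ n f, q2 X x n (D f) ≤ C * q2 X x (n + 1) f
  | 0, f => h0 f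
  | n + 1, f => by
    rw [q2_succ, q2_succ X x (n + 1), mul_add, Finset.mul_sum]
    exact add_le_add (q2_comm hc h0 n f)
      (Finset.sum_le_sum fun a _ => by rw [hc]; exact q2_comm hc h0 n _)

theorem q2_wd (w : List ι) (f : Sm (on O)) : ‖fv (wd X w f) x‖ ^ 2 ≤ q2 X x w.length f := by
  have : ∀ n, q2 X x n (wd X w f) ≤ q2 X x (n + w.length) f := by
    induction w with
    | nil => exact fun _ => le_rfl
    | cons a w ih => exact fun n => (q2_der X x n a _).trans ((ih _).trans_eq (by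
        rw [List.length_cons, add_assoc, add_comm 1]))
  exact (this 0).trans_eq (by rw [zero_add])

variable {p : Pm (Sm (on O))}

/-- The letters T R P Q against the letters of the state. -/
theorem q2_b4 (h : (hp (on O)).Is) (q : p.Is (hp _)) (hx : x ∈ O) (a : Fin 4) (n : ℕ)
    (f : Sm (on O)) :
    q2 (lt (hp _) p) x n ((kk (hp _) p).b4 a f) ≤ 9 * q2 (lt (hp _) p) x (n + 1) f := by
  have k := kk_is h q
  have w := w_le (φ := evP ⟨x, hx⟩) h fun f => fv_cj f x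
  have o : ∀ f, ∀ u : Fin 3 → Sm (on O), (∀ j, ‖fv (u j) x‖ ^ 2 ≤ 2) →
      q2 (lt (hp _) p) x 0 (ii _ * ∑ j, u j * Om (hp _) j f) ≤ 9 * q2 (lt (hp _) p) x 1 f :=
    fun f u hu => by
    rw [ii, ← Algebra.smul_def, q2_smul, Complex.norm_I, one_pow, one_mul]
    refine (q2_sum _ x _ 0 _).trans ?_
    simp only [q2, fv_mul, norm_mul, mul_pow, Fin.sum_univ_three, Fin.sum_univ_five, lt,
      Matrix.cons_val, Finset.card_univ, Fintype.card_fin, Nat.cast_ofNat]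
    nlinarith [mul_le_mul_of_nonneg_right (hu 0) (sq_nonneg ‖fv (Om (hp _) 0 f) x‖),
      mul_le_mul_of_nonneg_right (hu 1) (sq_nonneg ‖fv (Om (hp _) 1 f) x‖),
      mul_le_mul_of_nonneg_right (hu 2) (sq_nonneg ‖fv (Om (hp _) 2 f) x‖), sq_nonneg ‖fv f x‖,
      sq_nonneg ‖fv ((hp _).d 0 f) x‖, sq_nonneg ‖fv ((kk (hp _) p).R f) x‖,
      sq_nonneg ‖fv (Om (hp _) 0 f) x‖, sq_nonneg ‖fv (Om (hp _) 1 f) x‖,
      sq_nonneg ‖fv (Om (hp _) 2 f) x‖]
  have n9 := q2_nonneg (lt (hp _) p) x (n + 1) f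
  fin_cases a
  · exact (q2_der (lt (hp _) p) x n 0 f).trans (by linarith)
  · exact (q2_der (lt (hp _) p) x n 1 f).trans (by linarith)
  · refine q2_comm (D := (hp _).P) (fun a f => ?_) (fun f => ?_) n f
    · fin_cases a
      exacts [(k.P_T f).symm, (k.P_R f).symm, (Om_comm h 0 f).2.2.1.symm,
        (Om_comm h 1 f).2.2.1.symm, (Om_comm h 2 f).2.2.1.symm]
    · rw [P_Om h]
      exact o f _ fun j => (w j).2.2
  · refine q2_comm (D := (hp _).Q) (fun a f => ?_) (fun f => ?_) n f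
    · fin_cases a
      exacts [(k.Q_T f).symm, (k.Q_R f).symm, (Om_comm h 0 f).2.2.2.1.symm,
        (Om_comm h 1 f).2.2.2.1.symm, (Om_comm h 2 f).2.2.2.1.symm]
    · rw [Q_Om h, q2_neg]
      exact o f _ fun j => (w j).2.1

theorem q2_wb (h : (hp (on O)).Is) (q : p.Is (hp _)) (hx : x ∈ O) (w : List (Fin 4)) (n : ℕ)
    (f : Sm (on O)) : q2 (lt (hp _) p) x n (wd (kk (hp _) p).b4 w f) ≤
      9 ^ w.length * q2 (lt (hp _) p) x (n + w.length) f := by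
  induction w generalizing n with
  | nil => simp [wd]
  | cons a w ih =>
    refine (q2_b4 h q hx a n _).trans ((mul_le_mul_of_nonneg_left (ih _) (by norm_num)).trans_eq ?_)
    rw [List.length_cons, add_assoc, add_comm 1, pow_succ]
    ring

end jets

namespace Nr
variable {c : P354Z.Cs} {E : Est} (h : Nr c E) {y : E6} {φ : Sm (on E.O1) →ₐ[ℂ] ℂ} {m : ℝ} {n : ℕ}

theorem db (hy : y ∈ E.O1) (e : ∀ F, φ F = fv F y) (m0 : 0 ≤ m)
    (d : ∀ i, q2 (lt (P354XD.hp _) (E.p1 c)) y n (E.d1 c i) ≤ m ^ 2) :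
    h.raw.Db φ n (3 ^ n * m) := fun i w hw => by
  rcases h.raw_dd i with z | ⟨j, z⟩
  · rw [z, wd_zero, map_zero, norm_zero]
    positivity
  · rw [z, e, h.raw_k]
    refine (pow_le_pow_iff_left₀ (norm_nonneg _) (by positivity) two_ne_zero).1
      ((q2_wb h.hp h.p1 hy w 0 _).trans ?_)
    rw [zero_add, mul_pow, ← pow_mul, mul_comm n, pow_mul]
    exact mul_le_mul ((pow_le_pow_right₀ (by norm_num) hw).trans_eq (by norm_num))
      ((q2_mono _ _ hw _).trans (d j)) (q2_nonneg _ _ _ _) (by positivity)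

theorem eb (e : ∀ F, φ F = fv F y) (m0 : 0 ≤ m) (d : E.eta n y ≤ m ^ 2) : Eb h.raw.T φ n m :=
  fun s w hw => by
  rw [e, show z4 h.raw.T = f4 E.G1 from funext fun a => by fin_cases a <;> rfl]
  refine (pow_le_pow_iff_left₀ (norm_nonneg _) m0 two_ne_zero).1
    ((q2_wd w _).trans ((q2_mono _ _ hw _).trans (le_trans ?_ d)))
  cases s
  exacts [le_add_of_nonneg_right (q2_nonneg _ _ _ _), le_add_of_nonneg_left (q2_nonneg _ _ _ _)]

theorem cj (e : ∀ F, φ F = fv F y) (F : Sm (on E.O1)) : φ (h.raw.K.c F) = conj (φ F) := by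
  rw [e, e]; exact fv_cj F y

theorem kf (hy : y ∈ E.O1) (a : An y) (e : ∀ F, φ F = fv F y) {B : ℝ} (b : 2 ≤ B)
    (r1 : y.2.1 ≤ B) (r2 : 1 ≤ B * y.2.1 ^ 2) (M1 : E.M ≤ B) (M2 : 1 ≤ B * E.M) (i : KI) :
    ‖φ (h.raw.brg.kf i)‖ ≤ B := by
  refine kf_le h.raw.kp (h.cj e) (r := y.2.1) (n := nq y) (M := E.M) (a := E.a) ?_ ?_ ?_ ?_ b
    (by rwa [abs_of_pos (h.co.pos y hy).1]) r2 a.1 (by linarith [a.2]) (h.eq.par.1.le.trans M1)
    (by rwa [abs_of_pos h.Mp]) M2 i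
  · exact (e _).trans (fv_z 1 hy)
  · rw [show h.raw.K.N = _ from congrArg KC.N h.kk, e]
    exact (fv_in _ hy).trans (ev_on rs_N hy)
  · exact φ.commutes _
  · exact φ.commutes _

end Nr

/-- The hypotheses of the family at a point of the shell in r1 ≤ r ≤ rho. -/
theorem est_pq {M0 r1 : ℝ} (h0 : 0 < M0) (h1 : 0 < r1) (ρ : ℝ) (L N : ℕ) : ∀ᶠ C in atTop,
    ∀ (c : P354Z.Cs) (E : Est) (h : Nr c E), c.M = M0 → M0 / 2 ≤ E.M → ∀ y ∈ E.O1, An y →
      r1 ≤ y.2.1 → y.2.1 ≤ ρ → ∀ φ : Sm (on E.O1) →ₐ[ℂ] ℂ, (∀ F, φ F = fv F y) → ∀ m, 0 ≤ m →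
        (∀ i, q2 (lt (hp _) (E.p1 c)) y (L + 1) (E.d1 c i) ≤ m ^ 2) → E.eta (N / 2) y ≤ m ^ 2 →
          ∀ d, C * m ≤ d → d ≤ 1 → h.raw.brg.Pq L N C d φ := by
  obtain ⟨B, b1, b2, b3, b4, b5⟩ := ((eventually_ge_atTop 2).and ((eventually_ge_atTop ρ).and
    ((eventually_ge_atTop (r1 ^ 2)⁻¹).and ((eventually_ge_atTop (5 / 4 * M0)).and
      (eventually_ge_atTop (M0 / 2)⁻¹))))).exists
  obtain ⟨C0, k, c0⟩ := ((pq_uni L N B).and (eventually_ge_atTop 1)).exists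
  filter_upwards [eventually_ge_atTop (C0 * 3 ^ (L + 1))] with C hC c E h e0 e1 y hy a s1 s2 φ e m
    m0 d1 d2 d d3 d4
  have t : (1 : ℝ) ≤ 3 ^ (L + 1) := one_le_pow₀ (by norm_num)
  have u : C0 ≤ C := by nlinarith
  have v : C0 * (3 ^ (L + 1) * m) ≤ d := by nlinarith [mul_le_mul_of_nonneg_right hC m0]
  refine (k _ h.raw φ _ (fun F => by rw [h.cj e, Complex.norm_conj]) (h.kf hy a e b1 (s2.trans b2)
    ?_ (h.eq.par.2.trans (e0 ▸ b4)) ?_) (h.db hy e m0 d1) (fun s w hw =>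
      (h.eb e m0 d2 s w hw).trans (le_mul_of_one_le_left m0 t)) (v.trans d4)).mono le_rfl le_rfl u v
        d4 (d4.trans (c0.trans u))
  · exact (inv_mul_cancel₀ (pow_pos h1 2).ne').ge.trans
      (mul_le_mul b3 (pow_le_pow_left₀ h1.le s1 2) (by positivity) (by linarith))
  · exact (inv_mul_cancel₀ (half_pos h0).ne').ge.trans
      (mul_le_mul b5 e1 (by positivity) (by linarith))

/-- The inequalities for the family at a point of the shell in r1 ≤ r ≤ rho. -/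
theorem est_out {M0 r1 : ℝ} (h0 : 0 < M0) (h1 : 0 < r1) (ρ : ℝ) (t L : ℕ) (hL : 2 ≤ L) :
    ∀ᶠ C in atTop, ∀ (c : P354Z.Cs) (E : Est) (h : Nr c E), c.M = M0 → M0 / 2 ≤ E.M →
      ∀ y ∈ E.O1, An y → r1 ≤ y.2.1 → y.2.1 ≤ ρ → ∀ φ : Sm (on E.O1) →ₐ[ℂ] ℂ,
        (∀ F, φ F = fv F y) → ∀ m, 0 ≤ m →
        (∀ i, q2 (lt (hp _) (E.p1 c)) y (L + 1) (E.d1 c i) ≤ m ^ 2) →
          E.eta (t / 2 + 1) y ≤ m ^ 2 → ∀ d, C * m ≤ d → C * d ≤ 1 → h.raw.brg.Out t L C d φ := by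
  obtain ⟨K, k⟩ := (est_pq h0 h1 ρ L (t + 2)).exists
  filter_upwards [uni_out t L hL K, eventually_ge_atTop K, eventually_ge_atTop 1] with C o c1 c2 c E
    h e0 e1 y hy a s1 s2 φ e m m0 d1 d2 d d3 d4
  have d0 := (mul_nonneg (zero_le_one.trans c2) m0).trans d3
  exact o _ h.raw d φ (k c E h e0 e1 y hy a s1 s2 φ e m m0 d1 (by rwa [Nat.add_div_right _ two_pos])
    d ((mul_le_mul_of_nonneg_right c1 m0).trans d3) ((le_mul_of_one_le_left d0 c2).trans d4)) d4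

end Vale.Agent.P354XR
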