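import Vale.Agent.P354XR.Pt2
import Vale.Agent.P354BO.TwE

/-!
The near region of the state of the estimates as a transverse solution on the chart of Kerr.
-/

set_option linter.unusedSimpArgs false

namespace Vale.Agent.P354XR

open Vale.Agent.P354XG Vale.Agent.P354XG.Geo Vale.Agent.P354XD Vale.Agent.P354XF
open Vale.Agent.P354Z Vale.Agent.P354BO Vale.Agent.P354XI Submodule Set

section alg
variable {A : Type} [CommRing A] [Algebra ℂ A] {K : Hp A} {p : Pm A}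
  {g : Fin 4 → Fin 4 → A} {Γ : Fin 4 → Fin 4 → Fin 4 → A} {F : Fr A}

theorem ex_dif {Z Y : Fin 6 → P354XG.Der A} (h : ∀ b, Z b ∈ span A (range Y)) :
    ∃ s : Fin 6 → Fin 6 → A, ∀ b f, Z b f = Y b f + ∑ e, s b e * Y e f := by
  choose s hs using fun b =>
    (mem_span_range_iff_exists_fun A).1 (sub_mem (h b) (subset_span ⟨b, rfl⟩))
  refine ⟨s, fun b f => ?_⟩
  have := DFunLike.congr_fun (hs b) f
  simp only [Fin.sum_univ_six, Derivation.add_apply, Derivation.smul_apply, Derivation.sub_apply,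
    smul_eq_mul] at this ⊢
  linear_combination -this

theorem mem_of {D : P354XG.Der A} {Y : Fin 6 → P354XG.Der A} {W : Submodule A (P354XG.Der A)}
    (h : ∀ e, Y e ∈ W) {c : Fin 6 → A} (e : ∀ f, D f = ∑ b, c b * Y b f) : D ∈ W := by
  rw [show D = ∑ b, c b • Y b from Derivation.ext fun f => by
    simpa [Fin.sum_univ_six] using e f]
  exact sum_mem fun b _ => smul_mem _ _ (h b)

theorem V_cm (h : K.Is) (e1 e2 e3 e4 e5 e6 f : A) : K.kc.V e1 e2 e3 e4 e5 e6 f =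
    ∑ e, cm K p (K.kc.V e1 e2 e3 e4 e5 e6) e * (kk K p).bs e f := by
  obtain ⟨-, -, -, -, -, -, -, -, -, -, -, -, a, b, u, w⟩ := h.tab
  have n := h.hN
  have z : ∀ j, K.kc.V e1 e2 e3 e4 e5 e6 (K.z j) = ![e1, e2, e5 * K.z 2 - e3 * K.z 5,
      e3 * K.z 4 + e5 * K.z 3, e6 * K.z 4 - e4 * K.z 3, e4 * K.z 2 + e6 * K.z 5] j := fun j => by
    fin_cases j <;> simp [KC.V_ap, Hp.kc, h.dz, a, b, u, w] <;> ring
  rw [cm, ← KC.V_bs, kk_V, KC.V_ap, KC.V_ap]
  simp only [z, Matrix.cons_val, Hp.N] at n ⊢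
  linear_combination -(e3 * K.kc.P f + e4 * K.kc.Q f + e5 * K.kc.H f + e6 * K.kc.B f) * n

theorem act_kc (u : P354XG.Op A) : (K.geo g Γ).act u = K.kc.V (∑ a, u.X a * Hp.e0 A a)
    (∑ a, u.X a * K.om a) (∑ a, u.X a * (hf A * K.ri * K.mu a))
    (∑ a, u.X a * (hf A * K.ri * K.mub a)) u.a u.b := by
  ext f
  simp only [act_apply, Hp.geo, Hp.L_ap, KC.V_ap, Fin.sum_univ_four, Hp.kc]
  ring

/-- The components of the frame. -/
theorem f4_cm (h : K.Is) (b : Fin 4) (f : A) : fr (F.ghp (K.geo g Γ)) (h4 b) f =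
    ∑ e, cm K p (f4 (F.ghp (K.geo g Γ)) b) e * (kk K p).bs e f := by
  have : ∀ u, (K.geo g Γ).act u f = ∑ e, cm K p ((K.geo g Γ).act u) e * (kk K p).bs e f :=
    fun u => by rw [act_kc]; exact V_cm h _ _ _ _ _ _ f
  fin_cases b <;> exact this _

theorem kerr_V (b : Fin 6) : fr (kk K p).kerr b = (kk K p).V ((kk K p).ye b 0) ((kk K p).ye b 1)
    ((kk K p).ye b 2) ((kk K p).ye b 3) ((kk K p).ye b 4) ((kk K p).ye b 5) :=
  Derivation.ext fun f => by simp [KC.fr_ye, KC.V_ap, KC.bs, Fin.sum_univ_six]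

theorem k4_cm (h : K.Is) (b : Fin 4) (f : A) : fr (kk K p).kerr (h4 b) f =
    ∑ e, cm K p (f4 (kk K p).kerr b) e * (kk K p).bs e f := by
  rw [show f4 (kk K p).kerr b = fr (kk K p).kerr (h4 b) by fin_cases b <;> rfl, kerr_V, kk_V]
  exact V_cm h _ _ _ _ _ _ f

theorem ex_sg (h : K.Is) (q : p.Is K) (b : Fin 6) :
    fr (F.ghp (K.geo g Γ)) b ∈ span A (range (fr (kk K p).kerr)) := by
  rcases six b with ⟨a, rfl⟩ | ⟨v, rfl⟩
  · exact mem_of (fun e => mem_of (fun _ => subset_span ⟨_, rfl⟩) ((kk_is h q).bs_xe e)) (f4_cm h a)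
  · exact subset_span ⟨vt v, by cases v <;> rfl⟩

theorem ex_ta (h : K.Is) (s : (K.geo g Γ).Is) (W : F.WN (K.geo g Γ)) (b : Fin 6) :
    fr (kk K p).kerr b ∈ span A (range (fr (F.ghp (K.geo g Γ)))) := by
  have m : ∀ b, fr (F.ghp (K.geo g Γ)) b ∈ span A (range (fr (F.ghp (K.geo g Γ)))) :=
    fun b => subset_span ⟨b, rfl⟩
  have e : ∀ u : P354XG.Op A, (K.geo g Γ).act u ∈ span A (range (fr (F.ghp (K.geo g Γ)))) := by
    intro u
    let S := K.geo g Γ
    let t := S.hat F.l F.n F.m F.mb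
    refine mem_of m (c := ![-S.dot u.X F.n, -S.dot u.X F.l, S.dot u.X F.mb, S.dot u.X F.m,
      u.a + S.dot u.X F.n * (t F.l).a + S.dot u.X F.l * (t F.n).a - S.dot u.X F.mb * (t F.m).a -
        S.dot u.X F.m * (t F.mb).a,
      u.b + S.dot u.X F.n * (t F.l).b + S.dot u.X F.l * (t F.n).b - S.dot u.X F.mb * (t F.m).b -
        S.dot u.X F.m * (t F.mb).b]) fun f => ?_
    have k := congrFun (Null.span s W.nl u.X)
    simp only [Pi.add_apply, Pi.smul_apply, smul_eq_mul] at k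
    rw [Fin.sum_univ_six]
    change S.act u f = _ * S.act (t F.l) f + _ * S.act (t F.n) f + _ * S.act (t F.m) f +
      _ * S.act (t F.mb) f + _ * S.H f + _ * S.Hb f
    simp only [act_apply, Fin.sum_univ_four, Matrix.cons_val, show ∀ X, (t X).X = X from
      fun _ => rfl]
    linear_combination S.L 0 f * k 0 + S.L 1 f * k 1 + S.L 2 f * k 2 + S.L 3 f * k 3
  rw [kerr_V, kk_V, ← show (K.geo g Γ).act _ = _ from Derivation.ext (h.act_prj g Γ _ _ _ _ _ _)]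
  exact e _

end alg

/-- The value at a point. -/
noncomputable def evP {O : Set E6} (x : O) : Sm (on O) →ₐ[ℂ] ℂ :=
  ⟨evO x, fun z => fv_alg z x.2⟩

theorem evP_ap {O : Set E6} (x : O) (f : Sm (on O)) : evP x f = fv f x := rfl

/-- The hypotheses on the near region. -/
structure Nr (c : Cs) (E : Est) : Prop where
  co : Cone E.O1
  eq : E.Eqs c
  M : E.M ≠ 0

namespace Nr
variable {c : Cs} {E : Est} (h : Nr c E)
include h

theorem Mp : 0 < E.M := (abs_nonneg _).trans_lt h.eq.par.1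
theorem M0 : 0 < c.M := by linarith [h.Mp, h.eq.par.2]
theorem off : Off (on E.O1) := on_of h.co.op (cone_off h.co)
theorem hp : (hp (on E.O1)).Is := hp_is h.off
theorem ge : (ge E.O1 E.g).Is := geo_is h.off _ (on_of h.co.op h.eq.v1)
theorem g1 : E.G1.Is := h.eq.w1.is h.ge
theorem p1 : (E.p1 c).Is (P354XD.hp _) := pI_is h.co h.M0 _ _
theorem kk : kk (kT E.O1 c.M E.M E.a) (pT E.O1 c.M E.M E.a) = E.K1 c := kk_T h.co h.M0 _ _

theorem u3 : IsUnit (3 * E.G1.P2) := by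
  refine IsUnit.mul ?_ h.eq.unit
  rw [← map_ofNat (algebraMap ℂ (Sm (on E.O1))) 3]
  exact (IsUnit.mk0 _ (by norm_num)).map _

/-- The frame F1 as a transverse structure. -/
noncomputable def tv : Tv (Sm (on E.O1)) :=
  ⟨E.G1, Ring.inverse (3 * E.G1.P2), h.g1, h.eq.P1, h.eq.P3, Ring.inverse_mul_cancel _ h.u3⟩

theorem sg : ∃ s : Fin 6 → Fin 6 → Sm (on E.O1), ∀ b f,
    fr E.G1 b f = fr (E.K1 c).kerr b f + ∑ e, s b e * fr (E.K1 c).kerr e f :=
  ex_dif (ex_sg h.hp h.p1)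

theorem ta : ∃ s : Fin 6 → Fin 6 → Sm (on E.O1), ∀ b f,
    fr (E.K1 c).kerr b f = fr E.G1 b f + ∑ e, s b e * fr E.G1 e f :=
  ex_dif (ex_ta h.hp h.ge h.eq.w1)

/-- The data of the bridge. -/
noncomputable def raw : Raw (Sm (on E.O1)) where
  K := kT E.O1 c.M E.M E.a
  p := pT E.O1 c.M E.M E.a
  Mi := Ibp.rl _ E.M⁻¹
  T := h.tv
  sg := h.sg.choose
  ta := h.ta.choose
  kp := kp_T h.co h.M0 h.M E.a
  c := rfl
  H := (kT_HB h.co h.M0 E.M E.a).2.1.symm
  B := (kT_HB h.co h.M0 E.M E.a).2.2.symm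
  ZY := by rw [h.kk]; exact h.sg.choose_spec
  YZ := by rw [h.kk]; exact h.ta.choose_spec

theorem raw_G : h.raw.T.G = E.G1 := rfl
theorem raw_k : h.raw.k = E.K1 c := h.kk
theorem raw_KG : h.raw.brg.K.G = (E.K1 c).kerr := congrArg KC.kerr h.kk

/-- The differences are among those of the state. -/
theorem raw_dd (i : DI) : h.raw.dd i = 0 ∨ ∃ j, h.raw.dd i = E.d1 c j := by
  rcases i with ⟨b, e⟩ | _ | e
  · refine .inr ⟨.inl (b, e), h.raw.dd_uniq b (d := fun e => E.d1 c (.inl (b, e))) (fun f => ?_) e⟩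
    rw [show h.raw.brg.Y (h4 b) = fr h.raw.brg.K.G (h4 b) from rfl, raw_KG, raw_k]
    refine (f4_cm (p := E.p1 c) h.hp b f).trans ?_
    rw [show fr (E.K1 c).kerr (h4 b) f = _ from k4_cm (p := E.p1 c) h.hp b f,
      ← Finset.sum_add_distrib]
    exact Finset.sum_congr rfl fun e _ =>
      (congrArg (· * _) (add_sub_cancel _ _).symm).trans (add_mul _ _ _)
  · exact .inr ⟨.inr 10, congrArg (E.G1.P2 - ·.P2) h.raw_KG⟩
  · fin_cases e
    exacts [.inr ⟨.inr 2, congrArg (E.G1.rh - ·.rh) h.raw_KG⟩,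
      .inr ⟨.inr 6, congrArg (E.G1.rh' - ·.rh') h.raw_KG⟩,
      .inr ⟨.inr 3, congrArg (E.G1.ta - ·.ta) h.raw_KG⟩,
      .inr ⟨.inr 7, congrArg (E.G1.ta' - ·.ta') h.raw_KG⟩, .inl (sub_self _), .inl (sub_self _)]

end Nr
end Vale.Agent.P354XR
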