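import Vale.Agent.P354XG.GHP

/-!
The chart algebra of Kerr. T and R are the derivatives along v and r in ingoing coordinates, P
and Q the lowering and raising fields on the Hopf bundle, H and B the two weights; x is the
cosine, s the sine with weight (1, -1), N the square of the norm of the spinor coordinate.
-/

namespace Vale.Agent.P354XR

open Vale.Agent.P354XG

/-- The data of the chart. -/
structure KC (A : Type*) [CommRing A] [Algebra ℂ A] where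
  c : A →+* A
  T : Der A
  R : Der A
  P : Der A
  Q : Der A
  H : Der A
  B : Der A
  r : A
  x : A
  s : A
  sb : A
  N : A
  Ni : A
  sg : A
  a : A
  M : A

/-- The imaginary unit. -/
noncomputable def ii (A : Type*) [CommRing A] [Algebra ℂ A] : A := algebraMap ℂ A Complex.I

variable {A : Type*} [CommRing A] [Algebra ℂ A]

theorem ii_sq : ii A * ii A = -1 := by
  rw [ii, ← map_mul, Complex.I_mul_I, map_neg, map_one]

theorem D_ii (D : Der A) : D (ii A) = 0 := D_alg D _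

namespace KC

/-- The relations of the chart. -/
structure Is (K : KC A) : Prop where
  cc : ∀ f, K.c (K.c f) = f
  calg : ∀ z : ℂ, K.c (algebraMap ℂ A z) = algebraMap ℂ A (starRingEnd ℂ z)
  c_T : ∀ f, K.c (K.T f) = K.T (K.c f)
  c_R : ∀ f, K.c (K.R f) = K.R (K.c f)
  c_P : ∀ f, K.c (K.P f) = K.Q (K.c f)
  c_H : ∀ f, K.c (K.H f) = K.B (K.c f)
  c_r : K.c K.r = K.r
  c_x : K.c K.x = K.x
  c_s : K.c K.s = K.sb
  c_N : K.c K.N = K.N
  c_a : K.c K.a = K.a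
  c_M : K.c K.M = K.M
  R_T : ∀ f, K.R (K.T f) = K.T (K.R f)
  P_T : ∀ f, K.P (K.T f) = K.T (K.P f)
  H_T : ∀ f, K.H (K.T f) = K.T (K.H f)
  P_R : ∀ f, K.P (K.R f) = K.R (K.P f)
  H_R : ∀ f, K.H (K.R f) = K.R (K.H f)
  P_Q : ∀ f, K.P (K.Q f) = K.Q (K.P f) + K.H f - K.B f
  H_P : ∀ f, K.H (K.P f) = K.P (K.H f) - K.P f
  H_Q : ∀ f, K.H (K.Q f) = K.Q (K.H f) + K.Q f
  B_H : ∀ f, K.B (K.H f) = K.H (K.B f)
  T_r : K.T K.r = 0
  T_x : K.T K.x = 0
  T_s : K.T K.s = 0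
  T_N : K.T K.N = 0
  T_a : K.T K.a = 0
  T_M : K.T K.M = 0
  R_r : K.R K.r = 1
  R_x : K.R K.x = 0
  R_s : K.R K.s = 0
  R_N : K.R K.N = 0
  R_a : K.R K.a = 0
  R_M : K.R K.M = 0
  P_r : K.P K.r = 0
  P_x : K.P K.x = -K.sb
  P_s : K.P K.s = 2 * K.x
  P_sb : K.P K.sb = 0
  P_N : K.P K.N = 0
  P_a : K.P K.a = 0
  P_M : K.P K.M = 0
  H_r : K.H K.r = 0
  H_x : K.H K.x = 0
  H_s : K.H K.s = K.s
  H_sb : K.H K.sb = -K.sb
  H_N : K.H K.N = K.N
  H_a : K.H K.a = 0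
  H_M : K.H K.M = 0
  hs : K.s * K.sb = 1 - K.x * K.x
  hN : K.N * K.Ni = 1
  hg : K.sg * (K.r * K.r + K.a * K.a * K.x * K.x) = 1

/-- The field with given components. -/
noncomputable def V (K : KC A) (e1 e2 e3 e4 e5 e6 : A) : Der A :=
  e1 • K.T + e2 • K.R + e3 • K.P + e4 • K.Q + e5 • K.H + e6 • K.B

theorem V_ap (K : KC A) (e1 e2 e3 e4 e5 e6 f : A) : K.V e1 e2 e3 e4 e5 e6 f =
    e1 * K.T f + e2 * K.R f + e3 * K.P f + e4 * K.Q f + e5 * K.H f + e6 * K.B f := by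
  simp [V]

theorem D_inv (D : Der A) {u v : A} (h : v * u = 1) : D v = -(v * v * D u) := by
  have := congrArg D h
  rw [D_mul, D_one] at this
  linear_combination v * this - D v * h

variable {K : KC A}

namespace Is
variable (h : K.Is)
include h

theorem cinj {f g : A} (e : K.c f = K.c g) : f = g := by
  rw [← h.cc f, e, h.cc]

theorem c_ii : K.c (ii A) = -ii A := by
  rw [ii, h.calg, Complex.conj_I, map_neg]
theorem c_sb : K.c K.sb = K.s := by rw [← h.c_s, h.cc]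
theorem c_Q (f : A) : K.c (K.Q f) = K.P (K.c f) := by
  apply h.cinj; rw [h.cc, h.c_P, h.cc]
theorem c_B (f : A) : K.c (K.B f) = K.H (K.c f) := by
  apply h.cinj; rw [h.cc, h.c_H, h.cc]
theorem c_Ni : K.c K.Ni = K.Ni := by
  have := congrArg K.c h.hN
  rw [map_mul, map_one, h.c_N] at this
  linear_combination K.Ni * this - K.c K.Ni * h.hN
theorem c_sg : K.c K.sg = K.sg := by
  have := congrArg K.c h.hg
  simp only [map_mul, map_add, map_one, h.c_r, h.c_a, h.c_x] at this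
  linear_combination K.sg * this - K.c K.sg * h.hg

theorem Q_T (f : A) : K.Q (K.T f) = K.T (K.Q f) := by
  apply h.cinj; simp only [h.c_Q, h.c_T, h.P_T]
theorem B_T (f : A) : K.B (K.T f) = K.T (K.B f) := by
  apply h.cinj; simp only [h.c_B, h.c_T, h.H_T]
theorem Q_R (f : A) : K.Q (K.R f) = K.R (K.Q f) := by
  apply h.cinj; simp only [h.c_Q, h.c_R, h.P_R]
theorem B_R (f : A) : K.B (K.R f) = K.R (K.B f) := by
  apply h.cinj; simp only [h.c_B, h.c_R, h.H_R]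
theorem B_P (f : A) : K.B (K.P f) = K.P (K.B f) + K.P f := by
  apply h.cinj; simp only [map_add, h.c_B, h.c_P, h.H_Q]
theorem B_Q (f : A) : K.B (K.Q f) = K.Q (K.B f) - K.Q f := by
  apply h.cinj; simp only [map_sub, h.c_B, h.c_Q, h.H_P]

theorem T_sb : K.T K.sb = 0 := by
  apply h.cinj; rw [h.c_T, h.c_sb, h.T_s, map_zero]
theorem R_sb : K.R K.sb = 0 := by
  apply h.cinj; rw [h.c_R, h.c_sb, h.R_s, map_zero]
theorem Q_r : K.Q K.r = 0 := by
  apply h.cinj; rw [h.c_Q, h.c_r, h.P_r, map_zero]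
theorem Q_x : K.Q K.x = -K.s := by
  apply h.cinj; rw [h.c_Q, h.c_x, h.P_x, map_neg, h.c_s]
theorem Q_s : K.Q K.s = 0 := by
  apply h.cinj; rw [h.c_Q, h.c_s, h.P_sb, map_zero]
theorem Q_sb : K.Q K.sb = 2 * K.x := by
  apply h.cinj; rw [h.c_Q, h.c_sb, h.P_s, map_mul, map_ofNat, h.c_x]
theorem Q_N : K.Q K.N = 0 := by
  apply h.cinj; rw [h.c_Q, h.c_N, h.P_N, map_zero]
theorem Q_a : K.Q K.a = 0 := by
  apply h.cinj; rw [h.c_Q, h.c_a, h.P_a, map_zero]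
theorem Q_M : K.Q K.M = 0 := by
  apply h.cinj; rw [h.c_Q, h.c_M, h.P_M, map_zero]
theorem B_r : K.B K.r = 0 := by
  apply h.cinj; rw [h.c_B, h.c_r, h.H_r, map_zero]
theorem B_x : K.B K.x = 0 := by
  apply h.cinj; rw [h.c_B, h.c_x, h.H_x, map_zero]
theorem B_s : K.B K.s = -K.s := by
  apply h.cinj; rw [h.c_B, h.c_s, h.H_sb, map_neg, h.c_s]
theorem B_sb : K.B K.sb = K.sb := by
  apply h.cinj; rw [h.c_B, h.c_sb, h.H_s]
theorem B_N : K.B K.N = K.N := by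
  apply h.cinj; rw [h.c_B, h.c_N, h.H_N]
theorem B_a : K.B K.a = 0 := by
  apply h.cinj; rw [h.c_B, h.c_a, h.H_a, map_zero]
theorem B_M : K.B K.M = 0 := by
  apply h.cinj; rw [h.c_B, h.c_M, h.H_M, map_zero]

theorem hN' : K.Ni * K.N = 1 := by rw [mul_comm, h.hN]

theorem T_Ni : K.T K.Ni = 0 := by rw [D_inv _ h.hN', h.T_N]; ring
theorem R_Ni : K.R K.Ni = 0 := by rw [D_inv _ h.hN', h.R_N]; ring
theorem P_Ni : K.P K.Ni = 0 := by rw [D_inv _ h.hN', h.P_N]; ring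
theorem Q_Ni : K.Q K.Ni = 0 := by rw [D_inv _ h.hN', h.Q_N]; ring
theorem H_Ni : K.H K.Ni = -K.Ni := by
  rw [D_inv _ h.hN', h.H_N]; linear_combination -K.Ni * h.hN
theorem B_Ni : K.B K.Ni = -K.Ni := by
  rw [D_inv _ h.hN', h.B_N]; linear_combination -K.Ni * h.hN

theorem T_sg : K.T K.sg = 0 := by
  rw [D_inv _ h.hg]; simp only [D_add, D_mul, h.T_r, h.T_a, h.T_x]; ring
theorem R_sg : K.R K.sg = -(2 * K.r * K.sg * K.sg) := by
  rw [D_inv _ h.hg]; simp only [D_add, D_mul, h.R_r, h.R_a, h.R_x]; ring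
theorem P_sg : K.P K.sg = 2 * K.a * K.a * K.x * K.sb * K.sg * K.sg := by
  rw [D_inv _ h.hg]; simp only [D_add, D_mul, h.P_r, h.P_a, h.P_x]; ring
theorem Q_sg : K.Q K.sg = 2 * K.a * K.a * K.x * K.s * K.sg * K.sg := by
  rw [D_inv _ h.hg]; simp only [D_add, D_mul, h.Q_r, h.Q_a, h.Q_x]; ring
theorem H_sg : K.H K.sg = 0 := by
  rw [D_inv _ h.hg]; simp only [D_add, D_mul, h.H_r, h.H_a, h.H_x]; ring
theorem B_sg : K.B K.sg = 0 := by
  rw [D_inv _ h.hg]; simp only [D_add, D_mul, h.B_r, h.B_a, h.B_x]; ring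

/-- The conjugate of a field. -/
theorem c_V (e1 e2 e3 e4 e5 e6 f : A) : K.c (K.V e1 e2 e3 e4 e5 e6 f) =
    K.V (K.c e1) (K.c e2) (K.c e4) (K.c e3) (K.c e6) (K.c e5) (K.c f) := by
  simp only [V_ap, map_add, map_mul, h.c_T, h.c_R, h.c_P, h.c_Q, h.c_H, h.c_B]
  ring

/-- The commutator of two fields. -/
theorem V_comm {E F : Der A} {e1 e2 e3 e4 e5 e6 f1 f2 f3 f4 f5 f6 : A}
    (hE : E = K.V e1 e2 e3 e4 e5 e6) (hF : F = K.V f1 f2 f3 f4 f5 f6) (g : A) :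
    E (F g) = F (E g) + K.V (E f1 - F e1) (E f2 - F e2)
      (E f3 - F e3 - (e5 - e6) * f3 + e3 * (f5 - f6))
      (E f4 - F e4 + (e5 - e6) * f4 - e4 * (f5 - f6))
      (E f5 - F e5 + (e3 * f4 - e4 * f3)) (E f6 - F e6 - (e3 * f4 - e4 * f3)) g := by
  have eE : ∀ u, E u = e1 * K.T u + e2 * K.R u + e3 * K.P u + e4 * K.Q u + e5 * K.H u +
    e6 * K.B u := fun u => by rw [hE, V_ap]
  have eF : ∀ u, F u = f1 * K.T u + f2 * K.R u + f3 * K.P u + f4 * K.Q u + f5 * K.H u +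
    f6 * K.B u := fun u => by rw [hF, V_ap]
  rw [eF g, eE g, V_ap]
  simp only [D_add, D_mul]
  rw [eE (K.T g), eE (K.R g), eE (K.P g), eE (K.Q g), eE (K.H g), eE (K.B g), eF (K.T g),
    eF (K.R g), eF (K.P g), eF (K.Q g), eF (K.H g), eF (K.B g)]
  simp only [h.R_T, h.P_T, h.Q_T, h.H_T, h.B_T, h.P_R, h.Q_R, h.H_R, h.B_R, h.P_Q, h.H_P, h.H_Q,
    h.B_P, h.B_Q, h.B_H]
  ring

end Is
end KC
end Vale.Agent.P354XR
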