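import Vale.Agent.P354XR.Nat

/-!
The differences of the components to Kerr control the change of frame.
-/

set_option linter.unusedSimpArgs false

namespace Vale.Agent.P354XR

open Vale.Agent.P354XG Vale.Agent.P354XD Vale.Agent.P354XF

theorem fin_C {ι : Type*} {s : Set ι} (hs : s.Finite) {P : ι → ℝ → Prop}
    (mono : ∀ i C C', C ≤ C' → P i C → P i C') (h : ∀ i ∈ s, ∃ C, P i C) :
    ∃ C, 1 ≤ C ∧ ∀ i ∈ s, P i C := by
  choose! c hc using h
  obtain ⟨C, hC⟩ := (hs.image c).bddAbove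
  exact ⟨max C 1, le_max_right _ _, fun i hi =>
    mono i _ _ ((hC ⟨i, hi, rfl⟩).trans (le_max_left _ _)) (hc i hi)⟩

variable {A : Type*} [CommRing A] [Algebra ℂ A]

theorem adj_bd {ι : Type*} {f : ι → A} {x : A} (h : x ∈ Algebra.adjoin ℂ (Set.range f)) (K : ℝ) :
    ∃ C, ∀ φ : A →ₐ[ℂ] ℂ, (∀ i, ‖φ (f i)‖ ≤ K) → ‖φ x‖ ≤ C := by
  induction h using Algebra.adjoin_induction with
  | mem x h =>
    obtain ⟨i, rfl⟩ := h
    exact ⟨K, fun _ h => h i⟩
  | algebraMap z => exact ⟨‖z‖, fun φ _ => by simp⟩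
  | add _ _ _ _ h1 h2 =>
    obtain ⟨C, h1⟩ := h1
    obtain ⟨C', h2⟩ := h2
    exact ⟨C + C', fun φ h => by rw [map_add]; exact norm_add_le_of_le (h1 φ h) (h2 φ h)⟩
  | mul _ _ _ _ h1 h2 =>
    obtain ⟨C, h1⟩ := h1
    obtain ⟨C', h2⟩ := h2
    exact ⟨C * C', fun φ h => by
      rw [map_mul, norm_mul]
      exact mul_le_mul (h1 φ h) (h2 φ h) (norm_nonneg _) ((norm_nonneg _).trans (h1 φ h))⟩

theorem wt_wd {B : Type*} {V : P354XG.Der A} {X : B → P354XG.Der A}
    (h : ∀ a, ∃ c : ℂ, ∀ f, V (X a f) = X a (V f) + c • X a f) {u : A} (hu : ∃ c : ℂ, V u = c • u)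
    (w : List B) : ∃ c : ℂ, V (wd X w u) = c • wd X w u := by
  induction w with
  | nil => exact hu
  | cons a w ih =>
    obtain ⟨c, e⟩ := ih
    obtain ⟨c', e'⟩ := h a
    exact ⟨c + c', by rw [wd, e', e, Derivation.map_smul, add_smul]⟩

/-- The four horizontal letters among six. -/
def h4 (b : Fin 4) : Fin 6 := b.castLE (by omega)

theorem six (e : Fin 6) : (∃ a, e = h4 a) ∨ ∃ v, e = vt v := by revert e; decide

/-- The letters T R P Q. -/
def KC.b4 (K : KC A) (a : Fin 4) : P354XG.Der A := K.bs (h4 a)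

theorem KC.Is.V_bs {K : KC A} (h : K.Is) (v : Bool) (e : Fin 6) :
    ∃ c : ℂ, ∀ f, K.bs (vt v) (K.bs e f) = K.bs e (K.bs (vt v) f) + c • K.bs e f := by
  cases v <;> fin_cases e <;> simp only [KC.bs, vt, cond, Fin.reduceFinMk, Matrix.cons_val]
  exacts [⟨0, by simp [h.H_T]⟩, ⟨0, by simp [h.H_R]⟩, ⟨-1, by simp [h.H_P, sub_eq_add_neg]⟩,
    ⟨1, by simp [h.H_Q]⟩, ⟨0, by simp⟩, ⟨0, by simp [h.B_H]⟩, ⟨0, by simp [h.B_T]⟩,
    ⟨0, by simp [h.B_R]⟩, ⟨1, by simp [h.B_P]⟩, ⟨-1, by simp [h.B_Q, sub_eq_add_neg]⟩,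
    ⟨0, by simp [h.B_H]⟩, ⟨0, by simp⟩]

theorem KC.Free.bs {K : KC A} (h : K.Free) {u : Fin 6 → A} (e : ∀ f, ∑ b, u b * K.bs b f = 0)
    (b : Fin 6) : u b = 0 := by
  have := h (u 0) (u 1) (u 2) (u 3) (u 4) (u 5) fun f => by
    simpa [KC.V_ap, KC.bs, Fin.sum_univ_six] using e f
  fin_cases b
  exacts [this.1, this.2.1, this.2.2.1, this.2.2.2.1, this.2.2.2.2.1, this.2.2.2.2.2]

/-- The index set of the differences. -/
abbrev DI : Type := (Fin 4 × Fin 6) ⊕ Option (Fin 6)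

namespace Raw
variable (R : Raw A)

/-- The differences to Kerr: components of the frame in the basis T R P Q H B, the expansions
and torsions, and P2. -/
noncomputable def dd : DI → A :=
  Sum.elim (fun q => ∑ c, R.sg (h4 q.1) c * R.k.ye c q.2) fun o =>
    o.elim (R.T.G.P2 - R.brg.K.G.P2) fun e => R.T.y e - R.brg.K.y e

theorem Z_dd (b : Fin 4) (f : A) :
    fr R.T.G (h4 b) f = R.brg.Y (h4 b) f + ∑ e, R.dd (.inl (b, e)) * R.k.bs e f := by
  rw [R.ZY]
  simp only [dd, Sum.elim_inl, Finset.sum_mul, mul_assoc]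
  rw [Finset.sum_comm]
  simp only [← Finset.mul_sum, ← KC.fr_ye]
  rfl

theorem dd_uniq (b : Fin 4) {d : Fin 6 → A}
    (h : ∀ f, fr R.T.G (h4 b) f = R.brg.Y (h4 b) f + ∑ e, d e * R.k.bs e f) (e : Fin 6) :
    R.dd (.inl (b, e)) = d e :=
  sub_eq_zero.1 (R.kp.free.bs (u := fun e => R.dd (.inl (b, e)) - d e) (fun f => by
    simp only [sub_mul, Finset.sum_sub_distrib]
    linear_combination h f - R.Z_dd b f) e)

theorem sg_dd (b : Fin 4) (c : Fin 6) : R.sg (h4 b) c = ∑ e, R.dd (.inl (b, e)) * R.k.xe e c :=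
  sub_eq_zero.1 (R.kp.is.indep6 R.kp.free
    (u := fun c => R.sg (h4 b) c - ∑ e, R.dd (.inl (b, e)) * R.k.xe e c) (fun f => by
      have := R.Z_dd b f
      rw [R.ZY] at this
      simp only [sub_mul, Finset.sum_sub_distrib, Finset.sum_mul, mul_assoc]
      rw [Finset.sum_comm (f := fun c e => R.dd (.inl (b, e)) * _)]
      simp only [← Finset.mul_sum, ← R.kp.is.bs_xe]
      exact sub_eq_zero.2 (add_left_cancel this)) c)

theorem sg_vt (v : Bool) (c : Fin 6) : R.sg (vt v) c = 0 :=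
  R.kp.is.indep6 R.kp.free (fun f => by
    have e : fr R.T.G (vt v) = fr R.k.kerr (vt v) := R.brg_is.vert v
    have := R.ZY (vt v) f
    rw [e] at this
    exact (add_eq_left.1 this.symm)) c

theorem Y_vt (v : Bool) : R.brg.Y (vt v) = R.k.bs (vt v) := by cases v <;> rfl

theorem wt_dd (v : Bool) (i : DI) : ∃ c : ℂ, R.k.bs (vt v) (R.dd i) = c • R.dd i := by
  have e0 : fr R.T.G (vt v) = R.k.bs (vt v) := (R.brg_is.vert v).trans (R.Y_vt v)
  rcases i with ⟨b, e⟩ | _ | e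
  · choose c hc using R.kp.is.V_bs v
    refine ⟨lam v (h4 b) - c e, sub_eq_zero.1 (R.kp.free.bs (u := fun e => R.k.bs (vt v)
      (R.dd (.inl (b, e))) - (lam v (h4 b) - c e) • R.dd (.inl (b, e))) (fun f => ?_) e)⟩
    have e1 := Brg.V_fr R.T v (h4 b) f
    have e2 := Brg.V_fr R.brg.K v (h4 b) f
    rw [e0, R.Z_dd, R.Z_dd] at e1
    rw [show fr R.brg.K.G (vt v) = _ from R.Y_vt v] at e2
    simp only [map_add, map_sum, D_mul, hc, e2, mul_add, Finset.sum_add_distrib, smul_add,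
      Finset.smul_sum] at e1
    simp only [sub_mul, sub_smul, Finset.sum_sub_distrib, smul_mul_assoc, mul_comm (R.k.bs (vt v) _)]
    simp only [mul_smul_comm] at e1
    linear_combination e1
  · refine ⟨0, ?_⟩
    have t := R.T.is
    have k := R.brg.K.is
    simp only [dd, Sum.elim_inr, Option.elim, map_sub, zero_smul]
    rw [sub_eq_zero]
    refine (DFunLike.congr_fun e0 _).symm.trans (Eq.trans ?_ (DFunLike.congr_fun (R.Y_vt v) _))
    cases v
    exacts [t.H_P2.trans k.H_P2.symm, t.Hb_P2.trans k.Hb_P2.symm]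
  · have : ∃ c : ℂ, ∀ T : Tv A, fr T.G (vt v) (T.y e) = c • T.y e := by
      cases v <;> fin_cases e <;> simp only [fr, vt, cond, Tv.y, Fin.reduceFinMk, Matrix.cons_val]
      exacts [⟨1, fun T => by simp [T.is.H_rh]⟩, ⟨-1, fun T => by simp [T.is.H_rh']⟩,
        ⟨1, fun T => by simp [T.is.H_ta]⟩, ⟨-1, fun T => by simp [T.is.H_ta']⟩, ⟨0, by simp⟩,
        ⟨0, by simp⟩, ⟨1, fun T => by simp [T.is.Hb_rh]⟩, ⟨-1, fun T => by simp [T.is.Hb_rh']⟩,
        ⟨-1, fun T => by simp [T.is.Hb_ta]⟩, ⟨1, fun T => by simp [T.is.Hb_ta']⟩, ⟨0, by simp⟩,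
        ⟨0, by simp⟩]
    obtain ⟨c, hc⟩ := this
    refine ⟨c, ?_⟩
    simp only [dd, Sum.elim_inr, Option.elim, map_sub, smul_sub, ← hc]
    rw [e0, show fr R.brg.K.G (vt v) = _ from R.Y_vt v]

theorem ta_eq (b c : Fin 6) : R.ta b c = -(R.sg b c + ∑ e, R.ta b e * R.sg e c) :=
  eq_neg_of_add_eq_zero_left (R.kp.is.indep6 R.kp.free
    (u := fun c => R.ta b c + (R.sg b c + ∑ e, R.ta b e * R.sg e c)) (fun f => by
      have := R.YZ b f
      simp only [R.ZY, mul_add, Finset.sum_add_distrib, Finset.mul_sum] at this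
      simp only [add_mul, Finset.sum_add_distrib, Finset.sum_mul, mul_assoc]
      rw [Finset.sum_comm (f := fun c e => R.ta b e * _)]
      linear_combination -this) c)

theorem D_ta (D : P354XG.Der A) (b c : Fin 6) : D (R.ta b c) =
    -∑ d, (D (R.sg b d) + ∑ e, R.ta b e * D (R.sg e d)) * ((if d = c then 1 else 0) + R.ta d c) := by
  have h1 : (1 + Matrix.of R.ta) * (1 + Matrix.of R.sg) = 1 := by
    simp only [mul_add, add_mul, mul_one, one_mul]
    ext b c
    simp only [Matrix.add_apply, Matrix.mul_apply, Matrix.of_apply]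
    linear_combination R.ta_eq b c
  have h0 := mul_eq_one_comm.1 h1
  have h2 : ∀ d, ((1 + Matrix.of R.sg) * (1 + Matrix.of R.ta)) d c =
      (1 : Matrix (Fin 6) (Fin 6) A) d c := fun d => by rw [h0]
  have h3 : ∀ d, D (R.sg b d) + ∑ e, R.ta b e * D (R.sg e d) =
      -∑ e, D (R.ta b e) * (1 + Matrix.of R.sg) e d := fun d => by
    have := congrArg D (R.ta_eq b d)
    simp only [map_neg, map_add, map_sum, D_mul, Finset.sum_add_distrib] at this
    simp only [mul_comm (R.sg _ d)] at this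
    simp only [Matrix.add_apply, Matrix.one_apply, Matrix.of_apply, mul_add, mul_ite, mul_one,
      mul_zero, Finset.sum_add_distrib, Finset.sum_ite_eq', Finset.mem_univ, if_true]
    linear_combination this
  simp only [Matrix.mul_apply, Matrix.add_apply (1 : Matrix (Fin 6) (Fin 6) A) (Matrix.of R.ta),
    Matrix.one_apply, Matrix.of_apply] at h2
  simp only [h3, neg_mul, Finset.sum_neg_distrib, neg_neg, Finset.sum_mul, mul_assoc]
  rw [Finset.sum_comm]
  simp only [← Finset.mul_sum, h2]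
  simp

/-- The generators. -/
noncomputable def g2 (L : ℕ) : Gen (KI ⊕ (Fin 6 × Fin 6) ⊕ DI × List (Fin 4)) A where
  x := Sum.elim R.brg.kf (Sum.elim (fun q => R.ta q.1 q.2) fun q =>
    if q.2.length ≤ L then wd R.k.b4 q.2 (R.dd q.1) else 0)
  lev := Sum.elim (fun _ => 0) (Sum.elim (fun _ => 0) fun q => q.2.length)
  sm := Sum.elim (fun _ => False) (Sum.elim (fun _ => False) fun _ => True)
  cl _ := 0

variable {R} {L j n a : ℕ} {x : A}

theorem mS (h : x ∈ R.brg.S) : M (R.g2 L) 0 0 0 0 x := by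
  induction h using Algebra.adjoin_induction with
  | mem x h =>
    obtain ⟨i, rfl⟩ := h
    exact M.gen (g := R.g2 L) (.inl i)
  | algebraMap z => exact M.const z
  | add _ _ _ _ h1 h2 => exact h1.add h2
  | mul _ _ _ _ h1 h2 => exact h1.mul h2

theorem mw (i : DI) {w : List (Fin 4)} (h : w.length ≤ L) :
    M (R.g2 L) w.length w.length 1 0 (wd R.k.b4 w (R.dd i)) := by
  simpa [g2, h] using M.small (g := R.g2 L) (.inr (.inr (i, w))) trivial

theorem mta (b c : Fin 6) : M (R.g2 L) 0 0 0 0 (R.ta b c) := M.gen (g := R.g2 L) (.inr (.inl (b, c)))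

theorem bs_S (e : Fin 6) (h : x ∈ R.brg.S) : R.k.bs e x ∈ R.brg.S := by
  rw [R.kp.is.bs_xe]
  exact sum_mem fun c _ => mul_mem (in_SS.xe e c) (Duo.SY' (U := R.brg.U) c h)

theorem m_bw (e : Fin 6) (i : DI) {w : List (Fin 4)} (h : w.length < L) :
    M (R.g2 L) (w.length + 1) (w.length + 1) 1 0 (R.k.bs e (wd R.k.b4 w (R.dd i))) := by
  rcases six e with ⟨a, rfl⟩ | ⟨v, rfl⟩
  · exact mw i (w := a :: w) h
  · obtain ⟨c, hc⟩ := wt_wd (X := R.k.b4) (fun a => R.kp.is.V_bs v (h4 a)) (R.wt_dd v i) w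
    rw [hc, Algebra.smul_def]
    exact ((mw i h.le).cmul c).mono (by omega) (by omega) le_rfl le_rfl

theorem msg (b c : Fin 6) : M (R.g2 L) 0 0 1 0 (R.sg b c) := by
  rcases six b with ⟨a, rfl⟩ | ⟨v, rfl⟩
  · rw [sg_dd]
    exact M.sum _ fun e _ => (mw (w := []) _ (Nat.zero_le _)).mul (mS (in_SS.xe e c))
  · rw [sg_vt]
    exact M.zero _ _ _ _

theorem m_bsg (hL : 0 < L) (e b c : Fin 6) : M (R.g2 L) 1 1 1 0 (R.k.bs e (R.sg b c)) := by
  rcases six b with ⟨a, rfl⟩ | ⟨v, rfl⟩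
  · rw [sg_dd, map_sum]
    refine M.sum _ fun d _ => ?_
    rw [D_mul]
    exact ((mw (w := []) _ (Nat.zero_le _)).mul' (mS (bs_S e (in_SS.xe d c))) (by simp) (by simp)
      (by simp) le_rfl le_rfl le_rfl).add ((mS (in_SS.xe d c)).mul' (m_bw e _ (w := []) hL)
        (by simp) (by simp) (by simp) le_rfl le_rfl le_rfl)
  · rw [sg_vt, map_zero]
    exact M.zero _ _ _ _

theorem m_bta (hL : 0 < L) (e b c : Fin 6) : M (R.g2 L) 1 1 1 0 (R.k.bs e (R.ta b c)) := by
  rw [D_ta]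
  refine (M.sum _ fun d _ => ((m_bsg hL e b d).add (M.sum _ fun f _ => (mta b f).mul'
    (m_bsg hL e f d) (by simp) le_rfl le_rfl le_rfl le_rfl le_rfl)).mul' (n2 := 0) (a2 := 0)
      (M.add ?_ (mta d c)) le_rfl (by simp) le_rfl le_rfl le_rfl le_rfl).neg
  split_ifs
  exacts [M.one, M.zero _ _ _ _]

theorem m_bs (e : Fin 6) (hj : j < L) (h : M (R.g2 L) j n a 0 x) :
    M (R.g2 L) (j + 1) (n + 1) a 0 (R.k.bs e x) := by
  refine h.der' (e := 0) ?_
  rintro (i | ⟨b, c⟩ | ⟨i, w⟩) hx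
  · exact ⟨(mS (bs_S e (kf_mem i))).mono (by simp) (by simp) le_rfl le_rfl, False.elim⟩
  · exact ⟨(m_bta (by omega) e b c).mono le_rfl le_rfl (by simp) le_rfl, False.elim⟩
  · have hw : w.length < L := lt_of_le_of_lt hx hj
    have := m_bw (R := R) e i hw
    simp only [Up1, g2, Sum.elim_inr, if_pos hw.le]
    exact ⟨this.mono le_rfl le_rfl (by simp) le_rfl, fun _ => this⟩

theorem m_Y (b : Fin 6) (hj : j < L) (h : M (R.g2 L) j n a 0 x) :
    M (R.g2 L) (j + 1) (n + 1) a 0 (R.brg.Y b x) := by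
  rw [show R.brg.Y b x = _ from R.k.fr_ye b x]
  exact M.sum _ fun e _ => (mS (in_SS.ye b e)).mul' (m_bs e hj h) (by simp) le_rfl (by simp)
    (by simp) le_rfl le_rfl

theorem m_wY (w : List (Fin 6)) (hj : w.length ≤ L) (h : M (R.g2 L) 0 0 a 0 x) :
    M (R.g2 L) w.length w.length a 0 (wd R.brg.Y w x) := by
  induction w with
  | nil => exact h
  | cons b w ih => exact m_Y b hj (ih (Nat.le_of_succ_le hj))

theorem mta1 (b c : Fin 6) : M (R.g2 L) 0 0 1 0 (R.ta b c) := by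
  rw [ta_eq]
  exact ((msg b c).add (M.sum _ fun e _ => (mta b e).mul (msg e c))).neg

/-- The quantities which are not small. -/
theorem val_S {g : Gn} (h : ¬ g.sm) : R.brg.K.val g ∈ R.brg.S := by
  cases g with
  | p2 => exact R.kp.S2.1
  | pi => exact R.kp.SPi
  | y e => exact (R.kp.Sy e).1
  | dy b e => exact Duo.SY' (U := R.brg.U) b (R.kp.Sy e).1
  | jet => exact (h trivial).elim

theorem m_val (hL : 0 < L) {g : Gn} (h : ¬ g.sm) (h' : g ≠ .pi) :
    M (R.g2 L) 1 1 1 0 (R.T.val g - R.brg.K.val g) := by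
  cases g with
  | p2 => exact (mw (.inr none) (w := []) (Nat.zero_le _)).mono (by simp) (by simp) le_rfl le_rfl
  | pi => exact (h' rfl).elim
  | y e =>
    exact (mw (.inr (some e)) (w := []) (Nat.zero_le _)).mono (by simp) (by simp) le_rfl le_rfl
  | dy b e =>
    have k : M (R.g2 L) 0 0 1 0 (R.T.y e - R.brg.K.y e) :=
      mw (.inr (some e)) (w := []) (Nat.zero_le _)
    have k' : M (R.g2 L) 0 0 0 0 (R.T.y e) := by
      have := (k.mono le_rfl le_rfl (Nat.zero_le _) le_rfl).add (mS (x := R.brg.K.y e) (R.kp.Sy e).1)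
      rwa [sub_add_cancel] at this
    have := (m_Y b hL k).add (M.sum Finset.univ fun c _ => (msg b c).mul' (m_Y c hL k') (by simp)
      le_rfl le_rfl le_rfl le_rfl le_rfl)
    refine cast (congrArg _ ?_) this
    rw [Tv.val, Tv.val, R.ZY, map_sub]
    change _ = R.brg.Y b _ + ∑ c, _ * R.brg.Y c _ - R.brg.Y b _
    ring
  | jet => exact (h trivial).elim

end Raw
end Vale.Agent.P354XR
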