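import Vale.Agent.P354XR.Pt
import Vale.Agent.P354XF.Out

/-!
The hypotheses at a point from the jets of the differences to Kerr and the jets of P0 and P4.
-/

namespace Vale.Agent.P354XR

open Vale.Agent.P354XG Vale.Agent.P354XD Vale.Agent.P354XF Filter

variable {A : Type*} [CommRing A] [Algebra ℂ A]

/-- The horizontal letters of the solution. -/
def z4 (T : Tv A) (a : Fin 4) : P354XG.Der A := fr T.G (h4 a)

theorem wt_pp (T : Tv A) (s v : Bool) : ∃ c : ℂ, fr T.G (vt v) (T.pp s) = c • T.pp s := by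
  have t := T.is
  cases s <;> cases v <;> simp only [fr, vt, cond, Tv.pp, Matrix.cons_val]
  exacts [⟨4, by simp [t.H_P0, Algebra.smul_def, map_ofNat]⟩, ⟨0, by simp [t.Hb_P0]⟩,
    ⟨-4, by simp [t.H_P4, Algebra.smul_def, map_ofNat]⟩, ⟨0, by simp [t.Hb_P4]⟩]

theorem six_four (T : Tv A) (s : Bool) (w : List (Fin 6)) : ∃ (c : ℂ) (w' : List (Fin 4)),
    w'.length ≤ w.length ∧ wd (fr T.G) w (T.pp s) = c • wd (z4 T) w' (T.pp s) := by
  induction w with
  | nil => exact ⟨1, [], le_rfl, (one_smul _ _).symm⟩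
  | cons b w ih =>
    obtain ⟨c, w', h, e⟩ := ih
    rcases six b with ⟨a, rfl⟩ | ⟨v, rfl⟩
    · exact ⟨c, a :: w', Nat.succ_le_succ h, by rw [wd, e, Derivation.map_smul]; rfl⟩
    · obtain ⟨c', e'⟩ := wt_wd (X := z4 T) (fun a => ⟨_, Brg.V_fr T v (h4 a)⟩) (wt_pp T s v) w'
      exact ⟨c * c', w', Nat.le_succ_of_le h, by rw [wd, e, Derivation.map_smul, e', smul_smul]⟩

/-- The jets of P0 and P4 of order at most m are bounded by x. -/
def Eb (T : Tv A) (φ : A →ₐ[ℂ] ℂ) (m : ℕ) (x : ℝ) : Prop :=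
  ∀ s, ∀ w : List (Fin 4), w.length ≤ m → ‖φ (wd (z4 T) w (T.pp s))‖ ≤ x

theorem Eb.nn {T : Tv A} {φ : A →ₐ[ℂ] ℂ} {m : ℕ} {x : ℝ} (h : Eb T φ m x) : 0 ≤ x :=
  (norm_nonneg _).trans (h true [] (Nat.zero_le _))

theorem six_le (T : Tv A) (m : ℕ) : ∀ᶠ C in atTop, ∀ φ x, Eb T φ m x → ∀ s, ∀ w : List (Fin 6),
    w.length ≤ m → ‖φ (wd (fr T.G) w (T.pp s))‖ ≤ C * x := by
  have : ∀ᶠ C in atTop, ∀ s, ∀ w : List (Fin 6), w.length ≤ m → ∀ φ x, Eb T φ m x →
      ‖φ (wd (fr T.G) w (T.pp s))‖ ≤ C * x := eventually_all.2 fun s => ev_words m fun w hw => by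
    obtain ⟨c, w', h, e⟩ := six_four T s w
    filter_upwards [eventually_ge_atTop ‖c‖] with C hC φ x hx
    rw [e, map_smul, norm_smul]
    exact mul_le_mul hC (hx s w' (h.trans hw)) (norm_nonneg _) ((norm_nonneg _).trans hC)
  exact this.mono fun C h φ x hx s w hw => h s w hw φ x hx

/-- Small jets of P0 and P4 give small jets of the spin coefficients. -/
theorem al_low (T : Tv A) (K : ℝ) (m : ℕ) : ∀ᶠ C in atTop, ∀ (φ : A →ₐ[ℂ] ℂ) x,
    (∀ f, ‖φ (T.G.c f)‖ = ‖φ f‖) → (∀ g, ¬ Gn.sm g → ‖φ (T.val g)‖ ≤ K) → Eb T φ m x →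
      C * x ≤ 1 → T.al φ m ≤ C * x := by
  induction m using Nat.strong_induction_on with
  | _ m ih =>
    rcases Nat.eq_zero_or_pos m with rfl | hm
    · filter_upwards [eventually_ge_atTop 1] with C hC φ x _ _ hx _
      refine (T.al_le φ fun i w hw => ?_).trans (le_mul_of_one_le_left hx.nn hC)
      obtain rfl : w = [] := List.length_eq_zero_iff.1 (by omega)
      fin_cases i
      exacts [hx false [] le_rfl, hx true [] le_rfl, absurd hw (by decide), absurd hw (by decide),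
        absurd hw (by decide), absurd hw (by decide)]
    have k2 : ∀ᶠ C in atTop, ∀ i, ∀ w : List (Fin 6), w.length ≤ m → lv i + w.length ≤ m →
        ∀ mu φ, Sz T.gen 0 m K mu (T.al φ) φ → ∀ p, (∀ s, ∀ w : List (Fin 6), w.length ≤ m →
          ‖φ (wd (fr T.G) w (T.pp s))‖ ≤ p) →
        ‖φ (wd (fr T.G) w (T.sb i))‖ ≤ C * (p + mu * T.al φ m) :=
      eventually_all.2 fun i => ev_words m fun w _ => ev_imp fun hw => by
        obtain ⟨C, c0, k⟩ := (Tv.Lp.jet T i w).bd K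
        filter_upwards [eventually_ge_atTop C] with C' hC mu φ q p hp
        have := (q.nn _).trans q.half
        have := (norm_nonneg _).trans (hp true [] (Nat.zero_le _))
        have := T.al_nn φ (lv i + w.length)
        exact (k 0 m mu _ _ q hw p fun s w' hw' => hp s w' (by omega)).trans
          (mul_le_mul hC (by gcongr; exact T.al_mono φ hw) (by positivity) (c0.trans hC))
    obtain ⟨C0, k0, c0⟩ := ((ih (m / 2) (by omega)).and (eventually_ge_atTop 0)).exists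
    obtain ⟨C1, k1, c1⟩ := ((six_le T m).and (eventually_ge_atTop 0)).exists
    obtain ⟨C2, k2, c2⟩ := (k2.and (eventually_ge_atTop 0)).exists
    filter_upwards [eventually_ge_atTop C0, eventually_ge_atTop (2 * C2 * (C0 + C1))] with C hC hC'
      φ x hc hK hx hd
    have a1 := hx.nn
    have a2 := T.al_nn φ m
    have a3 := (mul_le_mul_of_nonneg_right hC a1).trans hd
    have q : Sz T.gen 0 m K (C0 * x) (T.al φ) φ :=
      { big := by
          rintro ⟨_ | _, g⟩ h -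
          exacts [hK g h, (hc _).trans_le (hK g h)]
        small := by
          rintro ⟨s, g⟩ h
          cases g with
          | jet i w =>
            cases s
            exacts [T.le_al φ i w le_rfl, (hc _).trans_le (T.le_al φ i w le_rfl)]
          | _ => exact h.elim
        mono := T.al_mono φ
        pos := T.al_nn φ 0
        half := k0 φ x hc hK (fun s w hw => hx s w (by omega)) a3
        one := a3 }
    have e := T.al_le φ fun i w hw => k2 i w (by omega) hw _ φ q _ (k1 φ x hx)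
    have e1 := mul_le_mul_of_nonneg_right ((mul_le_mul_of_nonneg_right hC' a1).trans hd) a2
    have e2 := mul_le_mul_of_nonneg_right hC' a1
    nlinarith [mul_nonneg (mul_nonneg c2 c0) a1, mul_nonneg (mul_nonneg (mul_nonneg c2 c1) a1) a2]

theorem big_fin : {g : Gn | ¬ g.sm}.Finite := by
  refine (Set.finite_range (Sum.elim ![Gn.p2, Gn.pi] (Sum.elim Gn.y fun q : Fin 6 × Fin 6 =>
    Gn.dy q.1 q.2))).subset fun g hg => ?_
  cases g with
  | p2 => exact ⟨.inl 0, rfl⟩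
  | pi => exact ⟨.inl 1, rfl⟩
  | y e => exact ⟨.inr (.inl e), rfl⟩
  | dy b e => exact ⟨.inr (.inr (b, e)), rfl⟩
  | jet => exact (hg trivial).elim

namespace Raw
variable (R : Raw A)

/-- The jets of the differences of order at most L are bounded by x. -/
def Db (φ : A →ₐ[ℂ] ℂ) (L : ℕ) (x : ℝ) : Prop :=
  ∀ i, ∀ w : List (Fin 4), w.length ≤ L → ‖φ (wd R.k.b4 w (R.dd i))‖ ≤ x

variable {R}

theorem Db.nn {φ : A →ₐ[ℂ] ℂ} {L : ℕ} {x : ℝ} (h : R.Db φ L x) : 0 ≤ x :=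
  (norm_nonneg _).trans (h (.inr none) [] (Nat.zero_le _))

theorem ev_S {x : A} (h : x ∈ R.brg.S) (K : ℝ) :
    ∀ᶠ C in atTop, ∀ φ : A →ₐ[ℂ] ℂ, (∀ i, ‖φ (R.brg.kf i)‖ ≤ K) → ‖φ x‖ ≤ C := by
  obtain ⟨C, k⟩ := adj_bd h K
  exact (eventually_ge_atTop C).mono fun C' hC φ h => (k φ h).trans hC

variable (R)

theorem ta_le (K : ℝ) : ∀ᶠ C in atTop, ∀ (φ : A →ₐ[ℂ] ℂ) x, (∀ i, ‖φ (R.brg.kf i)‖ ≤ K) →
    R.Db φ 0 x → C * x ≤ 1 → ∀ b c, ‖φ (R.ta b c)‖ ≤ 1 := by
  obtain ⟨C0, k0, c0⟩ := ((eventually_all.2 fun e => eventually_all.2 fun c =>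
    ev_S (R := R) (in_SS.xe e c) K).and (eventually_ge_atTop 0)).exists
  filter_upwards [eventually_ge_atTop (72 * C0)] with C hC φ x hK hx hd b c
  have a1 := hx.nn
  have s : ∀ b c, ‖φ (R.sg b c)‖ ≤ 1 / 12 := fun b c => by
    rcases six b with ⟨a, rfl⟩ | ⟨v, rfl⟩
    · rw [sg_dd, map_sum]
      refine (norm_sum_le_of_le (n := fun _ => x * C0) _ fun e _ => ?_).trans ?_
      · rw [map_mul, norm_mul]
        exact mul_le_mul (hx _ [] le_rfl) (k0 e c φ hK) (norm_nonneg _) a1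
      · have := (mul_le_mul_of_nonneg_right hC a1).trans hd
        simp only [Finset.sum_const, Finset.card_univ, Fintype.card_fin, nsmul_eq_mul]
        push_cast
        linarith
    · simp [sg_vt]
  obtain ⟨c', -, hc⟩ := Finset.exists_max_image Finset.univ (fun c => ‖φ (R.ta b c)‖)
    Finset.univ_nonempty
  refine (hc c (Finset.mem_univ _)).trans ?_
  have e : ‖φ (R.ta b c')‖ ≤ 1 / 12 + ∑ _e : Fin 6, ‖φ (R.ta b c')‖ * (1 / 12) := by
    conv_lhs => rw [ta_eq, map_neg, norm_neg, map_add, map_sum]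
    refine norm_add_le_of_le (s b c') (norm_sum_le_of_le _ fun e _ => ?_)
    rw [map_mul, norm_mul]
    exact mul_le_mul (hc e (Finset.mem_univ _)) (s e c') (norm_nonneg _) (norm_nonneg _)
  simp only [Finset.sum_const, Finset.card_univ, Fintype.card_fin, nsmul_eq_mul] at e
  push_cast at e
  linarith

variable {R}

theorem ev_M {L j : ℕ} {t : A} (h : M (R.g2 L) j j 1 0 t) (K : ℝ) :
    ∀ᶠ C in atTop, ∀ (φ : A →ₐ[ℂ] ℂ) x, (∀ i, ‖φ (R.brg.kf i)‖ ≤ K) → R.Db φ L x → C * x ≤ 1 →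
      ‖φ t‖ ≤ C * x := by
  obtain ⟨C1, -, k1⟩ := h.bd (max K 1)
  obtain ⟨C0, k0⟩ := (R.ta_le K).exists
  filter_upwards [eventually_ge_atTop C0, eventually_ge_atTop C1, eventually_ge_atTop 1] with C hC
    hC' h1 φ x hK hx hd
  have a1 := hx.nn
  have q : Sz (R.g2 L) 0 j (max K 1) 1 (fun _ => x) φ :=
    { big := by
        rintro (i | ⟨b, c⟩ | q) h -
        exacts [(hK i).trans (le_max_left _ _), (k0 φ x hK (fun i w hw => hx i w (by omega))
          ((mul_le_mul_of_nonneg_right hC a1).trans hd) b c).trans (le_max_right _ _),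
          (h trivial).elim]
      small := by
        rintro (i | q | ⟨i, w⟩) h
        · exact h.elim
        · exact h.elim
        · simp only [g2, Sum.elim_inr]
          split_ifs with hw
          exacts [hx i w hw, by simpa using a1]
      mono := monotone_const
      pos := a1
      half := (le_mul_of_one_le_left a1 h1).trans hd
      one := le_rfl }
  refine (k1 0 j 1 _ φ q le_rfl le_rfl).trans ?_
  simpa [be] using mul_le_mul_of_nonneg_right hC' a1

variable (R)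

theorem big_le {L : ℕ} (hL : 0 < L) (K : ℝ) : ∀ᶠ C in atTop, ∀ (φ : A →ₐ[ℂ] ℂ) x,
    (∀ i, ‖φ (R.brg.kf i)‖ ≤ K) → R.Db φ L x → C * x ≤ 1 → ∀ g, ¬ Gn.sm g →
      ‖φ (R.T.val g)‖ ≤ C ∧ ‖φ (R.brg.K.val g)‖ ≤ C ∧
        ‖φ (R.T.val g) - φ (R.brg.K.val g)‖ ≤ C * x := by
  obtain ⟨C0, k0, c0⟩ := (((eventually_all_finite big_fin).2 fun g hg =>
    ev_S (val_S (R := R) hg) K).and (eventually_ge_atTop 1)).exists
  obtain ⟨C1, k1, c1⟩ := (((eventually_all_finite big_fin).2 fun g hg => ev_imp fun h' : g ≠ .pi =>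
    ev_M (m_val (R := R) hL hg h') K).and (eventually_ge_atTop 1)).exists
  filter_upwards [eventually_ge_atTop (6 * C0 * C0 * C1), eventually_ge_atTop (C0 + 1)] with C hC
    hC' φ x hK hx hd g hg
  have a1 := hx.nn
  have a2 : 1 ≤ C0 * C0 := one_le_mul_of_one_le_of_one_le c0 c0
  have a3 : C1 ≤ C := by nlinarith
  have a4 := (mul_le_mul_of_nonneg_right a3 a1).trans hd
  have e : ‖φ (R.T.val g) - φ (R.brg.K.val g)‖ ≤ C * x := by
    by_cases h' : g = .pi
    · subst h'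
      have e1 := k1 .p2 id (by simp) φ x hK hx a4
      have e2 := k0 .pi id φ hK
      have e3 : φ R.T.Pi - φ R.brg.K.Pi =
          -(3 * φ R.T.Pi * φ R.brg.K.Pi * φ (R.T.G.P2 - R.brg.K.G.P2)) := by
        have i1 := congrArg φ R.T.inv
        have i2 := congrArg φ R.brg.K.inv
        simp only [map_mul, map_one, map_ofNat, map_sub] at i1 i2 ⊢
        linear_combination φ R.brg.K.Pi * i1 - φ R.T.Pi * i2
      have e4 : ‖φ R.T.Pi - φ R.brg.K.Pi‖ ≤ 3 * ‖φ R.T.Pi‖ * C0 * (C1 * x) := by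
        rw [e3, norm_neg, norm_mul, norm_mul, norm_mul, Complex.norm_ofNat]
        exact mul_le_mul (mul_le_mul_of_nonneg_left e2 (by positivity)) e1 (norm_nonneg _)
          (by positivity)
      have e5 : ‖φ R.T.Pi‖ ≤ ‖φ R.T.Pi - φ R.brg.K.Pi‖ + C0 :=
        (norm_le_norm_sub_add _ _).trans (add_le_add le_rfl e2)
      have e6 := mul_le_mul_of_nonneg_right hC a1
      have e7 : 0 ≤ C0 * (C1 * x) := by positivity
      have e8 : 6 * (C0 * (C1 * x)) ≤ 1 := by nlinarith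
      have e9 := norm_nonneg (φ R.T.Pi)
      have e10 : ‖φ R.T.Pi‖ ≤ 2 * C0 := by nlinarith
      exact e4.trans (by nlinarith)
    · rw [← map_sub]
      exact (k1 g hg h' φ x hK hx a4).trans (mul_le_mul_of_nonneg_right a3 a1)
  have e' := k0 g hg φ hK
  exact ⟨(norm_le_norm_sub_add _ _).trans (by linarith), by linarith, e⟩

/-- The hypotheses of the family at a point. -/
theorem pq (L N : ℕ) (K : ℝ) : ∀ᶠ C in atTop, ∀ (φ : A →ₐ[ℂ] ℂ) x,
    (∀ f, ‖φ (R.K.c f)‖ = ‖φ f‖) → (∀ i, ‖φ (R.brg.kf i)‖ ≤ K) → R.Db φ (L + 1) x →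
      Eb R.T φ (N / 2) x → C * x ≤ 1 → R.brg.Pq L N C (C * x) φ := by
  obtain ⟨C0, k0, c0⟩ := ((R.big_le (L := L + 1) (by omega) K).and (eventually_ge_atTop 0)).exists
  obtain ⟨C1, k1⟩ := (al_low R.T C0 (N / 2)).exists
  obtain ⟨C2, k2⟩ := (eventually_all.2 fun b => eventually_all.2 fun c => ev_words L fun w hw =>
    (ev_M (m_wY (L := L + 1) w (by omega) (msg (R := R) b c)) K).and
      (ev_M (m_wY (L := L + 1) w (by omega) (mta1 (R := R) b c)) K)).exists
  filter_upwards [eventually_ge_atTop C0, eventually_ge_atTop C1, eventually_ge_atTop C2,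
    eventually_ge_atTop 1, eventually_ge_atTop K] with C h0 h1 h2 h3 h4 φ x hc hK hx he hd
  have a1 := hx.nn
  have a : ∀ {c}, c ≤ C → c * x ≤ C * x := fun h => mul_le_mul_of_nonneg_right h a1
  have hT : ∀ f, ‖φ (R.T.G.c f)‖ = ‖φ f‖ := R.c ▸ hc
  have b0 := k0 φ x hK hx ((a h0).trans hd)
  refine ⟨hT, ?_, fun i => (hK i).trans h4, fun b c w hw =>
    ⟨((k2 b c w hw.le).1 φ x hK hx ((a h2).trans hd)).trans (a h2),
      ((k2 b c w hw.le).2 φ x hK hx ((a h2).trans hd)).trans (a h2)⟩, fun i w hw =>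
    (R.T.le_al φ i w hw).trans ((k1 φ x hT (fun g hg => (b0 g hg).1) he
      ((a h1).trans hd)).trans (a h1)), hd, hd.trans h3⟩
  rintro ⟨s, g⟩ hg
  obtain ⟨e1, e2, e3⟩ := b0 g hg
  rw [(gen_val R.brg.toCmp (s, g)).1, (gen_val R.brg.toCmp (s, g)).2]
  cases s
  · exact ⟨e1.trans h0, e2.trans h0, e3.trans (a h0)⟩
  · refine ⟨(hT _).trans_le (e1.trans h0), (hc _).trans_le (e2.trans h0), ?_⟩
    change ‖φ (R.T.G.c (R.T.val g)) - φ (R.K.c (R.brg.K.val g))‖ ≤ _
    rw [R.c, ← map_sub, ← map_sub, hc, map_sub]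
    exact e3.trans (a h0)

end Raw

section uni
variable {A : Type} [CommRing A] [Algebra ℂ A] (R : Raw A)

theorem Raw.b4_ix (w : List (Fin 4)) (f : ∀ j : Uv, j.A) :
    wd univ.k.b4 w f R.ix = wd R.k.b4 w (f R.ix) := by
  induction w with
  | nil => rfl
  | cons a w ih => exact (bs_pi _ _ (h4 a) _ R.ix).trans (congrArg _ ih)

theorem Raw.z4_ix (w : List (Fin 4)) (f : ∀ j : Uv, j.A) :
    wd (z4 univ.T) w f R.ix = wd (z4 R.T) w (f R.ix) := by
  induction w with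
  | nil => rfl
  | cons a w ih => exact (fr_piG _ (h4 a) _ R.ix).trans (congrArg _ ih)

theorem Raw.dd_ix (i : DI) : univ.dd i R.ix = R.dd i := by
  rcases i with ⟨b, e⟩ | _ | e
  · simp only [Raw.dd, Sum.elim_inl, Finset.sum_apply, Pi.mul_apply]
    exact Finset.sum_congr rfl fun c _ => congrArg _ (ye_pi _ _ c e R.ix)
  · rfl
  · exact congrArg₂ (· - ·) (R.val_ix (.y e)) (Raw.valK_pi (fun j : Uv => j.R) R.ix (.y e))

variable {R} {L N : ℕ} {K d : ℝ} {φ : A →ₐ[ℂ] ℂ}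

theorem Raw.pq_iff : univ.brg.Pq L N K d (R.up φ) ↔ R.brg.Pq L N K d φ := by
  have e1 := Raw.gen_pi (fun j : Uv => j.R) R.ix
  have e2 := Raw.wdY_pi (fun j : Uv => j.R) R.ix
  have e3 : ∀ i w, wd (fr univ.brg.T.G) w (univ.brg.T.sb i) R.ix = wd (fr R.brg.T.G) w (R.brg.T.sb i) :=
    fun i w => R.val_ix (.jet i w)
  constructor <;> intro q
  · refine ⟨fun f => ?_, fun x h => (e1 x).1 ▸ (e1 x).2 ▸ q.big x h, fun i => R.kf_ix i ▸ q.ref i,
      fun c e w h => ⟨(congrArg (‖φ ·‖) (e2 w _)).symm.trans_le (q.jet c e w h).1,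
        (congrArg (‖φ ·‖) (e2 w _)).symm.trans_le (q.jet c e w h).2⟩,
      fun i w h => e3 i w ▸ q.low i w h, q.one, q.dK⟩
    classical
    have := q.cj (Pi.single R.ix f)
    rwa [Raw.up_ap, Raw.up_ap, show univ.brg.T.G.c (Pi.single R.ix f) R.ix =
      R.T.G.c (Pi.single (M := fun j : Uv => j.A) R.ix f R.ix) from rfl, Pi.single_eq_same] at this
  · refine ⟨fun f => q.cj (f R.ix), fun x h => ?_, fun i => ?_,
      fun c e w h => ⟨(congrArg (‖φ ·‖) (e2 w _)).trans_le (q.jet c e w h).1,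
        (congrArg (‖φ ·‖) (e2 w _)).trans_le (q.jet c e w h).2⟩, fun i w h => ?_, q.one, q.dK⟩
    · have := q.big x h
      rwa [← (e1 x).1, ← (e1 x).2] at this
    · exact (congrArg (‖φ ·‖) (R.kf_ix i)).trans_le (q.ref i)
    · exact (congrArg (‖φ ·‖) (e3 i w)).trans_le (q.low i w h)

/-- The constant does not depend on the data. -/
theorem pq_uni (L N : ℕ) (K : ℝ) : ∀ᶠ C in atTop, ∀ (A : Type) [CommRing A] [Algebra ℂ A]
    (R : Raw A) (φ : A →ₐ[ℂ] ℂ) x, (∀ f, ‖φ (R.K.c f)‖ = ‖φ f‖) → (∀ i, ‖φ (R.brg.kf i)‖ ≤ K) →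
      R.Db φ (L + 1) x → Eb R.T φ (N / 2) x → C * x ≤ 1 → R.brg.Pq L N C (C * x) φ :=
  (univ.pq L N K).mono fun _ h _ _ _ R φ x h1 h2 h3 h4 h5 => Raw.pq_iff.1 (h (R.up φ) x
    (fun f => h1 (f R.ix)) (fun i => (congrArg (‖φ ·‖) (R.kf_ix i)).trans_le (h2 i))
    (fun i w hw => by rw [Raw.up_ap, Raw.b4_ix, Raw.dd_ix]; exact h3 i w hw)
    (fun s w hw => by
      rw [Raw.up_ap, Raw.z4_ix, show univ.T.pp s R.ix = R.T.pp s by cases s <;> rfl]
      exact h4 s w hw) h5)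

end uni
end Vale.Agent.P354XR
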